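import Vale.Agent.P046.Phase.Spec
import Vale.Agent.P046.Tree.BallsLocal

/-!
# Few roots without a tree neighbourhood at the end of the second phase
-/

namespace Vale.Agent.P046.Phase

open Finset Chain Flags

variable {n : ℕ}

/-- A killed expectation is a sum against weights. -/
lemma killed_eq_sum (G : ℕ → St n → Prop) (f : St n → ℝ) (k j : ℕ) (E : St n) :
    killed G k (fun _ F => f F) j E =
      ∑ F : St n, killed G k (fun _ F' => if F' = F then 1 else 0) j E * f F := by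
  have h : (fun (_ : ℕ) (F' : St n) => f F') =
      fun _ F' => ∑ F : St n, f F * (if F' = F then (1 : ℝ) else 0) := by
    funext _ F'
    simp
  conv_lhs => rw [h]
  rw [killed_sum]
  exact sum_congr rfl fun F _ => by rw [killed_mul, mul_comm]

open Classical in
/-- The expected number of bad pairs in a killed expectation. -/
lemma killed_bad_le (G : ℕ → St n → Prop) (k j : ℕ) (E : St n) {A q : ℝ} (hA : 0 ≤ A)
    (hq : 0 ≤ q) (R : ℕ)
    (hpres : ∀ S : St n, (∀ g ∈ S, g.card = 2) → S.card ≤ 2 * R + 2 →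
      killed G k (fun _ F => if S ⊆ F then 1 else 0) j E ≤ A * q ^ S.card) :
    killed G k (fun _ F => (((complete n).filter fun e => Balls.Bad R F e).card : ℝ)) j E
      ≤ A * (n : ℝ) ^ 2 * q ^ 2 * (R + 1) * (R + 2) ^ 2 *
          (1 + (2 * R + 1) * n * q ^ 2) ^ R := by
  rw [killed_eq_sum]
  refine Balls.expected_bad_le _ (fun F => F) hA hq R
    (fun F => killed_nonneg k j E fun _ _ => by split_ifs <;> norm_num) fun S h2 hS => ?_
  refine le_of_eq_of_le ?_ (hpres S h2 hS)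
  rw [killed_eq_sum G (fun F => if S ⊆ F then 1 else 0) k j E]
  exact sum_congr rfl fun F _ => by split_ifs <;> simp

/-- Safe states consist of pairs. -/
lemma safe_subset {i : ℕ} {E : St n} (h : Spec.Safe n i E) : E ⊆ complete n := by
  rcases le_total i (iOne n) with hi | hi
  · exact (h.1 hi).good.size.1
  · exact (h.2 hi).size.1

/-- The numerical margin of the ball count. -/
lemma balls_margin {L p : ℝ} {R n : ℕ} (hn : 7 ≤ n) (hL : L = Real.log n) (hbig : (10 : ℝ) ^ 20 ≤ L)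
    (hR : (R : ℝ) ≤ 2 * (Real.rpow L (1 / 2) + 1)) (hp0 : 0 ≤ p)
    (hp : p ≤ Real.sqrt (Real.exp (Real.rpow L (1 / 5)) / n)) :
    1 * (n : ℝ) ^ 2 * (3 * p) ^ 2 * (R + 1) * (R + 2) ^ 2 *
        (1 + (2 * R + 1) * n * (3 * p) ^ 2) ^ R
      ≤ Real.rpow n (-(1 / 20)) * (n : ℝ) ^ 2 * p := by
  simp only [Real.rpow_eq_pow] at *
  have hn0 : (0 : ℝ) < n := by exact_mod_cast (by omega : 0 < n)
  have hL0 : 0 < L := lt_of_lt_of_le (by norm_num) hbig
  set x : ℝ := L ^ (1 / 5 : ℝ) with hx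
  set s : ℝ := L ^ (1 / 2 : ℝ) with hs
  have hx0 : 0 ≤ x := Real.rpow_nonneg hL0.le _
  have hs0 : 0 ≤ s := Real.rpow_nonneg hL0.le _
  have hs2 : s ^ 2 = L := by
    rw [hs, ← Real.rpow_natCast, ← Real.rpow_mul hL0.le]; norm_num
  have hsbig : (10 : ℝ) ^ 10 ≤ s := by
    nlinarith [hs2, hbig, hs0]
  have hx5 : x ^ 5 = L := by
    rw [hx, ← Real.rpow_natCast, ← Real.rpow_mul hL0.le]; norm_num
  set D := Real.exp x with hD
  have hD1 : 1 ≤ D := Real.one_le_exp hx0
  have hDbig : L / 120 ≤ D := by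
    have h := Real.pow_div_factorial_le_exp x hx0 5
    rw [hx5] at h
    norm_num [Nat.factorial] at h
    linarith
  have hDs : 100 * (s + 2) ≤ D := by nlinarith [hs2, hsbig]
  have hRD : 19 * ((R : ℝ) + 2) ≤ D := by linarith
  have hp2 : (n : ℝ) * p ^ 2 ≤ D := by
    have h := pow_le_pow_left₀ hp0 hp 2
    rw [Real.sq_sqrt (by positivity), le_div_iff₀ hn0] at h
    linarith
  have hbase : 1 + (2 * (R : ℝ) + 1) * n * (3 * p) ^ 2 ≤ D ^ 2 := by
    have h1 : (2 * (R : ℝ) + 1) * n * (3 * p) ^ 2 = 9 * (2 * R + 1) * (n * p ^ 2) := by ring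
    have hR0 : (0 : ℝ) ≤ R := Nat.cast_nonneg _
    have h2 := mul_le_mul_of_nonneg_left hp2 (show (0 : ℝ) ≤ 9 * (2 * R + 1) by positivity)
    have h3 := mul_le_mul_of_nonneg_right hRD (zero_le_one.trans hD1)
    rw [h1]
    nlinarith
  have hp1 : p ≤ Real.exp (x / 2 - L / 2) := by
    refine hp.trans_eq ?_
    rw [Real.exp_sub, Real.exp_half, Real.exp_half, hL, Real.exp_log hn0,
      Real.sqrt_div (Real.exp_pos _).le]
  have hpoly : 9 * ((R : ℝ) + 1) * (R + 2) ^ 2 ≤ D ^ 4 := by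
    have h9 : (9 : ℝ) ≤ D := by linarith [hRD, Nat.cast_nonneg (α := ℝ) R]
    have hR2 : (R : ℝ) + 2 ≤ D := by linarith [Nat.cast_nonneg (α := ℝ) R]
    have hR0 : (0 : ℝ) ≤ R := Nat.cast_nonneg _
    calc 9 * ((R : ℝ) + 1) * (R + 2) ^ 2 ≤ D * D * D ^ 2 := by gcongr; linarith
      _ = D ^ 4 := by ring
  have hexp : (4 + 2 * (R : ℝ)) * x + (x / 2 - L / 2) ≤ -(L / 20) := by
    set y : ℝ := L ^ (1 / 10 : ℝ) with hy
    have hy0 : 0 ≤ y := Real.rpow_nonneg hL0.le _
    have hxy : x = y ^ 2 := by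
      rw [hx, hy, ← Real.rpow_natCast (L ^ (1 / 10 : ℝ)), ← Real.rpow_mul hL0.le]; norm_num
    have hsy : s = y ^ 5 := by
      rw [hs, hy, ← Real.rpow_natCast (L ^ (1 / 10 : ℝ)), ← Real.rpow_mul hL0.le]; norm_num
    have hLy : L = y ^ 10 := by
      rw [hy, ← Real.rpow_natCast, ← Real.rpow_mul hL0.le]; norm_num
    have hy100 : (100 : ℝ) ≤ y := by
      refine le_of_pow_le_pow_left₀ (n := 10) (by norm_num) hy0 ?_
      rw [← hLy]
      exact le_trans (by norm_num) hbig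
    have h1 : (4 + 2 * (R : ℝ)) * x ≤ (4 + 4 * (s + 1)) * x :=
      mul_le_mul_of_nonneg_right (by linarith) hx0
    have h3 : (100 : ℝ) ^ 3 ≤ y ^ 3 := pow_le_pow_left₀ (by norm_num) hy100 3
    have h5 : y ^ 2 * 1 ≤ y ^ 2 * y ^ 5 :=
      mul_le_mul_of_nonneg_left (one_le_pow₀ (by linarith)) (sq_nonneg y)
    have h7 : 0 ≤ y ^ 7 := pow_nonneg hy0 7
    rw [hxy, hsy, hLy] at *
    nlinarith [mul_le_mul_of_nonneg_left h3 h7]
  have hfin : 9 * p * ((R : ℝ) + 1) * (R + 2) ^ 2 *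
      (1 + (2 * R + 1) * n * (3 * p) ^ 2) ^ R ≤ (n : ℝ) ^ (-(1 / 20) : ℝ) := by
    calc 9 * p * ((R : ℝ) + 1) * (R + 2) ^ 2 * (1 + (2 * R + 1) * n * (3 * p) ^ 2) ^ R
        = (9 * ((R : ℝ) + 1) * (R + 2) ^ 2) *
            (1 + (2 * R + 1) * n * (3 * p) ^ 2) ^ R * p := by ring
      _ ≤ D ^ 4 * (D ^ 2) ^ R * Real.exp (x / 2 - L / 2) := by gcongr
      _ = Real.exp ((4 + 2 * (R : ℝ)) * x + (x / 2 - L / 2)) := by
          rw [hD, ← pow_mul, ← Real.exp_nat_mul, ← Real.exp_nat_mul, ← Real.exp_add,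
            ← Real.exp_add]
          congr 1
          push_cast
          ring
      _ ≤ Real.exp (-(L / 20)) := Real.exp_le_exp.2 hexp
      _ = (n : ℝ) ^ (-(1 / 20) : ℝ) := by
          rw [Real.rpow_def_of_pos hn0, ← hL]
          congr 1
          ring
  have := mul_le_mul_of_nonneg_left hfin (show (0 : ℝ) ≤ (n : ℝ) ^ 2 * p by positivity)
  linarith

/-- **Few roots fail to have a tree neighbourhood.** -/
theorem balls (hP : Spec.Present) : Spec.Balls := by
  classical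
  obtain ⟨N₀, hN₀⟩ := hP
  obtain ⟨N₁, hN₁⟩ := Filter.eventually_atTop.1
    ((Real.tendsto_log_atTop.comp tendsto_natCast_atTop_atTop).eventually_ge_atTop ((10 : ℝ) ^ 20))
  refine ⟨max (max N₀ N₁) 7, fun n hn k hk => ?_⟩
  have hn0 : N₀ ≤ n := by omega
  have hn7 : 7 ≤ n := by omega
  have hL : (10 : ℝ) ^ 20 ≤ Real.log n := hN₁ n (by omega)
  set L := Real.log n with hLdef
  have hL0 : 0 ≤ L := le_trans (by norm_num) hL
  have hnR : (7 : ℝ) ≤ n := by exact_mod_cast hn7
  have hnpos : (0 : ℝ) < n := by linarith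
  set R := 2 * Spec.radius n with hRdef
  have hR : (R : ℝ) ≤ 2 * (Real.rpow L (1 / 2) + 1) := by
    have h := Nat.ceil_lt_add_one (Real.rpow_nonneg hL0 (1 / 2))
    have he : ((Spec.radius n : ℕ) : ℝ) = (⌈L ^ (1 / 2 : ℝ)⌉₊ : ℝ) := by
      simp only [Spec.radius, Real.rpow_eq_pow, ← hLdef]
    rw [hRdef]
    push_cast
    simp only [Real.rpow_eq_pow]
    linarith
  -- the density at the end of the second phase
  set C : ℝ := (n.choose 2 : ℝ) with hC
  set r : ℝ := Real.sqrt (D0 n / n) with hr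
  have hC0 : 0 < C := by
    rw [hC]; exact_mod_cast Nat.choose_pos (by omega)
  have hr0 : 3 ≤ C * r := by
    have h1 : 1 / (n : ℝ) ≤ r := by
      rw [hr]
      refine Real.le_sqrt_of_sq_le ?_
      rw [div_pow, one_pow, div_le_div_iff₀ (by positivity) hnpos, one_mul]
      have h1 : (1 : ℝ) ≤ D0 n := Real.one_le_exp (Real.rpow_nonneg hL0 _)
      have h2 := mul_le_mul_of_nonneg_right h1 (sq_nonneg (n : ℝ))
      nlinarith
    have h2 : C = n * ((n : ℝ) - 1) / 2 := by rw [hC, Nat.cast_choose_two]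
    have h3 := mul_le_mul_of_nonneg_left h1 hC0.le
    have h4 : C * (1 / (n : ℝ)) = ((n : ℝ) - 1) / 2 := by rw [h2]; field_simp
    linarith
  set p := pp n (iTwo n) with hpdef
  have hceil : C * (1 - r) / 3 ≤ (iTwo n : ℝ) := by
    simp only [iTwo, ← hC, ← hr]; exact Nat.le_ceil _
  have hceil' : (3 : ℝ) * iTwo n ≤ C := by
    rcases le_total (C * (1 - r) / 3) 0 with h | h
    · have : iTwo n = 0 := by simp only [iTwo, ← hC, ← hr, Nat.ceil_eq_zero]; exact h
      simp [this, hC0.le]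
    · have := Nat.ceil_lt_add_one h
      simp only [iTwo, ← hC, ← hr]
      linarith
  have hp0 : 0 ≤ p := by
    simp only [hpdef, pp, mm, ← hC]
    exact div_nonneg (by linarith) hC0.le
  have hp : p ≤ Real.sqrt (Real.exp (Real.rpow L (1 / 5)) / n) := by
    have hre : r = Real.sqrt (Real.exp (Real.rpow L (1 / 5)) / n) := by rw [hr, D0, hLdef]
    rw [← hre, hpdef, pp, mm, ← hC, div_le_iff₀ hC0]
    linarith
  have hSmall : ∀ S : St n, S.card ≤ 2 * R + 2 → (S.card : ℝ) ≤ L ^ 3 := by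
    intro S hS
    have h1 : (S.card : ℝ) ≤ 2 * R + 2 := by exact_mod_cast hS
    have h2 : Real.rpow L (1 / 2) ≤ L := by
      simp only [Real.rpow_eq_pow]
      exact Real.rpow_le_self_of_one_le (le_trans (by norm_num) hL) (by norm_num)
    have h3 : (100 : ℝ) * L ≤ L ^ 3 := by nlinarith [mul_le_mul hL hL (by norm_num) hL0]
    linarith [show (1 : ℝ) ≤ L from le_trans (by norm_num) hL]
  refine le_trans (killed_mono (g := fun _ F =>
    (((complete n).filter fun e => Balls.Bad R F e).card : ℝ)) _ _ _ ?_) ?_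
  · intro F hF
    split_ifs with hs
    · exact_mod_cast Balls.local_card_not_isTree_le (F := F)
        (ev := fun e : {e // e ∈ F} => e.1) (tv := id) Subtype.val_injective Function.injective_id
        (fun T hT _ => hT) (fun T g hg => (mem_filter.1 hg).2)
        (fun e => (mem_powersetCard.1 (hF e.2)).2) (fun e => e.2) (by omega : 2 * k ≤ R)
    · positivity
  · refine (killed_bad_le (Spec.Safe n) (iTwo n) 0 (complete n) (A := 1) (q := 3 * p) zero_le_one
      (by positivity) R fun S _ hS => ?_).trans (balls_margin hn7 hLdef hL hR hp0 hp)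
    rw [one_mul]
    exact hN₀ n hn0 (iTwo n) le_rfl S (hSmall S hS)

end Vale.Agent.P046.Phase
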