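import Vale.Agent.P046.Phase.EndScale

/-!
# The numerical facts at the end of the second phase, proved
-/

namespace Vale.Agent.P046.Phase

open Flags

/-- **The numerical facts at the end of the second phase.** -/
theorem endNumerics : Spec.EndNumerics := by
  intro ρ hρ
  set τ : ℝ := min 1 ρ / 10 ^ 14 with hτ
  have hτ0 : 0 < τ := by positivity
  have hτρ : 10 ^ 14 * τ ≤ ρ := by
    rw [hτ, mul_div_cancel₀ _ (by norm_num)]; exact min_le_right _ _
  have hτ1 : 10 ^ 14 * τ ≤ 1 := by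
    rw [hτ, mul_div_cancel₀ _ (by norm_num)]; exact min_le_left _ _
  obtain ⟨X, hX⟩ := Filter.eventually_atTop.1
    (((Real.tendsto_pow_mul_exp_neg_atTop_nhds_zero 100).comp
      (Filter.tendsto_id.atTop_div_const (show (0 : ℝ) < 10 by norm_num))).eventually_le_const
        (show (0 : ℝ) < τ / 10 ^ 100 by positivity))
  obtain ⟨N₁, hN₁⟩ := Filter.eventually_atTop.1
    ((Real.tendsto_log_atTop.comp tendsto_natCast_atTop_atTop).eventually_ge_atTop
      ((max X (10 ^ 8)) ^ 5))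
  refine ⟨max N₁ 7, fun n hn => ?_⟩
  have hn7 : 7 ≤ n := by omega
  have hLn : (max X (10 ^ 8)) ^ 5 ≤ Real.log n := hN₁ n (by omega)
  have hm0 : (0 : ℝ) ≤ max X (10 ^ 8) := le_trans (by norm_num) (le_max_right _ _)
  have hLn0 : 0 ≤ Real.log n := le_trans (pow_nonneg hm0 5) hLn
  set x : ℝ := Real.rpow (Real.log n) (1 / 5) with hxdef
  have hx5 : x ^ 5 = Real.log n := by
    rw [hxdef, Real.rpow_eq_pow, ← Real.rpow_natCast, ← Real.rpow_mul hLn0]; norm_num
  have hxm : max X (10 ^ 8) ≤ x :=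
    le_of_pow_le_pow_left₀ (n := 5) (by norm_num) (Real.rpow_nonneg hLn0 _) (by rw [hx5]; exact hLn)
  have h : EndScale n x τ := by
    refine ⟨hn7, le_trans (le_max_right _ _) hxm, hx5.symm, hτ0,
      by rw [le_div_iff₀ (by norm_num)]; linarith, ?_⟩
    have := hX x (le_trans (le_max_left _ _) hxm)
    simp only [Function.comp, id] at this
    rw [le_div_iff₀ (by positivity)] at this
    calc x ^ 100 * Real.exp (-(x / 10)) = (x / 10) ^ 100 * Real.exp (-(x / 10)) * 10 ^ 100 := by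
          rw [div_pow]; field_simp
      _ ≤ τ := this
  obtain ⟨hp0, hple, hlo, hhi, hroom, h12, hi2⟩ := h.density
  refine ⟨h.small_env, h12, hi2, h.balls_term (by linarith), fun g hg D hD => ?_⟩
  obtain ⟨hy, hz, hw, hv, y0, z0, w0, v0⟩ := h.env
  have hx1 := h.x1
  have hx0 : 0 ≤ x := by linarith
  set E1 := Real.exp (-(x / 2)) with hE1
  have hE1p : 0 < E1 := Real.exp_pos _
  have e2 : Real.exp (-x) = E1 ^ 2 := by
    rw [hE1, ← Real.exp_nat_mul]; push_cast; ring_nf
  have e3 : Real.exp (-(3 * x / 2)) = E1 ^ 3 := by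
    rw [hE1, ← Real.exp_nat_mul]; push_cast; ring_nf
  rw [e2] at hz
  rw [e3] at hw hv
  have hgy := hg.trans hy
  have b10 : x ^ 10 * E1 ≤ τ := h.bound (by norm_num) (by linarith)
  have hg1 : |g| ≤ 1 / 100 := by linarith
  obtain ⟨hg2, hg3⟩ := abs_le.1 hg1
  set m := mu n (iTwo n) with hm
  have hexp := Real.add_one_le_exp x
  have hxbig := h.hx
  have hDlo : Real.exp x / 4 ≤ D := by
    have := mul_le_mul hlo (show (99 : ℝ) / 100 ≤ 1 + g by linarith) (by norm_num)
      (le_trans (by positivity) hlo)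
    linarith
  have hDhi : D ≤ 2 * Real.exp x := by
    have := mul_le_mul hhi (show 1 + g ≤ (101 : ℝ) / 100 by linarith) (by linarith)
      (Real.exp_pos x).le
    linarith
  set lam := Real.log (1 + 2 * D) with hlamdef
  have hexp2 : (5 : ℝ) ≤ Real.exp 2 := by
    have := Real.sum_le_exp_of_nonneg (show (0 : ℝ) ≤ 2 by norm_num) 3
    norm_num [Finset.sum_range_succ] at this
    linarith
  have hlam2 : lam ≤ x + 2 := by
    rw [hlamdef, Real.log_le_iff_le_exp (by linarith [Real.exp_pos x]), Real.exp_add]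
    have := mul_le_mul_of_nonneg_left hexp2 (Real.exp_pos x).le
    linarith
  have hlam1 : 1 ≤ lam := by
    rw [hlamdef, Real.le_log_iff_exp_le (by linarith [Real.exp_pos x])]
    linarith [Real.exp_one_lt_d9]
  have hlam3 : lam ≤ 2 * x := by linarith
  set eps : ℝ := 10 * x ^ 25 * E1 with heps
  have heps0 : 0 < eps := by positivity
  have b26 : x ^ 26 * E1 ≤ τ := h.bound (by norm_num) (by linarith)
  have b27 : x ^ 27 * E1 ≤ τ := h.bound (by norm_num) (by linarith)
  have p7 : (7 : ℝ) ≤ x := by linarith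
  have hp12 : x ^ 10 * 7 ≤ x ^ 25 :=
    le_trans (mul_le_mul_of_nonneg_left p7 (pow_nonneg hx0 10))
      (le_of_eq_of_le (pow_succ x 10).symm (pow_le_pow_right₀ hx1 (by norm_num)))
  have hp25 : x ^ 20 * 7 ≤ x ^ 50 :=
    le_trans (mul_le_mul_of_nonneg_left p7 (pow_nonneg hx0 20))
      (le_of_eq_of_le (pow_succ x 20).symm (pow_le_pow_right₀ hx1 (by norm_num)))
  have hp35 : x ^ 30 ≤ x ^ 75 := pow_le_pow_right₀ hx1 (by norm_num)
  have hp45 : x ^ 40 ≤ x ^ 75 := pow_le_pow_right₀ hx1 (by norm_num)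
  have hp55 : x ^ 50 ≤ x ^ 75 := pow_le_pow_right₀ hx1 (by norm_num)
  have heps2 : eps ^ 2 = 100 * x ^ 50 * E1 ^ 2 := by rw [heps]; ring
  have heps3 : eps ^ 3 = 1000 * x ^ 75 * E1 ^ 3 := by rw [heps]; ring
  have hy2 : (envII n).y (iTwo n) ^ 2 ≤ 9 * x ^ 20 * E1 ^ 2 :=
    (pow_le_pow_left₀ y0 hy 2).trans_eq (by ring)
  have hyz : (envII n).y (iTwo n) * (envII n).z (iTwo n) ≤ 9 * x ^ 30 * E1 ^ 3 :=
    (mul_le_mul hy hz z0 (by positivity)).trans_eq (by ring)
  have c1 : 0 ≤ E1 ^ 2 := by positivity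
  have c2 : 0 ≤ E1 ^ 3 := by positivity
  have m25 := mul_le_mul_of_nonneg_right hp25 c1
  have m35 := mul_le_mul_of_nonneg_right hp35 c2
  have m45 := mul_le_mul_of_nonneg_right hp45 c2
  have m55 := mul_le_mul_of_nonneg_right hp55 c2
  have m12 := mul_le_mul_of_nonneg_right hp12 hE1p.le
  have hn0 := h.n0
  -- the first order term
  have hd1 : 4 * eps * lam ≤ 80 * τ := by
    have := mul_le_mul_of_nonneg_left hlam3 (show 0 ≤ 4 * eps by positivity)
    rw [heps] at this ⊢
    linarith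
  have hd2 : 4 * eps * lam ^ 2 ≤ 160 * τ := by
    have := mul_le_mul_of_nonneg_left (pow_le_pow_left₀ (by linarith) hlam3 2)
      (show 0 ≤ 4 * eps by positivity)
    rw [heps] at this ⊢
    linarith
  have hd3 : 320 * (4 * eps) ^ 3 * lam ^ 4 * Real.exp (6 / 5 * lam) ≤ 10 ^ 10 * τ := by
    have hl4 : lam ^ 4 ≤ 16 * x ^ 4 :=
      (pow_le_pow_left₀ (by linarith) hlam3 4).trans_eq (by ring)
    have he3 : Real.exp (12 / 5) ≤ 27 := by
      refine (Real.exp_le_exp.2 (show (12 : ℝ) / 5 ≤ ((3 : ℕ) : ℝ) * 1 by norm_num)).trans ?_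
      rw [Real.exp_nat_mul]
      refine (pow_le_pow_left₀ (Real.exp_pos 1).le Real.exp_one_lt_d9.le 3).trans ?_
      norm_num
    have he : E1 ^ 3 * Real.exp (6 / 5 * lam) ≤ 27 * Real.exp (-(3 * x / 10)) := by
      rw [← e3, ← Real.exp_add]
      refine (Real.exp_le_exp.2 (show -(3 * x / 2) + 6 / 5 * lam ≤ 12 / 5 + -(3 * x / 10)
        by linarith)).trans ?_
      rw [Real.exp_add]
      exact mul_le_mul_of_nonneg_right he3 (Real.exp_pos _).le
    have b79 : x ^ 79 * Real.exp (-(3 * x / 10)) ≤ τ := h.bound (by norm_num) (by linarith)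
    calc 320 * (4 * eps) ^ 3 * lam ^ 4 * Real.exp (6 / 5 * lam)
        = 20480000 * x ^ 75 * lam ^ 4 * (E1 ^ 3 * Real.exp (6 / 5 * lam)) := by
          rw [mul_pow, heps3]; ring
      _ ≤ 20480000 * x ^ 75 * (16 * x ^ 4) * (27 * Real.exp (-(3 * x / 10))) := by gcongr
      _ = 8847360000 * (x ^ 79 * Real.exp (-(3 * x / 10))) := by ring
      _ ≤ 10 ^ 10 * τ := by linarith
  set q : ℕ := ⌈22 * x⌉₊ with hqdef
  set k : ℕ := 2 * (⌈100 * lam⌉₊ * (q + 1)) with hkdef
  have hq1 : 22 * x ≤ q := Nat.le_ceil _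
  have hq2 : (q : ℝ) < 22 * x + 1 := Nat.ceil_lt_add_one (by positivity)
  have hk : (k : ℝ) ≤ 9648 * x ^ 2 := by
    rw [hkdef]
    push_cast
    have hc : (⌈100 * lam⌉₊ : ℝ) ≤ 201 * x := by
      have := Nat.ceil_lt_add_one (show 0 ≤ 100 * lam by linarith)
      linarith
    have := mul_le_mul hc (show (q : ℝ) + 1 ≤ 24 * x by linarith) (by positivity) (by positivity)
    linarith
  refine ⟨eps, lam, q, k, heps0, hlam1, le_rfl, ?_, by linarith, ?_, ?_, ?_, ?_, ?_, ?_,
    by linarith, by omega, even_two_mul _, ?_, ?_, ?_, ?_⟩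
  · rw [heps2, ← e2, Real.exp_neg, div_le_iff₀ (lt_of_lt_of_le (by positivity) hDlo)]
    have h50 : (1 : ℝ) ≤ x ^ 50 := one_le_pow₀ hx1
    have h51 := mul_le_mul_of_nonneg_left hDlo
      (show (0 : ℝ) ≤ 100 * x ^ 50 * (Real.exp x)⁻¹ by positivity)
    have h52 : 100 * x ^ 50 * (Real.exp x)⁻¹ * (Real.exp x / 4) = 25 * x ^ 50 := by field_simp; ring
    linarith
  · rw [heps]
    linarith [mul_nonneg (pow_nonneg hx0 10) hE1p.le]
  · rw [heps2]
    linarith [mul_nonneg (pow_nonneg hx0 20) c1]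
  · rw [heps2]
    linarith [mul_nonneg (pow_nonneg hx0 20) c1]
  · rw [heps3]
    linarith [mul_nonneg (pow_nonneg hx0 75) c2]
  · rw [heps3]
    linarith [mul_nonneg (pow_nonneg hx0 75) c2]
  · have h93 : (0.93 : ℝ) ^ q ≤ Real.exp (-(3 * x / 2)) := by
      refine (pow_le_pow_left₀ (by norm_num) (show (0.93 : ℝ) ≤ Real.exp (-(7 / 100)) by
        linarith [Real.add_one_le_exp (-(7 / 100) : ℝ)]) q).trans ?_
      rw [← Real.exp_nat_mul]
      exact Real.exp_le_exp.2 (by linarith)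
    rw [e3] at h93
    have h75 : (1 : ℝ) ≤ x ^ 75 := one_le_pow₀ hx1
    have hl : (1 : ℝ) ≤ lam ^ 4 := one_le_pow₀ hlam1
    have h76 : E1 ^ 3 ≤ eps ^ 3 * lam ^ 4 := by
      rw [heps3]
      have := mul_le_mul h75 hl (by norm_num) (by positivity)
      have := mul_le_mul_of_nonneg_right this c2
      linarith
    rw [mul_pow]
    linarith
  · have hk1 : ((k + 1 : ℕ) : ℝ) ≤ Spec.radius n := by
      refine le_trans ?_ (Nat.le_ceil _)
      rw [Real.rpow_eq_pow]
      refine le_of_pow_le_pow_left₀ (n := 2) (by norm_num) (Real.rpow_nonneg hLn0 _) ?_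
      rw [← Real.rpow_natCast (Real.log n ^ (1 / 2 : ℝ)), ← Real.rpow_mul hLn0]
      norm_num
      rw [← hx5]
      have hkk : (k : ℝ) + 1 ≤ 9649 * x ^ 2 := by
        have : (1 : ℝ) ≤ x ^ 2 := one_le_pow₀ hx1
        linarith
      have h2 := pow_le_pow_left₀ (by positivity) hkk 2
      have h3 := mul_le_mul_of_nonneg_left (show (93103201 : ℝ) ≤ x by linarith)
        (pow_nonneg hx0 4)
      linarith
    exact_mod_cast hk1
  · rw [Tree.delta]
    linarith
  · have hmm : mm n (iTwo n) ≤ (n : ℝ) ^ 2 := by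
      have hC : (n.choose 2 : ℝ) ≤ (n : ℝ) ^ 2 := by exact_mod_cast Nat.choose_le_pow n 2
      rw [mm]
      linarith [show (0 : ℝ) ≤ iTwo n from Nat.cast_nonneg _]
    have h18 : 9 * D ≤ Real.exp (x + 3) := by
      rw [Real.exp_add]
      have h3 : (18 : ℝ) ≤ Real.exp 3 := by
        have := pow_le_pow_left₀ (by norm_num) Real.exp_one_gt_d9.le 3
        rw [← Real.exp_nat_mul] at this
        norm_num at this
        linarith
      have := mul_le_mul_of_nonneg_left h3 (Real.exp_pos x).le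
      linarith
    have hpow : (9 * D) ^ (2 * k + 3) ≤ Real.exp (x ^ 5 / 2) := by
      refine (pow_le_pow_left₀ (by linarith [Real.exp_pos x]) h18 _).trans ?_
      rw [← Real.exp_nat_mul, Real.exp_le_exp]
      push_cast
      have h20 : 2 * (k : ℝ) + 3 ≤ 20000 * x ^ 2 := by
        have : (1 : ℝ) ≤ x ^ 2 := one_le_pow₀ hx1
        linarith
      refine (mul_le_mul h20 (show x + 3 ≤ 4 * x by linarith) (by linarith) (by positivity)).trans ?_
      have h16 := mul_le_mul_of_nonneg_left (show (160000 : ℝ) ≤ x by linarith) (pow_nonneg hx0 3)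
      have h17 : x ^ 4 ≤ x ^ 5 := pow_le_pow_right₀ hx1 (by norm_num)
      linarith
    have hnexp : Real.exp (x ^ 5 / 2) ≤ ρ * n := by
      have hb : Real.exp (-(x ^ 5 / 2)) ≤ ρ := by
        have := h.bound (j := 0) (by norm_num) (show -(x ^ 5 / 2) ≤ -(x / 10) by
          linarith [h.x_le])
        simp at this
        linarith
      have := mul_le_mul_of_nonneg_right hb h.n0.le
      rw [h.n_eq, ← Real.exp_add] at this
      rw [h.n_eq]
      refine le_trans (le_of_eq ?_) this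
      congr 1
      ring
    calc mm n (iTwo n) * (9 * D) ^ (2 * k + 3)
        ≤ (n : ℝ) ^ 2 * (ρ * n) := mul_le_mul hmm (hpow.trans hnexp)
          (pow_nonneg (by linarith [Real.exp_pos x]) _) (by positivity)
      _ = ρ * (n : ℝ) ^ 3 := by ring
  · exact h.constant_term hD hgy (by linarith)

end Vale.Agent.P046.Phase
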