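import Vale.Agent.P046.Phase.Main
import Vale.Agent.P046.Phase.Balls
import Vale.Agent.P046.Phase.EndNumerics

/-!
# Assembly of the phases
-/

namespace Vale.Agent.P046.Phase

open Filter Topology

/-- The limits from the statements of the two phases and the presence bound. -/
theorem limits_of_phases (h1 : Spec.PhaseOne) (h2 : Spec.PhaseTwo) (hP : Spec.Present) :
    Tendsto (fun n : ℕ => expFinal (fun G => (G.card : ℝ))
        (Flags.complete n) / (n:ℝ) ^ ((3:ℝ) / 2))
      atTop (𝓝 (1 / (2 * Real.sqrt 2))) ∧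
    ∀ ε : ℝ, 0 < ε → Tendsto (fun n : ℕ => expFinal (fun G =>
        if ε ≤ |(G.card : ℝ) / (n:ℝ) ^ ((3:ℝ) / 2) - 1 / (2 * Real.sqrt 2)| then 1 else 0)
          (Flags.complete n)) atTop (𝓝 0) := by
  classical
  convert limits (mean_abs_small h1 h2 (balls hP) endNumerics) using 6

end Vale.Agent.P046.Phase
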