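import Vale.Agent.P046.Phase.One.MomentBound
import Vale.Agent.P046.Phase.One.Union

/-!
# The first phase keeps its envelope

`phaseOne` assumes the one step estimates and the structural bound as hypotheses; they are proved
in their own modules.
-/

namespace Vale.Agent.P046.Phase.One

open Finset Filter Chain Flags Phase.Spec

variable {n : ℕ}

lemma scale {C c x N : ℝ} (hC : C ≤ c) (hx : x ≤ N) (hC0 : 0 ≤ C) (hN : 0 ≤ N) : C * x ≤ c * N :=
  (mul_le_mul_of_nonneg_left hx hC0).trans (mul_le_mul_of_nonneg_right hC hN)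

lemma jump_mono {R : St n} {f : ℕ → St n → ℝ} {k : ℕ} {E : St n} {B B' : ℝ}
    (h : JumpLE R f k E B) (hB : B ≤ B') : JumpLE R f k E B' :=
  fun t ht hR => (h t ht hR).trans hB

open Classical in
/-- Failure of the codegree bound. -/
theorem ev_y (hD : Flags.Spec.DriftY) (hN : Flags.Spec.NoiseY) :
    ∀ᶠ n : ℕ in atTop, ∀ e ∈ complete n, ∀ i,
      killed (Run n) i (fun k F => if {e} ⊆ F ∧ (envI n).y k < |yy k F e| then 1 else 0) 0
        (complete n) ≤ tiny n := by
  obtain ⟨C1, hC1, hD⟩ := hD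
  obtain ⟨C2, hC2, hN⟩ := hN
  have hC : 0 ≤ 3 * C1 + C2 + 7 := by linarith
  filter_upwards [ev_tail _ hC (-(13 / 100)) (-(13 / 50)) (-(27 / 100)) (-(7 / 25)) (139 / 1000)
      (by norm_num) (by norm_num) (by norm_num) (by norm_num) (by norm_num),
    ev_regime, ev_rates, eventually_ge_atTop 3] with n ht hreg hrates hn e he i
  have hn0 : (0 : ℝ) < n := by exact_mod_cast (by omega : 0 < n)
  refine ht {e} (fun k F => yy k F e) ?_ (fun k E hrun hR => ?_) i
  · simp only [yy_zero hn he, Real.rpow_neg_one, abs_div, abs_neg, abs_two, abs_of_pos hn0]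
    rw [div_eq_mul_inv]
    exact mul_le_mul_of_nonneg_right (by linarith) (inv_nonneg.2 hn0.le)
  · have he' := singleton_subset_iff.1 hR
    have hr := hreg k hrun.1
    have hR' := hrates k hrun.1
    have hz : (envI n).z k = (n:ℝ) ^ (-(13 / 50) : ℝ) := rfl
    have hy : (envI n).y k ^ 2 = (n:ℝ) ^ (-(13 / 50) : ℝ) := by
      show ((n:ℝ) ^ (-(13 / 100) : ℝ)) ^ 2 = _
      rw [pow_two, ← Real.rpow_add hn0]; norm_num
    have hd := hD n k _ E hr.small hrun.2.good e he'
    obtain ⟨hq, hj⟩ := hN n k _ E hr.small hrun.2.good e he'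
    refine ⟨hd.trans ?_, hq.trans (scale (by linarith) hR'.qY (by linarith)
      (Real.rpow_nonneg hn0.le _)), jump_mono hj (scale (by linarith) hR'.invMu (by linarith)
      (Real.rpow_nonneg hn0.le _))⟩
    have h3 : (envI n).z k + (envI n).y k ^ 2 + 1 / mu n k ≤ 3 * (n:ℝ) ^ (-(13 / 50) : ℝ) := by
      linarith [hR'.invMu, Real.rpow_le_rpow_of_exponent_le
        (by exact_mod_cast (by omega : 1 ≤ n) : (1:ℝ) ≤ n) (show -(7 / 25 : ℝ) ≤ -(13 / 50) by norm_num)]
    refine (mul_le_mul_of_nonneg_left h3 (by linarith)).trans ?_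
    rw [← mul_assoc]
    exact mul_le_mul_of_nonneg_right (by linarith) (Real.rpow_nonneg hn0.le _)

open Classical in
/-- Failure of the bound on `z`. -/
theorem ev_z (hD : Flags.Spec.DriftZ) (hN : Flags.Spec.NoiseZ) :
    ∀ᶠ n : ℕ in atTop, ∀ e ∈ complete n, ∀ i,
      killed (Run n) i (fun k F => if {e} ⊆ F ∧ (envI n).z k < |zc k F e| then 1 else 0) 0
        (complete n) ≤ tiny n := by
  obtain ⟨C1, hC1, hD⟩ := hD
  obtain ⟨C2, hC2, hN⟩ := hN
  have hC : 0 ≤ 3 * C1 + C2 + 7 := by linarith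
  filter_upwards [ev_tail _ hC (-(13 / 50)) (-(3 / 10)) (-(53 / 100)) (-(2 / 5)) (53 / 200)
      (by norm_num) (by norm_num) (by norm_num) (by norm_num) (by norm_num),
    ev_regime, ev_rates, eventually_ge_atTop 3] with n ht hreg hrates hn e he i
  have hn1 : (1 : ℝ) ≤ n := by exact_mod_cast (by omega : 1 ≤ n)
  have hn0 : (0 : ℝ) < n := by linarith
  refine ht {e} (fun k F => zc k F e) ?_ (fun k E hrun hR => ?_) i
  · simp only [zc_zero hn he, abs_zero]
    positivity
  · have he' := singleton_subset_iff.1 hR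
    have hr := hreg k hrun.1
    have hR' := hrates k hrun.1
    have hd := hD n k _ E hr.small hrun.2.good e he'
    obtain ⟨hq, hj⟩ := hN n k _ E hr.small hrun.2.good e he'
    refine ⟨hd.trans ?_, hq.trans (scale (by linarith) hR'.qZ (by linarith)
      (Real.rpow_nonneg hn0.le _)), jump_mono hj (scale (by linarith) hR'.jZ (by linarith)
      (Real.rpow_nonneg hn0.le _))⟩
    have hw : (envI n).w k = (n:ℝ) ^ (-(3 / 10) : ℝ) := rfl
    have hv : (envI n).v k = (n:ℝ) ^ (-(17 / 50) : ℝ) := rfl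
    have h3 : (envI n).w k + (envI n).v k + err (envI n) n k ≤ 3 * (n:ℝ) ^ (-(3 / 10) : ℝ) := by
      linarith [hR'.err,
        Real.rpow_le_rpow_of_exponent_le hn1 (show -(17 / 50 : ℝ) ≤ -(3 / 10) by norm_num),
        Real.rpow_le_rpow_of_exponent_le hn1 (show -(19 / 50 : ℝ) ≤ -(3 / 10) by norm_num)]
    refine (mul_le_mul_of_nonneg_left h3 (by linarith)).trans ?_
    rw [← mul_assoc]
    exact mul_le_mul_of_nonneg_right (by linarith) (Real.rpow_nonneg hn0.le _)

open Classical in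
/-- Failure of the bound on `v`. -/
theorem ev_v (hD : Flags.Spec.DriftV) (hN : Flags.Spec.NoiseV) :
    ∀ᶠ n : ℕ in atTop, ∀ e ∈ complete n, ∀ i,
      killed (Run n) i (fun k F => if {e} ⊆ F ∧ (envI n).v k < |vc k F e| then 1 else 0) 0
        (complete n) ≤ tiny n := by
  obtain ⟨C1, hC1, hD⟩ := hD
  obtain ⟨C2, hC2, hN⟩ := hN
  have hC : 0 ≤ 3 * C1 + C2 + 7 := by linarith
  filter_upwards [ev_tail _ hC (-(17 / 50)) (-(19 / 50)) (-(79 / 100)) (-(53 / 100)) (9 / 25)
      (by norm_num) (by norm_num) (by norm_num) (by norm_num) (by norm_num),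
    ev_regime, ev_rates, eventually_ge_atTop 3] with n ht hreg hrates hn e he i
  have hn0 : (0 : ℝ) < n := by exact_mod_cast (by omega : 0 < n)
  refine ht {e} (fun k F => vc k F e) ?_ (fun k E hrun hR => ?_) i
  · simp only [vc_zero hn he, abs_zero]
    positivity
  · have he' := singleton_subset_iff.1 hR
    have hr := hreg k hrun.1
    have hR' := hrates k hrun.1
    have hd := hD n k _ E hr.small hrun.2.good e he'
    obtain ⟨hq, hj⟩ := hN n k _ E hr.small hrun.2.good e he'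
    exact ⟨hd.trans (scale (by linarith) hR'.err (by linarith) (Real.rpow_nonneg hn0.le _)),
      hq.trans (scale (by linarith) hR'.qV (by linarith) (Real.rpow_nonneg hn0.le _)),
      jump_mono hj (scale (by linarith) hR'.jV (by linarith) (Real.rpow_nonneg hn0.le _))⟩

/-- The drift allowed to the tracked counts. -/
lemma track_drift {k : ℕ} (hn : 1 ≤ n) (hR : Rates n k) {C c : ℝ} (hC : 0 ≤ C) (hc : 3 * C ≤ c) :
    C * ((envI n).y k + 1 / mu n k) ≤ c * (n:ℝ) ^ (-(13 / 100) : ℝ) ∧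
      C * ((envI n).y k + 1 / mu n k + (envI n).tau k / ((n:ℝ) ^ 2 * pp n k ^ 5)) ≤
        c * (n:ℝ) ^ (-(13 / 100) : ℝ) := by
  have hn1 : (1 : ℝ) ≤ n := by exact_mod_cast hn
  have hy : (envI n).y k = (n:ℝ) ^ (-(13 / 100) : ℝ) := rfl
  have h0 : 0 ≤ (n:ℝ) ^ (-(13 / 100) : ℝ) := Real.rpow_nonneg n.cast_nonneg _
  have h1 := Real.rpow_le_rpow_of_exponent_le hn1 (show -(7 / 25 : ℝ) ≤ -(13 / 100) by norm_num)
  have h2 := Real.rpow_le_rpow_of_exponent_le hn1 (show -(99 / 500 : ℝ) ≤ -(13 / 100) by norm_num)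
  have key : ∀ x : ℝ, x ≤ 3 * (n:ℝ) ^ (-(13 / 100) : ℝ) → C * x ≤ c * (n:ℝ) ^ (-(13 / 100) : ℝ) :=
    fun x hx => (mul_le_mul_of_nonneg_left hx hC).trans
      (by rw [← mul_assoc]; exact mul_le_mul_of_nonneg_right (by linarith) h0)
  exact ⟨key _ (by linarith [hR.invMu]), key _ (by linarith [hR.invMu, hR.track])⟩

open Classical in
/-- Failure of the degree bound. -/
theorem ev_deg (hT : Flags.Spec.TrackDeg) :
    ∀ᶠ n : ℕ in atTop, ∀ (b : Fin n) (i : ℕ),
      killed (Run n) i (fun k F => if (∅ : St n) ⊆ F ∧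
        etaI n k < |(degV F b : ℝ) / (n * pp n k) - 1| then 1 else 0) 0 (complete n) ≤ tiny n := by
  obtain ⟨C1, hC1, hT⟩ := hT
  have hC : 0 ≤ 3 * C1 + 7 := by linarith
  filter_upwards [ev_tail _ hC (-(1 / 20)) (-(13 / 100)) (-(16 / 25)) (-(16 / 25)) (3 / 50)
      (by norm_num) (by norm_num) (by norm_num) (by norm_num) (by norm_num),
    ev_regime, ev_rates, eventually_ge_atTop 3] with n ht hreg hrates hn b i
  have hn0 : (0 : ℝ) < n := by exact_mod_cast (by omega : 0 < n)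
  refine ht ∅ (fun k F => (degV F b : ℝ) / (n * pp n k) - 1) ?_ (fun k E hrun _ => ?_) i
  · refine (degV_zero hn b).trans ?_
    rw [Real.rpow_neg_one, div_eq_mul_inv]
    exact mul_le_mul_of_nonneg_right (by linarith) (inv_nonneg.2 hn0.le)
  · have hr := hreg k hrun.1
    have hR' := hrates k hrun.1
    obtain ⟨hd, hq, hj⟩ := hT n k _ _ E hr.small hrun.2 hr.eta b
    exact ⟨hd.trans (track_drift (by omega) hR' (by linarith) (by linarith)).1,
      hq.trans (scale (by linarith) hR'.invNp (by linarith) (Real.rpow_nonneg hn0.le _)),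
      jump_mono hj (scale (by linarith) hR'.invNp (by linarith) (Real.rpow_nonneg hn0.le _))⟩

open Classical in
/-- Failure of the walk bound. -/
theorem ev_walk (hT : Flags.Spec.TrackWalk) :
    ∀ᶠ n : ℕ in atTop, ∀ (a x z : Fin n) (i : ℕ),
      killed (Run n) i (fun k F => if ({{a, x}, {a, z}} : St n) ⊆ F ∧
        etaI n k < |(W3 F a x z : ℝ) / ((n:ℝ) ^ 2 * pp n k ^ 5) - 1| then 1 else 0) 0 (complete n)
        ≤ tiny n := by
  obtain ⟨C1, hC1, hT⟩ := hT
  have hC : 0 ≤ 3 * C1 + 7 := by linarith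
  filter_upwards [ev_tail _ hC (-(1 / 20)) (-(13 / 100)) (-(99 / 500)) (-(99 / 500)) (3 / 50)
      (by norm_num) (by norm_num) (by norm_num) (by norm_num) (by norm_num),
    ev_regime, ev_rates, eventually_ge_atTop 3] with n ht hreg hrates hn a x z i
  have hn0 : (0 : ℝ) < n := by exact_mod_cast (by omega : 0 < n)
  refine ht {{a, x}, {a, z}} (fun k F => (W3 F a x z : ℝ) / ((n:ℝ) ^ 2 * pp n k ^ 5) - 1) ?_
    (fun k E hrun hR => ?_) i
  · refine (W3_zero hn).trans ?_
    rw [Real.rpow_neg_one, div_eq_mul_inv]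
    exact mul_le_mul_of_nonneg_right (by linarith) (inv_nonneg.2 hn0.le)
  · have hr := hreg k hrun.1
    have hR' := hrates k hrun.1
    have ha : ({a, x} : Finset (Fin n)) ∈ E := hR (mem_insert_self _ _)
    have hb : ({a, z} : Finset (Fin n)) ∈ E := hR (mem_insert_of_mem (mem_singleton_self _))
    obtain ⟨hd, hq, hj⟩ := hT n k _ _ E hr.small hrun.2 hr.eta a x z ha hb
    exact ⟨hd.trans (track_drift (by omega) hR' (by linarith) (by linarith)).2,
      hq.trans (scale (by linarith) hR'.track (by linarith) (Real.rpow_nonneg hn0.le _)),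
      jump_mono hj (scale (by linarith) hR'.track (by linarith) (Real.rpow_nonneg hn0.le _))⟩

open Classical in
/-- Failure of the pair bound. -/
theorem ev_pair (hT : Flags.Spec.TrackPair) :
    ∀ᶠ n : ℕ in atTop, ∀ (b b' : Fin n), b ≠ b' → ∀ i : ℕ,
      killed (Run n) i (fun k F => if (∅ : St n) ⊆ F ∧
        etaI n k < |(L2 F b b' : ℝ) / ((n:ℝ) ^ 2 * pp n k ^ 5) - 1| then 1 else 0) 0 (complete n)
        ≤ tiny n := by
  obtain ⟨C1, hC1, hT⟩ := hT
  have hC : 0 ≤ 3 * C1 + 7 := by linarith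
  filter_upwards [ev_tail _ hC (-(1 / 20)) (-(13 / 100)) (-(99 / 500)) (-(99 / 500)) (3 / 50)
      (by norm_num) (by norm_num) (by norm_num) (by norm_num) (by norm_num),
    ev_regime, ev_rates, eventually_ge_atTop 3] with n ht hreg hrates hn b b' hbb i
  have hn0 : (0 : ℝ) < n := by exact_mod_cast (by omega : 0 < n)
  refine ht ∅ (fun k F => (L2 F b b' : ℝ) / ((n:ℝ) ^ 2 * pp n k ^ 5) - 1) ?_
    (fun k E hrun _ => ?_) i
  · refine (L2_zero hn).trans ?_
    rw [Real.rpow_neg_one, div_eq_mul_inv]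
    exact mul_le_mul_of_nonneg_right (by linarith) (inv_nonneg.2 hn0.le)
  · have hr := hreg k hrun.1
    have hR' := hrates k hrun.1
    obtain ⟨hd, hq, hj⟩ := hT n k _ _ E hr.small hrun.2 hr.eta b b' hbb
    exact ⟨hd.trans (track_drift (by omega) hR' (by linarith) (by linarith)).2,
      hq.trans (scale (by linarith) hR'.track (by linarith) (Real.rpow_nonneg hn0.le _)),
      jump_mono hj (scale (by linarith) hR'.track (by linarith) (Real.rpow_nonneg hn0.le _))⟩

lemma ev_iOne_le_iTwo : ∀ᶠ n : ℕ in atTop, iOne n ≤ iTwo n := by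
  have hlog := (Real.tendsto_log_atTop.comp tendsto_natCast_atTop_atTop).eventually_ge_atTop
    (1000 : ℝ)
  filter_upwards [eventually_ge_atTop 1, hlog] with n hn hl
  simp only [Function.comp_apply] at hl
  have hn0 : (0 : ℝ) < n := by exact_mod_cast hn
  have h1 : D0 n / n ≤ ((n:ℝ) ^ (-(9 / 25) : ℝ)) ^ 2 := by
    rw [pow_two, ← Real.rpow_add hn0, D0, Real.rpow_eq_pow]
    have h2 : Real.exp (Real.log n ^ (1 / 5 : ℝ)) ≤ (n:ℝ) ^ (7 / 25 : ℝ) := by
      rw [Real.rpow_def_of_pos hn0]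
      refine Real.exp_le_exp.2 ?_
      have h3 : Real.log n ^ (1 / 5 : ℝ) ≤ Real.log n ^ (1 / 2 : ℝ) :=
        Real.rpow_le_rpow_of_exponent_le (by linarith) (by norm_num)
      rw [← Real.sqrt_eq_rpow] at h3
      have h4 : Real.sqrt (Real.log n) ≤ Real.log n * (7 / 25) := by
        rw [Real.sqrt_le_iff]
        exact ⟨by linarith, by nlinarith⟩
      linarith
    rw [div_le_iff₀ hn0]
    refine h2.trans_eq ?_
    rw [← Real.rpow_add_one hn0.ne']
    norm_num
  have h5 : Real.sqrt (D0 n / n) ≤ (n:ℝ) ^ (-(9 / 25) : ℝ) :=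
    (Real.sqrt_le_sqrt h1).trans_eq (Real.sqrt_sq (Real.rpow_nonneg hn0.le _))
  rw [iOne, iTwo]
  refine Nat.ceil_mono ?_
  simp only [Real.rpow_eq_pow]
  gcongr

open Classical in
/-- The first phase keeps its envelope, given the one step estimates and the structural bound. -/
theorem phaseOne (hDY : Flags.Spec.DriftY) (hNY : Flags.Spec.NoiseY)
    (hDZ : Flags.Spec.DriftZ) (hNZ : Flags.Spec.NoiseZ)
    (hDW : Flags.Spec.DriftW) (hNW : Flags.Spec.NoiseW)
    (hDV : Flags.Spec.DriftV) (hNV : Flags.Spec.NoiseV)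
    (hDU : Flags.Spec.DriftU) (hNU : Flags.Spec.NoiseU)
    (hTD : Flags.Spec.TrackDeg) (hTW : Flags.Spec.TrackWalk) (hTP : Flags.Spec.TrackPair)
    (hCon : Flags.Spec.Contract) (hStr : Phase.Spec.Structure) : Phase.Spec.PhaseOne := by
  obtain ⟨N0, hStr⟩ := hStr
  rw [Phase.Spec.PhaseOne, ← eventually_atTop]
  filter_upwards [eventually_ge_atTop N0, eventually_ge_atTop 8, ev_regime, ev_iOne_le_iTwo,
    ev_y hDY hNY, ev_z hDZ hNZ, ev_v hDV hNV, ev_deg hTD, ev_walk hTW, ev_pair hTP,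
    ev_moment hDW hDU hNW hNU hCon, ev_tiny]
    with n hN0 hn hreg hle hy hz hv hdeg hwalk hpair hmom htiny i hi
  rw [killed_safe_eq hi]
  have hn0 : (0 : ℝ) < n := by exact_mod_cast (by omega : 0 < n)
  have hn1 : (1 : ℝ) ≤ n := by exact_mod_cast (by omega : 1 ≤ n)
  refine (killed_mono_inv (size_succ hreg) i 0 (complete n) (size_zero n)
    (g := failSum n) fun F hF => fail_union (np_ge_one (by omega) hreg (by omega)) hF).trans ?_
  unfold failSum
  have hs := hStr n hN0 i (by omega)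
  rw [killed_safe_eq hi] at hs
  have ht0 : 0 ≤ tiny n := by rw [tiny]; positivity
  have hce : ((complete n).card : ℝ) ≤ (n:ℝ) ^ 2 := by
    simp only [complete, card_powersetCard, card_univ, Fintype.card_fin]
    exact choose_two_le n
  have hE : ∀ (g : Finset (Fin n) → ℕ → St n → ℝ),
      (∀ e ∈ complete n, killed (Run n) i (g e) 0 (complete n) ≤ tiny n) →
      killed (Run n) i (fun k F => ∑ e ∈ complete n, g e k F) 0 (complete n)
        ≤ (n:ℝ) ^ 2 * tiny n := fun g hg => by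
    rw [killed_sum]
    refine (sum_le_sum hg).trans ?_
    rw [sum_const, nsmul_eq_mul]
    exact mul_le_mul_of_nonneg_right hce ht0
  have h2 := hE (fun e k F => if {e} ⊆ F ∧ (envI n).y k < |yy k F e| then 1 else 0)
    fun e he => hy e he i
  have h3 := hE (fun e k F => if {e} ⊆ F ∧ (envI n).z k < |zc k F e| then 1 else 0)
    fun e he => hz e he i
  have h4 := hE (fun e k F => if {e} ⊆ F ∧ (envI n).v k < |vc k F e| then 1 else 0)
    fun e he => hv e he i
  have h5 : killed (Run n) i (fun k F => ∑ b : Fin n, if (∅ : St n) ⊆ F ∧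
      etaI n k < |(degV F b : ℝ) / (n * pp n k) - 1| then (1 : ℝ) else 0) 0 (complete n)
      ≤ n * tiny n := by
    rw [killed_sum]
    refine (sum_le_sum fun b _ => hdeg b i).trans ?_
    simp
  have h6 : killed (Run n) i (fun k F => ∑ q : Fin n × Fin n × Fin n,
      if ({{q.1, q.2.1}, {q.1, q.2.2}} : St n) ⊆ F ∧
        etaI n k < |(W3 F q.1 q.2.1 q.2.2 : ℝ) / ((n:ℝ) ^ 2 * pp n k ^ 5) - 1|
      then (1 : ℝ) else 0) 0 (complete n) ≤ (n:ℝ) ^ 3 * tiny n := by
    rw [killed_sum]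
    refine (sum_le_sum fun q _ => hwalk q.1 q.2.1 q.2.2 i).trans_eq ?_
    simp [pow_succ, mul_assoc]
  have h7 : killed (Run n) i (fun k F => ∑ q ∈ (univ : Finset (Fin n)).offDiag,
      if (∅ : St n) ⊆ F ∧ etaI n k < |(L2 F q.1 q.2 : ℝ) / ((n:ℝ) ^ 2 * pp n k ^ 5) - 1|
      then (1 : ℝ) else 0) 0 (complete n) ≤ (n:ℝ) ^ 2 * tiny n := by
    rw [killed_sum]
    refine (sum_le_sum fun q hq => hpair q.1 q.2 (mem_offDiag.1 hq).2.2 i).trans ?_
    rw [sum_const, nsmul_eq_mul]
    refine mul_le_mul_of_nonneg_right ?_ ht0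
    rw [offDiag_card, card_univ, Fintype.card_fin, Nat.cast_sub (Nat.le_mul_self n)]
    push_cast
    nlinarith
  have h8 := hmom i hi
  simp only [killed_add_fun]
  refine (add_le_add (add_le_add (add_le_add (add_le_add (add_le_add (add_le_add (add_le_add
    hs h2) h3) h4) h5) h6) h7) h8).trans ?_
  have e20 : tiny n ≤ 1 / (n:ℝ) ^ 20 := by rw [le_div_iff₀ (by positivity)]; exact htiny
  have p2 : (n:ℝ) ^ 2 ≤ (n:ℝ) ^ 3 := pow_le_pow_right₀ hn1 (by norm_num)
  have p1 : (n:ℝ) ≤ (n:ℝ) ^ 3 := le_self_pow₀ hn1 (by norm_num)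
  have ht3 : (n:ℝ) ^ 3 * tiny n ≤ 1 / (n:ℝ) ^ 7 := by
    refine (mul_le_mul_of_nonneg_left e20 (by positivity)).trans ?_
    rw [← div_eq_mul_one_div, div_le_div_iff₀ (by positivity) (by positivity), ← pow_add, one_mul]
    exact pow_le_pow_right₀ hn1 (by norm_num)
  have p2' := mul_le_mul_of_nonneg_right p2 ht0
  have p1' := mul_le_mul_of_nonneg_right p1 ht0
  have h67 : 1 / (n:ℝ) ^ 6 + 7 * (1 / (n:ℝ) ^ 7) ≤ 1 / (n:ℝ) ^ 5 := by
    have hn8 : (8 : ℝ) ≤ n := by exact_mod_cast hn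
    have e1 : 1 / (n:ℝ) ^ 7 ≤ 1 / (n:ℝ) ^ 6 :=
      one_div_le_one_div_of_le (by positivity) (pow_le_pow_right₀ hn1 (by norm_num))
    have e2 : 8 * (1 / (n:ℝ) ^ 6) ≤ 1 / (n:ℝ) ^ 5 := by
      rw [← mul_div_assoc, div_le_div_iff₀ (by positivity) (by positivity), mul_one, one_mul,
        pow_succ (n:ℝ) 5, mul_comm (8 : ℝ)]
      exact mul_le_mul_of_nonneg_left hn8 (by positivity)
    linarith
  linarith

end Vale.Agent.P046.Phase.One
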