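import Vale.Agent.P046.Phase.StructureTail

/-!
# Triple codegrees and link walks stay small while the process is safe
-/

set_option linter.unusedSectionVars false

namespace Vale.Agent.P046.Phase

open Finset Chain Flags

variable {n : ℕ}

lemma card_of_mem_complete {F : St n} (hF : F ⊆ complete n) {g : Finset (Fin n)} (hg : g ∈ F) :
    g.card = 2 := (mem_powersetCard.1 (hF hg)).2

lemma ne_of_edge {F : St n} (hF : F ⊆ complete n) {u v : Fin n} (h : {u, v} ∈ F) : u ≠ v := by
  rintro rfl
  simpa using card_of_mem_complete hF h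

lemma pair_eq_pair {a b c d : Fin n} (h : ({a, b} : Finset (Fin n)) = {c, d}) :
    a = c ∧ b = d ∨ a = d ∧ b = c := by
  have h' : ({a, b} : Set (Fin n)) = {c, d} := by
    ext x
    have := congrArg (x ∈ ·) h
    simpa using this
  exact Set.pair_eq_pair_iff.1 h'

/-- The three edges of a common neighbour. -/
def triImg (a b d c : Fin n) : St n := {{a, c}, {b, c}, {d, c}}

/-- Possible common neighbours. -/
def triItems (a b d : Fin n) : Finset (Fin n) := univ.filter fun c => c ≠ a ∧ c ≠ b ∧ c ≠ d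

/-- The five edges of a link walk. -/
def walkImg (a x z : Fin n) (p : Fin n × Fin n) : St n :=
  {{a, p.1}, {a, p.2}, {x, p.1}, {p.1, p.2}, {p.2, z}}

/-- Possible link walks. -/
def walkItems (a x z : Fin n) : Finset (Fin n × Fin n) :=
  univ.filter fun p => p.1 ≠ a ∧ p.1 ≠ x ∧ p.1 ≠ z ∧ p.2 ≠ a ∧ p.2 ≠ x ∧ p.2 ≠ z ∧ p.1 ≠ p.2

/-- Two walks share a free vertex. -/
def Meet (p q : Fin n × Fin n) : Prop := p.1 = q.1 ∨ p.1 = q.2 ∨ p.2 = q.1 ∨ p.2 = q.2

instance : DecidableRel (Meet (n := n)) := fun p q => by unfold Meet; infer_instance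

lemma T3_eq {F : St n} (hF : F ⊆ complete n) (a b d : Fin n) :
    T3 F a b d = ((triItems a b d).filter fun c => triImg a b d c ⊆ F).card := by
  unfold T3
  congr 1
  ext c
  simp only [triItems, triImg, mem_filter, mem_univ, true_and, insert_subset_iff,
    singleton_subset_iff]
  refine ⟨fun h => ⟨⟨?_, ?_, ?_⟩, h⟩, fun h => h.2⟩
  · exact (ne_of_edge hF h.1).symm
  · exact (ne_of_edge hF h.2.1).symm
  · exact (ne_of_edge hF h.2.2).symm

lemma W3_eq {F : St n} (hF : F ⊆ complete n) (a x z : Fin n) :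
    W3 F a x z = ((walkItems a x z).filter fun p => walkImg a x z p ⊆ F).card := by
  unfold W3
  congr 1
  ext p
  simp only [walkItems, walkImg, mem_filter, mem_univ, true_and, insert_subset_iff,
    singleton_subset_iff]
  constructor
  · rintro ⟨h1, h2, h3, h4, h5, h6, h7⟩
    exact ⟨⟨(ne_of_edge hF h1).symm, (ne_of_edge hF h3).symm, h6, (ne_of_edge hF h2).symm, h7,
      ne_of_edge hF h5, ne_of_edge hF h4⟩, h1, h2, h3, h4, h5⟩
  · rintro ⟨⟨-, -, h6, -, h7, -, -⟩, h1, h2, h3, h4, h5⟩
    exact ⟨h1, h2, h3, h4, h5, h6, h7⟩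

open Classical in
/-- The tail of one triple codegree. -/
lemma killed_T3_le (G : ℕ → St n → Prop) (i : ℕ) {a b d : Fin n} (hab : a ≠ b) (had : a ≠ d)
    (hbd : b ≠ d) {q thr : ℝ} (hq0 : 0 ≤ q) {L r m : ℕ}
    (hP : ∀ S : St n, S.card ≤ L →
      killed G i (fun _ F => if S ⊆ F then 1 else 0) 0 (complete n) ≤ q ^ S.card)
    (hL : 3 * r ≤ L) (hm : 0 < m) (hk : ((r + m : ℕ) : ℝ) ≤ thr + 1) :
    killed G i (fun _ F => if thr < (T3 F a b d : ℝ) then 1 else 0) 0 (complete n) ≤
      ((n : ℝ) * q ^ 3 / m) ^ r := by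
  have hinj : ∀ c ∈ triItems a b d, (triImg a b d c).card = 3 := by
    intro c hc
    simp only [triItems, mem_filter, mem_univ, true_and] at hc
    unfold triImg
    rw [card_insert_of_notMem, card_insert_of_notMem, card_singleton] <;>
      simp only [mem_insert, mem_singleton, not_or] <;>
      (repeat' constructor) <;> intro h <;>
      · rcases pair_eq_pair h with ⟨e1, e2⟩ | ⟨e1, e2⟩ <;> tauto
  have hdis : ∀ c ∈ triItems a b d, ∀ c' ∈ triItems a b d, ¬ c = c' →
      Disjoint (triImg a b d c) (triImg a b d c') := by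
    intro c hc c' hc' hne
    simp only [triItems, mem_filter, mem_univ, true_and] at hc hc'
    rw [disjoint_left]
    intro g hg hg'
    simp only [triImg, mem_insert, mem_singleton] at hg hg'
    rcases hg with rfl | rfl | rfl <;> rcases hg' with h | h | h <;>
      rcases pair_eq_pair h with ⟨e1, e2⟩ | ⟨e1, e2⟩ <;> tauto
  have h := killed_copies_le (fun c c' : Fin n => c = c') (fun _ _ h => h.symm) G i (complete n)
    (triItems a b d) (triImg a b d) hinj hdis hP hq0 hL (D := 1) (m := m)
    (fun F => thr < (T3 F a b d : ℝ)) (fun F hF hE => by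
      constructor
      · rw [← T3_eq hF]
        have : ((r + m : ℕ) : ℝ) < (T3 F a b d : ℝ) + 1 := by linarith
        have h' : r + m < T3 F a b d + 1 := by exact_mod_cast this
        omega
      · intro c _ _
        refine (card_le_card ?_).trans (card_singleton c).le
        intro c' hc'
        simp only [mem_filter] at hc'
        exact mem_singleton.2 hc'.2.symm)
  rw [div_pow, le_div_iff₀ (pow_pos (Nat.cast_pos.2 hm) _), mul_comm]
  refine h.trans (pow_le_pow_left₀ (by positivity) ?_ r)
  refine mul_le_mul_of_nonneg_right ?_ (pow_nonneg hq0 _)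
  exact_mod_cast (card_filter_le _ _).trans (by simp)

open Classical in
/-- The tail of one walk count, given small triple codegrees. -/
lemma killed_W3_le (G : ℕ → St n → Prop) (i : ℕ) {a x z : Fin n} (hax : a ≠ x) (haz : a ≠ z)
    {q thr kap : ℝ} (hq0 : 0 ≤ q) {L r m D : ℕ}
    (hP : ∀ S : St n, S.card ≤ L →
      killed G i (fun _ F => if S ⊆ F then 1 else 0) 0 (complete n) ≤ q ^ S.card)
    (hL : 5 * r ≤ L) (hm : 0 < m) (hD : ∀ k : ℕ, (k : ℝ) ≤ thr → 4 * k ≤ D)
    (hk : ((D * r + m : ℕ) : ℝ) ≤ kap + 1) :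
    killed G i (fun _ F => if (∀ a b d : Fin n, a ≠ b → a ≠ d → b ≠ d → (T3 F a b d : ℝ) ≤ thr) ∧
        kap < (W3 F a x z : ℝ) then 1 else 0) 0 (complete n) ≤
      ((n : ℝ) ^ 2 * q ^ 5 / m) ^ r := by
  have hinj : ∀ p ∈ walkItems a x z, (walkImg a x z p).card = 5 := by
    intro p hp
    simp only [walkItems, mem_filter, mem_univ, true_and] at hp
    unfold walkImg
    rw [card_insert_of_notMem, card_insert_of_notMem, card_insert_of_notMem,
      card_insert_of_notMem, card_singleton] <;>
      simp only [mem_insert, mem_singleton, not_or] <;>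
      (repeat' constructor) <;> intro h <;>
      · rcases pair_eq_pair h with ⟨e1, e2⟩ | ⟨e1, e2⟩ <;> tauto
  have hdis : ∀ p ∈ walkItems a x z, ∀ p' ∈ walkItems a x z, ¬ Meet p p' →
      Disjoint (walkImg a x z p) (walkImg a x z p') := by
    intro p hp p' hp' hne
    simp only [walkItems, mem_filter, mem_univ, true_and] at hp hp'
    simp only [Meet, not_or] at hne
    rw [disjoint_left]
    intro g hg hg'
    simp only [walkImg, mem_insert, mem_singleton] at hg hg'
    rcases hg with rfl | rfl | rfl | rfl | rfl <;> rcases hg' with h | h | h | h | h <;>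
      rcases pair_eq_pair h with ⟨e1, e2⟩ | ⟨e1, e2⟩ <;>
      first
        | exact hne.1 e1 | exact hne.1 e2 | exact hne.2.1 e1 | exact hne.2.1 e2
        | exact hne.2.2.1 e1 | exact hne.2.2.1 e2 | exact hne.2.2.2 e1 | exact hne.2.2.2 e2
        | (exfalso; simp_all)
  have h := killed_copies_le Meet (fun p q h => by unfold Meet at h ⊢; tauto) G i (complete n)
    (walkItems a x z) (walkImg a x z) hinj hdis hP hq0 hL (D := D) (m := m)
    (fun F => (∀ a b d : Fin n, a ≠ b → a ≠ d → b ≠ d → (T3 F a b d : ℝ) ≤ thr) ∧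
      kap < (W3 F a x z : ℝ)) (fun F hF hE => by
      obtain ⟨hT, hW⟩ := hE
      constructor
      · rw [← W3_eq hF]
        have : ((D * r + m : ℕ) : ℝ) < (W3 F a x z : ℝ) + 1 := by linarith
        have h' : D * r + m < W3 F a x z + 1 := by exact_mod_cast this
        omega
      · intro p hp _
        simp only [walkItems, mem_filter, mem_univ, true_and] at hp
        obtain ⟨p1a, p1x, p1z, p2a, p2x, p2z, p12⟩ := hp
        set W := (walkItems a x z).filter fun p => walkImg a x z p ⊆ F with hWdef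
        have fib : ∀ v : Fin n, v ≠ a → v ≠ x → v ≠ z →
            (W.filter fun p => p.1 = v).card ≤ T3 F a z v ∧
            (W.filter fun p => p.2 = v).card ≤ T3 F a x v := by
          intro v _ _ _
          constructor
          · unfold T3
            refine card_le_card_of_injOn (fun p => p.2) ?_ ?_
            · intro p hp
              simp only [hWdef, walkImg, coe_filter, Set.mem_setOf_eq, mem_filter,
                insert_subset_iff, singleton_subset_iff] at hp
              obtain ⟨⟨-, h1, h2, h3, h4, h5⟩, rfl⟩ := hp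
              simp only [coe_filter, Set.mem_setOf_eq, mem_univ, true_and]
              exact ⟨h2, by rwa [pair_comm], h4⟩
            · intro p hp p' hp' h
              simp only [coe_filter, Set.mem_setOf_eq] at hp hp'
              exact Prod.ext (hp.2.trans hp'.2.symm) h
          · unfold T3
            refine card_le_card_of_injOn (fun p => p.1) ?_ ?_
            · intro p hp
              simp only [hWdef, walkImg, coe_filter, Set.mem_setOf_eq, mem_filter,
                insert_subset_iff, singleton_subset_iff] at hp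
              obtain ⟨⟨-, h1, h2, h3, h4, h5⟩, rfl⟩ := hp
              simp only [coe_filter, Set.mem_setOf_eq, mem_univ, true_and]
              exact ⟨h1, h3, by rwa [pair_comm]⟩
            · intro p hp p' hp' h
              simp only [coe_filter, Set.mem_setOf_eq] at hp hp'
              exact Prod.ext h (hp.2.trans hp'.2.symm)
        have key : ∀ v : Fin n, v ≠ a → v ≠ x → v ≠ z →
            4 * (W.filter fun p => p.1 = v).card ≤ D ∧ 4 * (W.filter fun p => p.2 = v).card ≤ D := by
          intro v va vx vz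
          obtain ⟨f1, f2⟩ := fib v va vx vz
          exact ⟨le_trans (by omega) (hD _ (hT a z v haz (Ne.symm va) (Ne.symm vz))),
            le_trans (by omega) (hD _ (hT a x v hax (Ne.symm va) (Ne.symm vx)))⟩
        obtain ⟨k1, k2⟩ := key p.1 p1a p1x p1z
        obtain ⟨k3, k4⟩ := key p.2 p2a p2x p2z
        refine (card_le_card (t := ((W.filter fun q => q.1 = p.1) ∪ (W.filter fun q => q.2 = p.1)) ∪
          ((W.filter fun q => q.1 = p.2) ∪ (W.filter fun q => q.2 = p.2))) ?_).trans ?_
        · intro q hq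
          simp only [mem_filter, Meet] at hq
          simp only [mem_union, mem_filter]
          obtain ⟨hq, h | h | h | h⟩ := hq <;> simp [hq, h]
        · refine (card_union_le _ _).trans ?_
          have := card_union_le (W.filter fun q => q.1 = p.1) (W.filter fun q => q.2 = p.1)
          have := card_union_le (W.filter fun q => q.1 = p.2) (W.filter fun q => q.2 = p.2)
          omega)
  rw [div_pow, le_div_iff₀ (pow_pos (Nat.cast_pos.2 hm) _), mul_comm]
  refine le_trans (le_of_eq (by congr!)) (h.trans (pow_le_pow_left₀ (by positivity) ?_ r))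
  refine mul_le_mul_of_nonneg_right ?_ (pow_nonneg hq0 _)
  have : (walkItems a x z).card ≤ n ^ 2 := (card_filter_le _ _).trans (by simp [pow_two])
  exact_mod_cast this

lemma pp_nonneg_of_le_iTwo (hn : 7 ≤ n) {i : ℕ} (hi : i ≤ iTwo n) : 0 ≤ pp n i := by
  set C : ℝ := (n.choose 2 : ℝ) with hC
  set r : ℝ := Real.sqrt (D0 n / n) with hr
  have hnR : (7 : ℝ) ≤ n := by exact_mod_cast hn
  have hnpos : (0 : ℝ) < n := by linarith
  have hC2 : C = n * ((n : ℝ) - 1) / 2 := by rw [hC, Nat.cast_choose_two]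
  have hC0 : 0 < C := by rw [hC2]; nlinarith
  have h1 : 1 / (n : ℝ) ≤ r := by
    rw [hr]
    refine Real.le_sqrt_of_sq_le ?_
    rw [div_pow, one_pow, div_le_div_iff₀ (by positivity) hnpos, one_mul]
    have h1 : (1 : ℝ) ≤ D0 n :=
      Real.one_le_exp (Real.rpow_nonneg (Real.log_nonneg (by linarith)) _)
    have h2 := mul_le_mul_of_nonneg_right h1 (pow_two_nonneg (n : ℝ))
    nlinarith
  have h3 : 3 ≤ C * r := by
    have h3 := mul_le_mul_of_nonneg_left h1 hC0.le
    have h4 : C * (1 / (n : ℝ)) = ((n : ℝ) - 1) / 2 := by rw [hC2]; field_simp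
    linarith
  have h5 : (3 : ℝ) * iTwo n ≤ C := by
    rcases le_total (C * (1 - r) / 3) 0 with h | h
    · have : iTwo n = 0 := by simp only [iTwo, ← hC, ← hr, Nat.ceil_eq_zero]; exact h
      simp [this, hC0.le]
    · have := Nat.ceil_lt_add_one h
      simp only [iTwo, ← hC, ← hr]
      linarith
  have h6 : (i : ℝ) ≤ iTwo n := by exact_mod_cast hi
  simp only [pp, mm, ← hC]
  exact div_nonneg (by linarith) hC0.le

/-- A small ratio to a high power. -/
lemma ratio_pow_le {u C x : ℝ} (hx : 0 ≤ x) (hC : 0 ≤ C) (hu : 0 < u) (hCu : C ^ 2 ≤ u)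
    (hle : x ≤ C / u) (r : ℕ) : x ^ (2 * r) ≤ (1 / u) ^ r := by
  rw [pow_mul]
  refine pow_le_pow_left₀ (pow_two_nonneg x) ?_ r
  refine (pow_le_pow_left₀ hx hle 2).trans ?_
  rw [div_pow, div_le_div_iff₀ (by positivity) hu, one_mul, pow_two u]
  exact mul_le_mul_of_nonneg_right hCu hu.le

/-- The structural bounds follow from the presence bound. -/
theorem structure_spec (hPres : Spec.Present) : Spec.Structure := by
  obtain ⟨N₀, hN₀⟩ := hPres
  obtain ⟨N₁, hN₁⟩ := Filter.eventually_atTop.1
    ((Real.tendsto_log_atTop.comp tendsto_natCast_atTop_atTop).eventually_ge_atTop (10000 : ℝ))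
  obtain ⟨N₂, hN₂⟩ := Filter.eventually_atTop.1
    (((tendsto_rpow_atTop (show (0 : ℝ) < 1 / 4000 by norm_num)).comp
      tendsto_natCast_atTop_atTop).eventually_ge_atTop ((10 : ℝ) ^ 7))
  refine ⟨max (max N₀ N₁) (max N₂ 7), fun n hn i hi => ?_⟩
  simp only [max_le_iff] at hn
  obtain ⟨⟨hn0, hn1⟩, hn2, hn7⟩ := hn
  have hlog : (10000 : ℝ) ≤ Real.log n := hN₁ n hn1
  set u : ℝ := (n : ℝ) ^ (1 / 4000 : ℝ) with hudef
  have hu7 : (10 : ℝ) ^ 7 ≤ u := hN₂ n hn2
  have hnR : (7 : ℝ) ≤ n := by exact_mod_cast hn7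
  have hn1R : (1 : ℝ) ≤ n := by linarith
  have hnpos : (0 : ℝ) < n := by linarith
  have hu0 : (0 : ℝ) < u := lt_of_lt_of_le (by norm_num) hu7
  have hu4 : Real.rpow n (1 / 1000) = u ^ 4 := by
    rw [hudef, ← Real.rpow_natCast, ← Real.rpow_mul hnpos.le, Real.rpow_eq_pow]
    norm_num
  have hu15 : (1 / u) ^ 60000 = 1 / (n : ℝ) ^ 15 := by
    rw [div_pow, one_pow, hudef, ← Real.rpow_natCast _ 60000, ← Real.rpow_mul hnpos.le,
      ← Real.rpow_natCast _ 15]
    norm_num
  set p := pp n i with hpdef
  have hp0 : 0 ≤ p := pp_nonneg_of_le_iTwo hn7 hi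
  have hP : ∀ S : St n, S.card ≤ 600000 →
      killed (Spec.Safe n) i (fun _ F => if S ⊆ F then 1 else 0) 0 (complete n)
        ≤ (3 * p) ^ S.card := fun S hS => hN₀ n hn0 i hi S (by
    refine le_trans (show (S.card : ℝ) ≤ 600000 by exact_mod_cast hS) ?_
    exact le_trans (by norm_num) (pow_le_pow_left₀ (by norm_num) hlog 3))
  have hq0 : 0 ≤ 3 * p := by positivity
  set A : ℝ := (n : ℝ) * p ^ 3 with hAdef
  set B : ℝ := (n : ℝ) ^ 2 * p ^ 5 with hBdef
  have hA0 : 0 ≤ A := by positivity
  have hB0 : 0 ≤ B := by positivity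
  -- thresholds and the two tails
  obtain ⟨thr, hthr, hT, hW⟩ : ∃ thr : ℝ, thr ≤ tauE n i ∧
      (∀ a b d : Fin n, a ≠ b → a ≠ d → b ≠ d → killed (Spec.Safe n) i
        (fun _ F => if thr < (T3 F a b d : ℝ) then 1 else 0) 0 (complete n) ≤ 1 / (n : ℝ) ^ 15) ∧
      (∀ a x z : Fin n, a ≠ x → a ≠ z → killed (Spec.Safe n) i
        (fun _ F => if (∀ a b d : Fin n, a ≠ b → a ≠ d → b ≠ d → (T3 F a b d : ℝ) ≤ thr) ∧
          kapE n i < (W3 F a x z : ℝ) then 1 else 0) 0 (complete n) ≤ 1 / (n : ℝ) ^ 15) := by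
    by_cases hhigh : Real.rpow n (-(41 / 100)) ≤ p
    · have htau : tauE n i = u ^ 4 * (1 + A) := by
        rw [tauE, if_pos hhigh, hu4]
      have hkap : kapE n i = u ^ 4 * (1 + A + B) := by
        rw [kapE, if_pos hhigh, hu4]
      have hu1 : (1 : ℝ) ≤ u := le_trans (by norm_num) hu7
      refine ⟨u * (1 + A), ?_, fun a b d hab had hbd => ?_, fun a x z hax haz => ?_⟩
      · rw [htau]
        exact mul_le_mul_of_nonneg_right (le_self_pow₀ hu1 (by norm_num)) (by linarith)
      · set m := ⌊u * (1 + A) / 2⌋₊ with hmdef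
        have hbig : u ≤ u * (1 + A) := le_mul_of_one_le_right hu0.le (by linarith)
        have hmlo : u * (1 + A) / 4 ≤ m := by
          have := Nat.lt_floor_add_one (u * (1 + A) / 2)
          rw [← hmdef] at this
          linarith
        have hmhi : (m : ℝ) ≤ u * (1 + A) / 2 := Nat.floor_le (by positivity)
        have hm0 : (0 : ℝ) < m := by linarith
        refine (killed_T3_le _ i hab had hbd hq0 hP (r := 2 * 60000) (m := m) (by norm_num)
          (by exact_mod_cast hm0) (by push_cast; linarith)).trans ?_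
        rw [← hu15]
        refine ratio_pow_le (C := 108) (by positivity) (by norm_num) hu0 (by linarith) ?_ _
        rw [div_le_div_iff₀ hm0 hu0]
        have e : (n : ℝ) * (3 * p) ^ 3 * u = 27 * (u * A) := by rw [hAdef]; ring
        rw [e]
        nlinarith
      · set m := ⌊kapE n i / 2⌋₊ with hmdef
        set D := 4 * ⌊u * (1 + A)⌋₊ with hDdef
        have hbig : u ^ 4 ≤ kapE n i := by
          rw [hkap]; exact le_mul_of_one_le_right (by positivity) (by linarith)
        have hu44 : u ≤ u ^ 4 := le_self_pow₀ hu1 (by norm_num)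
        have hmlo : kapE n i / 4 ≤ m := by
          have := Nat.lt_floor_add_one (kapE n i / 2)
          rw [← hmdef] at this
          linarith
        have hmhi : (m : ℝ) ≤ kapE n i / 2 := Nat.floor_le (by linarith)
        have hm0 : (0 : ℝ) < m := by linarith
        have hDr : (D : ℝ) * (2 * 60000) ≤ kapE n i / 2 := by
          have h1 : (D : ℝ) ≤ 4 * (u * (1 + A)) := by
            rw [hDdef]; push_cast
            linarith [Nat.floor_le (show 0 ≤ u * (1 + A) by positivity)]
          have h2 : 1000000 * u ≤ u ^ 4 := by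
            have : 1000000 * u ≤ u * u := by nlinarith
            exact this.trans ((pow_two u).symm.le.trans (pow_le_pow_right₀ hu1 (by norm_num)))
          have h3 : 1000000 * (u * (1 + A)) ≤ u ^ 4 * (1 + A) := by
            rw [← mul_assoc]; exact mul_le_mul_of_nonneg_right h2 (by linarith)
          have h4 : u ^ 4 * (1 + A) ≤ kapE n i := by
            rw [hkap]; exact mul_le_mul_of_nonneg_left (by linarith) (by positivity)
          linarith
        refine (killed_W3_le _ i hax haz hq0 hP (r := 2 * 60000) (m := m) (D := D) (by norm_num)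
          (by exact_mod_cast hm0) (fun k hk => by
            rw [hDdef]; exact Nat.mul_le_mul_left 4 (Nat.le_floor hk))
          (by push_cast; linarith)).trans ?_
        rw [← hu15]
        refine ratio_pow_le (C := 972) (by positivity) (by norm_num) hu0 (by linarith) ?_ _
        rw [div_le_div_iff₀ hm0 hu0]
        have e : (n : ℝ) ^ 2 * (3 * p) ^ 5 * u = 243 * (u * B) := by rw [hBdef]; ring
        rw [e]
        have h5 : u * B ≤ kapE n i := by
          rw [hkap]; exact mul_le_mul hu44 (by linarith) hB0 (by positivity)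
        linarith
    · push Not at hhigh
      have hpc : p ≤ (n : ℝ) ^ (-(41 / 100) : ℝ) := hhigh.le
      have small : ∀ (k j : ℕ) (e : ℝ), 1 / 4000 ≤ e → (k : ℝ) - 41 / 100 * j ≤ -(2 * e) →
          ∀ C : ℝ, 0 ≤ C → C ≤ u → C * ((n : ℝ) ^ k * p ^ j) ≤ (n : ℝ) ^ (-e) := by
        intro k j e he hkj C hC0 hC
        calc C * ((n : ℝ) ^ k * p ^ j)
            ≤ (n : ℝ) ^ e * ((n : ℝ) ^ k * ((n : ℝ) ^ (-(41 / 100) : ℝ)) ^ j) :=
              mul_le_mul (hC.trans (Real.rpow_le_rpow_of_exponent_le hn1R he))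
                (mul_le_mul_of_nonneg_left (pow_le_pow_left₀ hp0 hpc j) (by positivity))
                (by positivity) (by positivity)
          _ = (n : ℝ) ^ (e + ((k : ℝ) + -(41 / 100) * j)) := by
              rw [← Real.rpow_natCast (n : ℝ) k, ← Real.rpow_natCast _ j,
                ← Real.rpow_mul hnpos.le, ← Real.rpow_add hnpos, ← Real.rpow_add hnpos]
          _ ≤ (n : ℝ) ^ (-e) := Real.rpow_le_rpow_of_exponent_le hn1R (by linarith)
      have npow : ∀ (e : ℝ) (r : ℕ), 15 ≤ e * r →
          ((n : ℝ) ^ (-e)) ^ r ≤ 1 / (n : ℝ) ^ 15 := by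
        intro e r her
        calc ((n : ℝ) ^ (-e)) ^ r = (n : ℝ) ^ (-e * r) := by
              rw [← Real.rpow_natCast _ r, ← Real.rpow_mul hnpos.le]
          _ ≤ (n : ℝ) ^ (-(15 : ℝ)) := Real.rpow_le_rpow_of_exponent_le hn1R (by linarith)
          _ = _ := by
              rw [Real.rpow_neg hnpos.le, one_div, ← Real.rpow_natCast _ 15]
              norm_num
      refine ⟨200, (by rw [tauE, if_neg (not_le.2 hhigh)]), fun a b d hab had hbd => ?_,
        fun a x z hax haz => ?_⟩
      · refine (killed_T3_le _ i hab had hbd hq0 hP (r := 200) (m := 1) (by norm_num) one_pos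
          (by norm_num)).trans ?_
        refine (pow_le_pow_left₀ (by positivity) ?_ 200).trans (npow (1 / 10) 200 (by norm_num))
        have h := small 1 3 (1 / 10) (by norm_num) (by norm_num) 27 (by norm_num) (by linarith)
        refine le_trans (le_of_eq ?_) h
        push_cast
        ring
      · have hkap : kapE n i = 1000000 := by rw [kapE, if_neg (not_le.2 hhigh)]
        refine (killed_W3_le _ i hax haz hq0 hP (r := 1000) (m := 1) (D := 800) (by norm_num)
          one_pos (fun k hk => by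
            have : k ≤ 200 := by exact_mod_cast hk
            omega) (by rw [hkap]; norm_num)).trans ?_
        refine (pow_le_pow_left₀ (by positivity) ?_ 1000).trans (npow (1 / 40) 1000 (by norm_num))
        have h := small 2 5 (1 / 40) (by norm_num) (by norm_num) 243 (by norm_num) (by linarith)
        refine le_trans (le_of_eq ?_) h
        push_cast
        ring
  -- union over the roots
  classical
  let IT : Fin n × Fin n × Fin n → St n → ℝ := fun v F =>
    if v.1 ≠ v.2.1 ∧ v.1 ≠ v.2.2 ∧ v.2.1 ≠ v.2.2 ∧ thr < (T3 F v.1 v.2.1 v.2.2 : ℝ) then 1 else 0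
  let IW : Fin n × Fin n × Fin n → St n → ℝ := fun v F =>
    if v.1 ≠ v.2.1 ∧ v.1 ≠ v.2.2 ∧
      (∀ a b d : Fin n, a ≠ b → a ≠ d → b ≠ d → (T3 F a b d : ℝ) ≤ thr) ∧
      kapE n i < (W3 F v.1 v.2.1 v.2.2 : ℝ) then 1 else 0
  refine le_trans (killed_mono (g := fun _ F => ∑ v, IT v F + ∑ v, IW v F) i 0 (complete n)
    fun F hF => ?_) ?_
  · have hIT : ∀ v, 0 ≤ IT v F := fun v => by simp only [IT]; split_ifs <;> norm_num
    have hIW : ∀ v, 0 ≤ IW v F := fun v => by simp only [IW]; split_ifs <;> norm_num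
    simp only [Nat.zero_add]
    split_ifs with hgood
    · exact add_nonneg (sum_nonneg fun v _ => hIT v) (sum_nonneg fun v _ => hIW v)
    · by_cases hall : ∀ a b d : Fin n, a ≠ b → a ≠ d → b ≠ d → (T3 F a b d : ℝ) ≤ thr
      · have hw : ¬ ∀ a x z : Fin n, a ≠ x → a ≠ z → (W3 F a x z : ℝ) ≤ kapE n i := fun h =>
          hgood ⟨fun a b d h1 h2 h3 => (hall a b d h1 h2 h3).trans hthr, h⟩
        push Not at hw
        obtain ⟨a, x, z, h1, h2, h3⟩ := hw
        refine le_add_of_nonneg_of_le (sum_nonneg fun v _ => hIT v) ?_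
        refine le_trans ?_ (single_le_sum (fun v _ => hIW v) (mem_univ (a, x, z)))
        simp only [IW]
        rw [if_pos ⟨h1, h2, hall, h3⟩]
      · push Not at hall
        obtain ⟨a, b, d, h1, h2, h3, h4⟩ := hall
        refine le_add_of_le_of_nonneg ?_ (sum_nonneg fun v _ => hIW v)
        refine le_trans ?_ (single_le_sum (fun v _ => hIT v) (mem_univ (a, b, d)))
        simp only [IT]
        rw [if_pos ⟨h1, h2, h3, h4⟩]
  · rw [killed_add_fun, killed_sum, killed_sum]
    have z0 : ∀ f : St n → ℝ, (∀ F, f F = 0) →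
        killed (Spec.Safe n) i (fun _ F => f F) 0 (complete n) ≤ 1 / (n : ℝ) ^ 15 := fun f hf => by
      refine le_trans (le_of_eq ?_) (by positivity : (0 : ℝ) ≤ 1 / (n : ℝ) ^ 15)
      have := killed_mul (Good := Spec.Safe n) 0 (fun _ F => f F) i 0 (complete n)
      simp only [zero_mul] at this
      simp only [hf]
      exact this
    have bT : ∀ v, killed (Spec.Safe n) i (fun _ F => IT v F) 0 (complete n) ≤ 1 / (n : ℝ) ^ 15 :=
      fun v => by
      by_cases hv : v.1 ≠ v.2.1 ∧ v.1 ≠ v.2.2 ∧ v.2.1 ≠ v.2.2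
      · refine le_trans (killed_mono i 0 _ fun F _ => ?_) (hT _ _ _ hv.1 hv.2.1 hv.2.2)
        simp [IT, hv]
      · exact z0 _ fun F => if_neg fun h => hv ⟨h.1, h.2.1, h.2.2.1⟩
    have bW : ∀ v, killed (Spec.Safe n) i (fun _ F => IW v F) 0 (complete n) ≤ 1 / (n : ℝ) ^ 15 :=
      fun v => by
      by_cases hv : v.1 ≠ v.2.1 ∧ v.1 ≠ v.2.2
      · refine le_trans (killed_mono i 0 _ fun F _ => ?_) (hW _ v.2.1 v.2.2 hv.1 hv.2)
        simp [IW, hv]
      · exact z0 _ fun F => if_neg fun h => hv ⟨h.1, h.2.1⟩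
    refine (add_le_add (sum_le_sum fun v _ => bT v) (sum_le_sum fun v _ => bW v)).trans ?_
    simp only [sum_const, card_univ, Fintype.card_prod, Fintype.card_fin, nsmul_eq_mul]
    push_cast
    rw [mul_one_div, ← add_div, div_le_div_iff₀ (by positivity) (by positivity), one_mul]
    have e : ((n : ℝ) * (n * n) + n * (n * n)) * (n : ℝ) ^ 6 = 2 * (n : ℝ) ^ 9 := by ring
    rw [e]
    calc 2 * (n : ℝ) ^ 9 ≤ (n : ℝ) ^ 1 * (n : ℝ) ^ 9 :=
          mul_le_mul_of_nonneg_right (by rw [pow_one]; linarith) (by positivity)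
      _ ≤ (n : ℝ) ^ 15 := by rw [← pow_add]; exact pow_le_pow_right₀ hn1R (by norm_num)

end Vale.Agent.P046.Phase
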