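import Vale.Agent.P046.Phase.Two

/-!
# The second phase keeps its envelope: assembly
-/

namespace Vale.Agent.P046.Phase

open Finset Chain Flags Filter Two

variable {n : ℕ}

namespace Two

open Classical in
/-- The event that some observable at `e` left the second phase envelope. -/
noncomputable def out (f : ℕ → St n → ℝ) (env : ℕ → ℝ) (i : ℕ) (e : Finset (Fin n))
    (b : ℕ) (F : St n) : ℝ :=
  if {e} ⊆ F ∧ env i ≤ |f b F| then 1 else 0

open Classical in
lemma out_nonneg (f : ℕ → St n → ℝ) (env : ℕ → ℝ) (i : ℕ) (e : Finset (Fin n)) (b : ℕ)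
    (F : St n) : 0 ≤ out f env i e b F := by
  unfold out; split_ifs <;> norm_num

lemma small_le {x : ℝ} (h : 0 ≤ x) : 2 * x / 10000 ≤ (1 - 2 / 10000) * x := by
  ring_nf; nlinarith

lemma err_nonneg {P : Env} {b : ℕ} (hs : Small n P b) : 0 ≤ err P n b := by
  have := hs.mu_pos; have := hs.y0; have := hs.z0; have := hs.w0
  have := hs.tau1; have := hs.kap1
  unfold err
  have h1 : 0 ≤ P.tau b := by linarith
  have h2 : 0 ≤ P.kap b := by linarith
  positivity

lemma rates_nonneg {P : Env} {b : ℕ} (hs : Small n P b) :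
    (0 ≤ qY P n b ∧ 0 ≤ jY n b) ∧ (0 ≤ qZ P n b ∧ 0 ≤ jZ P n b) ∧
      (0 ≤ qW P n b ∧ 0 ≤ jW P n b) ∧ (0 ≤ qV P n b ∧ 0 ≤ jV P n b) := by
  have := hs.mu_pos; have := hs.y0; have := hs.z0; have := hs.w0
  have h1 : 0 ≤ P.tau b := by linarith [hs.tau1]
  have h2 : 0 ≤ P.kap b := by linarith [hs.kap1]
  have h3 : 0 < mm n b := by linarith [hs.mm_ge]
  refine ⟨⟨?_, ?_⟩, ⟨?_, ?_⟩, ⟨?_, ?_⟩, ?_, ?_⟩ <;>
    simp only [qY, qZ, qW, qV, jY, jZ, jW, jV] <;> positivity

lemma raise_noise {R : St n} {f : ℕ → St n → ℝ} {b : ℕ} {F : St n} {c C q r : ℝ} (hc : c ≤ C)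
    (h0 : 0 ≤ q ∧ 0 ≤ r) (h : Flags.sq R f b F ≤ c * q ∧ JumpLE R f b F (c * r)) :
    Flags.sq R f b F ≤ C * q ∧ JumpLE R f b F (C * r) :=
  ⟨h.1.trans (mul_le_mul_of_nonneg_right hc h0.1),
    fun t ht hR => (h.2 t ht hR).trans (mul_le_mul_of_nonneg_right hc h0.2)⟩

open Classical in
/-- The four tails at one edge, together. -/
lemma four_tails (hok : ∀ b, iOne n ≤ b → b ≤ iTwo n → Ok n b) {l : ℕ}
    (hi : iOne n + l ≤ iTwo n) (hlog : 7200000000 ≤ Real.log n) {C : ℝ} (hC : 1 ≤ C)
    (hinit : ∀ t, Rng n t →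
      10000 * (n : ℝ) ^ (-(13 / 100) : ℝ) ≤ Yv n t ∧
      10000 * (n : ℝ) ^ (-(13 / 50) : ℝ) ≤ Zv n t ∧
      10000 * (n : ℝ) ^ (-(3 / 10) : ℝ) ≤ Wv n t ∧ 10000 * (n : ℝ) ^ (-(17 / 50) : ℝ) ≤ Vv n t)
    (hD : ∀ t, Rng n t →
      10000 * C * (Zv n t + Yv n t ^ 2 + 1 / t) * Real.log n ≤ Yv n t ∧
      10000 * C * (Wv n t + Vv n t + Ev n t) * Real.log n ≤ Zv n t ∧
      10000 * C * (Vv n t + Ev n t) * Real.log n ≤ Wv n t ∧
      10000 * C * Ev n t * Real.log n ≤ Vv n t)
    (hYZ : ∀ t, Rng n t →
      C * (1 / t + Tv n t) * Real.log n ^ 3 ≤ Yv n t ^ 2 ∧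
      C * (1 / t) * Real.log n ^ 2 ≤ Yv n t ∧
      C * (Tv n t + Yv n t ^ 2 * (1 / t)) * Real.log n ^ 3 ≤ Zv n t ^ 2 ∧
      C * (Tv n t + Yv n t * (1 / t)) * Real.log n ^ 2 ≤ Zv n t)
    (hWn : ∀ t, Rng n t →
      C * (Tv n t * (1 / t) + Kv n t + Yv n t ^ 2 * Tv n t + Zv n t ^ 2 * (1 / t) + Iv n t) *
          Real.log n ^ 3 ≤ Wv n t ^ 2 ∧
      C * (Tv n t + Kv n t + Zv n t * (1 / t)) * Real.log n ^ 2 ≤ Wv n t)
    (hVn : ∀ t, Rng n t →
      C * (Yv n t ^ 2 * Tv n t + Tv n t * (1 / t) ^ 2 + Yv n t ^ 4 * (1 / t) + Iv n t) *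
          Real.log n ^ 3 ≤ Vv n t ^ 2 ∧
      C * (Yv n t * Tv n t + Tv n t * (1 / t) + Yv n t ^ 2 * (1 / t) + Iv n t) *
          Real.log n ^ 2 ≤ Vv n t)
    (dY : ∀ (b : ℕ) (F : St n), Small n (envII n) b → Good (envII n) b F → ∀ e ∈ F,
      |inc {e} (fun k G => yy k G e) b F| ≤
        C * ((envII n).z b + (envII n).y b ^ 2 + 1 / mu n b))
    (dZ : ∀ (b : ℕ) (F : St n), Small n (envII n) b → Good (envII n) b F → ∀ e ∈ F,
      |inc {e} (fun k G => zc k G e) b F| ≤
        C * ((envII n).w b + (envII n).v b + err (envII n) n b))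
    (dW : ∀ (b : ℕ) (F : St n), Small n (envII n) b → Good (envII n) b F → ∀ e ∈ F,
      |inc {e} (fun k G => wc k G e) b F + 2 / (1 + gg b F) * avgE F (wc b F) e| ≤
        C * ((envII n).v b + err (envII n) n b))
    (dV : ∀ (b : ℕ) (F : St n), Small n (envII n) b → Good (envII n) b F → ∀ e ∈ F,
      |inc {e} (fun k G => vc k G e) b F| ≤ C * err (envII n) n b)
    (nY : ∀ (b : ℕ) (F : St n), Small n (envII n) b → Good (envII n) b F → ∀ e ∈ F,
      Flags.sq {e} (fun k G => yy k G e) b F ≤ C * qY (envII n) n b ∧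
        JumpLE {e} (fun k G => yy k G e) b F (C * jY n b))
    (nZ : ∀ (b : ℕ) (F : St n), Small n (envII n) b → Good (envII n) b F → ∀ e ∈ F,
      Flags.sq {e} (fun k G => zc k G e) b F ≤ C * qZ (envII n) n b ∧
        JumpLE {e} (fun k G => zc k G e) b F (C * jZ (envII n) n b))
    (nW : ∀ (b : ℕ) (F : St n), Small n (envII n) b → Good (envII n) b F → ∀ e ∈ F,
      Flags.sq {e} (fun k G => wc k G e) b F ≤ C * qW (envII n) n b ∧
        JumpLE {e} (fun k G => wc k G e) b F (C * jW (envII n) n b))
    (nV : ∀ (b : ℕ) (F : St n), Small n (envII n) b → Good (envII n) b F → ∀ e ∈ F,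
      Flags.sq {e} (fun k G => vc k G e) b F ≤ C * qV (envII n) n b ∧
        JumpLE {e} (fun k G => vc k G e) b F (C * jV (envII n) n b))
    (E : St n) (hE : GoodI (envI n) (etaI n) (iOne n) E) (e : Finset (Fin n)) (he : e ∈ E) :
    killed (During n (iOne n + l)) l (fun b F =>
      out (fun k G => yy k G e) (envII n).y (iOne n + l) e b F +
      out (fun k G => zc k G e) (envII n).z (iOne n + l) e b F +
      out (fun k G => wc k G e) (envII n).w (iOne n + l) e b F +
      out (fun k G => vc k G e) (envII n).v (iOne n + l) e b F) (iOne n) E ≤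
      8 * Real.exp (-(9 * Real.log n)) := by
  set i := iOne n + l with hidef
  have hok' : ∀ b, iOne n ≤ b → b ≤ i → Ok n b := fun b h1 h2 => hok b h1 (h2.trans hi)
  have hOi := hok' i (by omega) le_rfl
  have hi3 : 3 * (iOne n + l) < n.choose 2 := by have := hOi.room; omega
  have hL : 0 < Real.log n := by linarith
  have hti : 0 < mu n i := mu_pos hi3
  obtain ⟨eYi, eZi, eWi, eVi⟩ := env_eq (n := n) (b := i) hi3
  obtain ⟨iY, iZ, iW, iV⟩ := hinit _ hOi.rng
  have hnpos : (0 : ℝ) < n := n_pos hi3
  have pY : 0 < Yv n (mu n i) := lt_of_lt_of_le (by positivity) iY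
  have pZ : 0 < Zv n (mu n i) := lt_of_lt_of_le (by positivity) iZ
  have pW : 0 < Wv n (mu n i) := lt_of_lt_of_le (by positivity) iW
  have pV : 0 < Vv n (mu n i) := lt_of_lt_of_le (by positivity) iV
  rw [← eYi] at iY pY; rw [← eZi] at iZ pZ; rw [← eWi] at iW pW; rw [← eVi] at iV pV
  have facts : ∀ b, iOne n ≤ b → b ≤ i →
      (envII n).y b = Yv n (mu n b) ∧ (envII n).z b = Zv n (mu n b) ∧
      (envII n).w b = Wv n (mu n b) ∧ (envII n).v b = Vv n (mu n b) ∧
      err (envII n) n b ≤ Ev n (mu n b) ∧ (envII n).y b ≤ (envII n).y i ∧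
      (envII n).z b ≤ (envII n).z i ∧ (envII n).w b ≤ (envII n).w i ∧
      (envII n).v b ≤ (envII n).v i ∧ 0 ≤ Yv n (mu n b) ∧ 0 ≤ Zv n (mu n b) ∧
      0 ≤ Wv n (mu n b) ∧ 0 ≤ Vv n (mu n b) ∧ 0 ≤ Tv n (mu n b) ∧ 0 < mu n b := by
    intro b h1 h2
    have o := hok' b h1 h2
    obtain ⟨a1, a2, a3, a4⟩ := env_eq (n := n) (b := b) (by omega)
    obtain ⟨m1, m2, m3, m4⟩ := env_anti h2 hi3
    obtain ⟨-, -, p1, p2, p3, p4, p5, -⟩ := sq_bounds o.rng
    refine ⟨a1, a2, a3, a4, ?_, m1, m2, m3, m4, p1, p2, p3, p4, p5, mu_pos (by omega)⟩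
    simp only [err, Ev, a1, a2, a3]
    exact add_le_add (add_le_add le_rfl o.tau) o.kap
  simp only [killed_add_fun]
  refine (add_le_add (add_le_add (add_le_add
    (b := 2 * Real.exp (-(9 * Real.log n))) (d := 2 * Real.exp (-(9 * Real.log n))) ?_ ?_)
    (d := 2 * Real.exp (-(9 * Real.log n))) ?_)
    (d := 2 * Real.exp (-(9 * Real.log n))) ?_).trans_eq (by ring)
  · refine obs_tail rfl hok' hlog e _ _
      (fun b => C * ((envII n).z b + (envII n).y b ^ 2 + 1 / mu n b))
      (fun b => C * qY (envII n) n b) (fun b => C * jY n b) pY E hE.good.size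
      ((hE.good.y e he).trans ?_) (fun b F hg h => dY b F (hok' b hg.2.1 hg.2.2.le).small
        (during_good hg) e h) ?_ (fun b F hg h => nY b F (hok' b hg.2.1 hg.2.2.le).small
        (during_good hg) e h) ?_
    · rw [le_div_iff₀ (by norm_num), mul_comm]; exact iY
    · refine (sum_small hi3 hL pY.le (K := 10000) (by norm_num)
        (fun b => C * ((envII n).z b + (envII n).y b ^ 2 + 1 / mu n b)) fun c hc => ?_).trans
        (small_le pY.le)
      obtain ⟨a1, a2, -, -, -, m1, -⟩ := facts (iOne n + c) (by omega) (by omega)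
      have h := (hD _ (hok' (iOne n + c) (by omega) (by omega)).rng).1
      rw [← a1, ← a2] at h
      linarith
    · intro b h1 h2
      obtain ⟨a1, -, -, -, -, m1, -, -, -, p1, -, -, -, -, pm⟩ := facts b h1 h2.le
      obtain ⟨q1, j1, -, -⟩ := hYZ _ (hok' b h1 h2.le).rng
      rw [← a1] at q1 j1 p1
      refine ⟨?_, ?_⟩
      · refine le_trans ?_ (pow_le_pow_left₀ p1 m1 2)
        refine le_trans ?_ q1
        refine mul_le_mul_of_nonneg_right (mul_le_mul_of_nonneg_left
          (add_le_add le_rfl (hok' b h1 h2.le).tau) (by linarith)) (by positivity)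
      · exact le_trans j1 m1
  · refine obs_tail rfl hok' hlog e _ _
      (fun b => C * ((envII n).w b + (envII n).v b + err (envII n) n b))
      (fun b => C * qZ (envII n) n b) (fun b => C * jZ (envII n) n b) pZ E hE.good.size
      ((hE.good.z e he).trans ?_) (fun b F hg h => dZ b F (hok' b hg.2.1 hg.2.2.le).small
        (during_good hg) e h) ?_ (fun b F hg h => nZ b F (hok' b hg.2.1 hg.2.2.le).small
        (during_good hg) e h) ?_
    · rw [le_div_iff₀ (by norm_num), mul_comm]; exact iZ
    · refine (sum_small hi3 hL pZ.le (K := 10000) (by norm_num)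
        (fun b => C * ((envII n).w b + (envII n).v b + err (envII n) n b)) fun c hc => ?_).trans
        (small_le pZ.le)
      obtain ⟨-, a2, a3, a4, he', -, m2, -⟩ := facts (iOne n + c) (by omega) (by omega)
      have h := (hD _ (hok' (iOne n + c) (by omega) (by omega)).rng).2.1
      rw [← a2, ← a3, ← a4] at h
      have := mul_le_mul_of_nonneg_left he' (mul_nonneg (by linarith : (0 : ℝ) ≤ 10000 * C) hL.le)
      linarith
    · intro b h1 h2
      obtain ⟨a1, a2, -, -, -, -, m2, -, -, p1, p2, -, -, -, pm⟩ := facts b h1 h2.le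
      obtain ⟨-, -, q2, j2⟩ := hYZ _ (hok' b h1 h2.le).rng
      have ht := (hok' b h1 h2.le).tau
      rw [← a1, ← a2] at q2 j2
      rw [← a2] at p2
      refine ⟨?_, ?_⟩
      · refine le_trans ?_ (pow_le_pow_left₀ p2 m2 2)
        refine le_trans ?_ q2
        refine mul_le_mul_of_nonneg_right (mul_le_mul_of_nonneg_left ?_ (by linarith))
          (by positivity)
        exact add_le_add ht (le_of_eq (by ring))
      · refine le_trans ?_ (j2.trans m2)
        refine mul_le_mul_of_nonneg_right (mul_le_mul_of_nonneg_left ?_ (by linarith))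
          (by positivity)
        exact add_le_add ht (le_of_eq (by ring))
  · refine obs_tail rfl hok' hlog e _ _
      (fun b => 20003 / 10000 * Wv n (mu n b) + C * ((envII n).v b + err (envII n) n b))
      (fun b => C * qW (envII n) n b) (fun b => C * jW (envII n) n b) pW E hE.good.size
      ((hE.good.w e he).trans ?_) (fun b F hg h => ?_) ?_
      (fun b F hg h => nW b F (hok' b hg.2.1 hg.2.2.le).small (during_good hg) e h) ?_
    · rw [le_div_iff₀ (by norm_num), mul_comm]; exact iW
    · have o := hok' b hg.2.1 hg.2.2.le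
      obtain ⟨-, -, a3, -, -, -, -, -, -, -, -, p3, -⟩ := facts b hg.2.1 hg.2.2.le
      have h1 := dW b F o.small (during_good hg) e h
      have h2 := abs_avgE_wc o.small (during_good hg) e
      have hg1 := (abs_le.1 ((abs_gg_le o.small (during_good hg)).trans o.y)).1
      have hpos : 0 < 1 + gg b F := by linarith
      have h3 : |2 / (1 + gg b F) * avgE F (wc b F) e| ≤ 20003 / 10000 * Wv n (mu n b) := by
        rw [abs_mul, abs_of_pos (div_pos two_pos hpos), ← a3]
        refine mul_le_mul ?_ h2 (abs_nonneg _) (by norm_num)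
        rw [div_le_iff₀ hpos]; linarith
      calc |inc {e} (fun k G => wc k G e) b F|
          = |(inc {e} (fun k G => wc k G e) b F + 2 / (1 + gg b F) * avgE F (wc b F) e) -
              2 / (1 + gg b F) * avgE F (wc b F) e| := by congr 1; ring
        _ ≤ _ := (abs_sub _ _).trans (by linarith)
    · simp only [mul_add, sum_add_distrib]
      have h1 := sum_growth hi3
      rw [← hidef, ← eWi] at h1
      have h2 := sum_small hi3 hL pW.le (K := 10000) (by norm_num)
        (fun b => C * ((envII n).v b + err (envII n) n b)) fun c hc => by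
          obtain ⟨-, -, a3, a4, he', -, -, m3, -⟩ := facts (iOne n + c) (by omega) (by omega)
          have h := (hD _ (hok' (iOne n + c) (by omega) (by omega)).rng).2.2.1
          rw [← a3, ← a4] at h
          have := mul_le_mul_of_nonneg_left he'
            (mul_nonneg (by linarith : (0 : ℝ) ≤ 10000 * C) hL.le)
          linarith
      simp only [mul_add, sum_add_distrib] at h2
      linarith
    · intro b h1 h2
      obtain ⟨a1, a2, a3, -, -, -, -, m3, -, p1, p2, p3, -, p5, pm⟩ := facts b h1 h2.le
      obtain ⟨q3, j3⟩ := hWn _ (hok' b h1 h2.le).rng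
      have o := hok' b h1 h2.le
      rw [← a1, ← a2, ← a3] at q3
      rw [← a2, ← a3] at j3
      rw [← a3] at p3
      refine ⟨?_, ?_⟩
      · refine le_trans ?_ (pow_le_pow_left₀ p3 m3 2)
        refine le_trans ?_ q3
        refine mul_le_mul_of_nonneg_right (mul_le_mul_of_nonneg_left ?_ (by linarith))
          (by positivity)
        have u1 := mul_le_mul_of_nonneg_right o.tau (one_div_pos.2 pm).le
        have u2 := mul_le_mul_of_nonneg_left o.tau (sq_nonneg ((envII n).y b))
        have u3 := o.kap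
        have u4 := o.inv
        have e : qW (envII n) n b = tauE n b / mu n b ^ 2 * (1 / mu n b) + kapE n b / mu n b ^ 3 +
            (envII n).y b ^ 2 * (tauE n b / mu n b ^ 2) + (envII n).z b ^ 2 * (1 / mu n b) +
            1 / mm n b := by
          simp only [qW, envII]; ring
        linarith
      · refine le_trans ?_ (j3.trans m3)
        refine mul_le_mul_of_nonneg_right (mul_le_mul_of_nonneg_left ?_ (by linarith))
          (by positivity)
        exact add_le_add (add_le_add o.tau o.kap) (le_of_eq (by ring))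
  · refine obs_tail rfl hok' hlog e _ _ (fun b => C * err (envII n) n b)
      (fun b => C * qV (envII n) n b) (fun b => C * jV (envII n) n b) pV E hE.good.size
      ((hE.good.v e he).trans ?_) (fun b F hg h => dV b F (hok' b hg.2.1 hg.2.2.le).small
        (during_good hg) e h) ?_ (fun b F hg h => nV b F (hok' b hg.2.1 hg.2.2.le).small
        (during_good hg) e h) ?_
    · rw [le_div_iff₀ (by norm_num), mul_comm]; exact iV
    · refine (sum_small hi3 hL pV.le (K := 10000) (by norm_num)
        (fun b => C * err (envII n) n b) fun c hc => ?_).trans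
        (small_le pV.le)
      obtain ⟨-, -, -, a4, he', -, -, -, m4, -⟩ := facts (iOne n + c) (by omega) (by omega)
      have h := (hD _ (hok' (iOne n + c) (by omega) (by omega)).rng).2.2.2
      rw [← a4] at h
      have := mul_le_mul_of_nonneg_left he' (mul_nonneg (by linarith : (0 : ℝ) ≤ 10000 * C) hL.le)
      linarith
    · intro b h1 h2
      obtain ⟨a1, -, -, a4, -, -, -, -, m4, p1, -, -, p4, -, pm⟩ := facts b h1 h2.le
      obtain ⟨q4, j4⟩ := hVn _ (hok' b h1 h2.le).rng
      have o := hok' b h1 h2.le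
      rw [← a1, ← a4] at q4 j4
      rw [← a4] at p4
      rw [← a1] at p1
      refine ⟨?_, ?_⟩
      · refine le_trans ?_ (pow_le_pow_left₀ p4 m4 2)
        refine le_trans ?_ q4
        refine mul_le_mul_of_nonneg_right (mul_le_mul_of_nonneg_left ?_ (by linarith))
          (by positivity)
        have u1 := mul_le_mul_of_nonneg_right o.tau (sq_nonneg (1 / mu n b))
        have u2 := mul_le_mul_of_nonneg_left o.tau (sq_nonneg ((envII n).y b))
        have u4 := o.inv
        have e : qV (envII n) n b = (envII n).y b ^ 2 * (tauE n b / mu n b ^ 2) +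
            tauE n b / mu n b ^ 2 * (1 / mu n b) ^ 2 + (envII n).y b ^ 4 * (1 / mu n b) +
            1 / mm n b := by
          simp only [qV, envII]; ring
        linarith
      · refine le_trans ?_ (j4.trans m4)
        refine mul_le_mul_of_nonneg_right (mul_le_mul_of_nonneg_left ?_ (by linarith))
          (by positivity)
        have u1 := mul_le_mul_of_nonneg_right o.tau (one_div_pos.2 pm).le
        have u2 := mul_le_mul_of_nonneg_left o.tau p1
        have u4 := o.inv
        have e : jV (envII n) n b = (envII n).y b * (tauE n b / mu n b ^ 2) +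
            tauE n b / mu n b ^ 2 * (1 / mu n b) + (envII n).y b ^ 2 * (1 / mu n b) +
            1 / mm n b := by
          simp only [jV, envII]; ring
        linarith

end Two

open Two

open Classical in
/-- The second phase keeps its envelope, given the one step estimates, the structural bounds and
the first phase. -/
theorem phaseTwo (hy : Flags.Spec.DriftY) (hz : Flags.Spec.DriftZ) (hw : Flags.Spec.DriftW)
    (hv : Flags.Spec.DriftV) (ky : Flags.Spec.NoiseY) (kz : Flags.Spec.NoiseZ)
    (kw : Flags.Spec.NoiseW) (kv : Flags.Spec.NoiseV) (hS : Spec.Structure)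
    (h1 : Spec.PhaseOne) : Spec.PhaseTwo := by
  obtain ⟨C1, hC1, dY⟩ := hy; obtain ⟨C2, hC2, dZ⟩ := hz; obtain ⟨C3, hC3, dW⟩ := hw
  obtain ⟨C4, hC4, dV⟩ := hv; obtain ⟨C5, hC5, nY⟩ := ky; obtain ⟨C6, hC6, nZ⟩ := kz
  obtain ⟨C7, hC7, nW⟩ := kw; obtain ⟨C8, hC8, nV⟩ := kv
  obtain ⟨NS, hS⟩ := hS
  obtain ⟨N1, h1⟩ := h1
  obtain ⟨C, hC, b1, b2, b3, b4, b5, b6, b7, b8⟩ : ∃ C : ℝ, 1 ≤ C ∧ C1 ≤ C ∧ C2 ≤ C ∧ C3 ≤ C ∧
      C4 ≤ C ∧ C5 ≤ C ∧ C6 ≤ C ∧ C7 ≤ C ∧ C8 ≤ C :=
    ⟨C1 + C2 + C3 + C4 + C5 + C6 + C7 + C8, by linarith, by linarith, by linarith, by linarith,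
      by linarith, by linarith, by linarith, by linarith, by linarith⟩
  have hall : ∀ᶠ n : ℕ in atTop, ∀ i, iOne n ≤ i → i ≤ iTwo n →
      killed (Spec.Safe n) i (fun k F => if Good (envII n) k F then 0 else 1) 0 (complete n)
        ≤ 1 / (n : ℝ) ^ 5 := by
    filter_upwards [ev_ok, ev_init, ev_drift (10000 * C) (by linarith),
      ev_noise_yz C (by linarith), ev_noise_w C (by linarith), ev_noise_v C (by linarith),
      (Real.tendsto_log_atTop.comp tendsto_natCast_atTop_atTop).eventually_ge_atTop 7200000000,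
      eventually_ge_atTop 10, eventually_ge_atTop NS, eventually_ge_atTop N1]
      with n hok hinit hD hYZ hWn hVn hlog hn10 hnS hn1
    intro i hi1 hi2
    have hn : (10 : ℝ) ≤ n := by exact_mod_cast hn10
    obtain ⟨l, rfl⟩ := Nat.exists_eq_add_of_le hi1
    rcases Nat.eq_zero_or_pos l with rfl | hl
    · refine le_trans (killed_mono _ _ _ fun F _ => ?_) (h1 n hn1 (iOne n) le_rfl)
      rw [Nat.zero_add, Nat.add_zero]
      by_cases hI : GoodI (envI n) (etaI n) (iOne n) F
      · have o := hok (iOne n) le_rfl (by simpa using hi2)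
        obtain ⟨a1, a2, a3, a4⟩ := env_eq (n := n) (b := iOne n) (by have := o.room; omega)
        obtain ⟨i1, i2, i3, i4⟩ := hinit _ o.rng
        have hp : ∀ a : ℝ, 0 ≤ (n : ℝ) ^ a := fun a => Real.rpow_nonneg (Nat.cast_nonneg n) a
        have hII : Good (envII n) (iOne n) F := by
          refine ⟨hI.good.size, fun e he => ?_, fun e he => ?_, fun e he => ?_,
            fun e he => ?_, hI.good.tau, hI.good.kap⟩
          · exact (hI.good.y e he).trans (by
              simp only [a1, envI, Real.rpow_eq_pow]; linarith [hp (-(13 / 100))])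
          · exact (hI.good.z e he).trans (by
              simp only [a2, envI, Real.rpow_eq_pow]; linarith [hp (-(13 / 50))])
          · exact (hI.good.w e he).trans (by
              simp only [a3, envI, Real.rpow_eq_pow]; linarith [hp (-(3 / 10))])
          · exact (hI.good.v e he).trans (by
              simp only [a4, envI, Real.rpow_eq_pow]; linarith [hp (-(17 / 50))])
        simp [hI, hII]
      · simp only [hI, if_false]; split_ifs <;> norm_num
    set i := iOne n + l with hidef
    set S : ℕ → St n → ℝ := fun k F =>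
      if (∀ a b d : Fin n, a ≠ b → a ≠ d → b ≠ d → (T3 F a b d : ℝ) ≤ tauE n k) ∧
        (∀ a x z : Fin n, a ≠ x → a ≠ z → (W3 F a x z : ℝ) ≤ kapE n k) then 0 else 1 with hSdef
    set c : ℝ := (n.choose 2 : ℕ) * (8 * Real.exp (-(9 * Real.log n))) with hc
    have hc0 : 0 ≤ c := by positivity
    have hSn : ∀ k F, 0 ≤ S k F := fun k F => by simp only [hSdef]; split_ifs <;> norm_num
    have inner : ∀ E : St n, killed (Spec.Safe n) l
        (fun k F => if Good (envII n) k F then 0 else 1) (iOne n) E ≤
        killed (Spec.Safe n) l S (iOne n) E + c := by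
      intro E
      by_cases hsafe : Spec.Safe n (iOne n) E
      swap
      · obtain ⟨m, rfl⟩ : ∃ m, l = m + 1 := ⟨l - 1, by omega⟩
        rw [killed_succ_of_not_good hsafe, killed_succ_of_not_good hsafe]
        linarith
      have hI := hsafe.1 le_rfl
      have hok' : ∀ b, iOne n ≤ b → b ≤ i → Ok n b := fun b h h' => hok b h (h'.trans hi2)
      rw [killed_congr_good (Good' := During n i) _ l (iOne n) E
          (fun b F h h' => ⟨fun hg => ⟨hg, h, h'⟩, fun hg => hg.1⟩),
        killed_congr_good (Good' := During n i) S l (iOne n) E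
          (fun b F h h' => ⟨fun hg => ⟨hg, h, h'⟩, fun hg => hg.1⟩)]
      set T : Finset (Fin n) → ℕ → St n → ℝ := fun e b F =>
        out (fun k G => yy k G e) (envII n).y i e b F +
        out (fun k G => zc k G e) (envII n).z i e b F +
        out (fun k G => wc k G e) (envII n).w i e b F +
        out (fun k G => vc k G e) (envII n).v i e b F with hT
      have hT0 : ∀ e b F, 0 ≤ T e b F := fun e b F => by
        simp only [hT]; exact add_nonneg (add_nonneg (add_nonneg (out_nonneg ..) (out_nonneg ..))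
          (out_nonneg ..)) (out_nonneg ..)
      refine le_trans (killed_mono_inv (g := fun b F => S b F + ∑ e ∈ complete n, T e b F)
        Size (during_size hok') l (iOne n) E hI.good.size fun F hF => ?_) ?_
      · rw [← hidef] at hF ⊢
        have hsum : 0 ≤ ∑ e ∈ complete n, T e i F := sum_nonneg fun e _ => hT0 e i F
        by_cases hgood : Good (envII n) i F
        · rw [if_pos hgood]; linarith [hSn i F]
        rw [if_neg hgood]
        by_cases hst : (∀ a b d : Fin n, a ≠ b → a ≠ d → b ≠ d → (T3 F a b d : ℝ) ≤ tauE n i) ∧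
            (∀ a x z : Fin n, a ≠ x → a ≠ z → (W3 F a x z : ℝ) ≤ kapE n i)
        swap
        · have : S i F = 1 := by simp only [hSdef]; rw [if_neg hst]
          linarith
        have key : ∃ e ∈ F, 1 ≤ T e i F := by
          by_contra hno
          push_neg at hno
          have aux : ∀ (f : ℕ → St n → ℝ) (env : ℕ → ℝ) (e : Finset (Fin n)), e ∈ F →
              out f env i e i F < 1 → |f i F| ≤ env i := by
            intro f env e he hlt
            by_contra hf
            simp [out, he, (not_le.1 hf).le] at hlt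
          refine hgood ⟨hF, fun e he => ?_, fun e he => ?_, fun e he => ?_, fun e he => ?_,
            hst.1, hst.2⟩
          all_goals
            have h := hno e he
            simp only [hT] at h
            have n1 := out_nonneg (fun k G => yy k G e) (envII n).y i e i F
            have n2 := out_nonneg (fun k G => zc k G e) (envII n).z i e i F
            have n3 := out_nonneg (fun k G => wc k G e) (envII n).w i e i F
            have n4 := out_nonneg (fun k G => vc k G e) (envII n).v i e i F
          · exact aux (fun k G => yy k G e) _ e he (by linarith)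
          · exact aux (fun k G => zc k G e) _ e he (by linarith)
          · exact aux (fun k G => wc k G e) _ e he (by linarith)
          · exact aux (fun k G => vc k G e) _ e he (by linarith)
        obtain ⟨e, he, h1e⟩ := key
        have := single_le_sum (f := fun e => T e i F) (fun e _ => hT0 e i F) (hF.1 he)
        linarith [hSn i F]
      rw [killed_add_fun, killed_sum]
      refine add_le_add le_rfl
        ((sum_le_sum (g := fun _ => 8 * Real.exp (-(9 * Real.log n))) fun e _ => ?_).trans_eq ?_)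
      · show killed (During n i) l (T e) (iOne n) E ≤ 8 * Real.exp (-(9 * Real.log n))
        by_cases he : e ∈ E
        · exact four_tails hok hi2 hlog hC hinit hD hYZ hWn hVn
            (fun b F hs hg e he => (dY n b _ F hs hg e he).trans (mul_le_mul_of_nonneg_right b1
              (add_nonneg (add_nonneg hs.z0 (sq_nonneg _)) (one_div_pos.2 hs.mu_pos).le)))
            (fun b F hs hg e he => (dZ n b _ F hs hg e he).trans (mul_le_mul_of_nonneg_right b2
              (add_nonneg (add_nonneg hs.w0 hs.v0) (err_nonneg hs))))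
            (fun b F hs hg e he => (dW n b _ F hs hg e he).trans (mul_le_mul_of_nonneg_right b3
              (add_nonneg hs.v0 (err_nonneg hs))))
            (fun b F hs hg e he => (dV n b _ F hs hg e he).trans (mul_le_mul_of_nonneg_right b4
              (err_nonneg hs)))
            (fun b F hs hg e he => raise_noise b5 (rates_nonneg hs).1 (nY n b _ F hs hg e he))
            (fun b F hs hg e he => raise_noise b6 (rates_nonneg hs).2.1 (nZ n b _ F hs hg e he))
            (fun b F hs hg e he => raise_noise b7 (rates_nonneg hs).2.2.1 (nW n b _ F hs hg e he))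
            (fun b F hs hg e he => raise_noise b8 (rates_nonneg hs).2.2.2 (nV n b _ F hs hg e he))
            E hI e he
        · refine le_trans (killed_mono (g := fun _ _ => (0 : ℝ)) _ _ _ fun F hF => ?_) ?_
          · have : e ∉ F := fun h => he (hF h)
            simp [hT, out, this]
          · refine le_trans (le_of_eq ?_) (by positivity : (0 : ℝ) ≤ 8 * Real.exp _)
            have := killed_mul (Good := During n i) 0 (fun _ _ => (1 : ℝ)) l (iOne n) E
            simpa using this
      · rw [sum_const, nsmul_eq_mul, hc, complete, card_powersetCard, card_univ, Fintype.card_fin]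
    rw [killed_append]
    refine le_trans (killed_mono (g := fun b F =>
      killed (Spec.Safe n) l S b F + c * (fun _ _ => (1 : ℝ)) b F) _ _ _ fun F _ => ?_) ?_
    · simpa using inner F
    rw [killed_add_fun, killed_mul, ← killed_append]
    have hst : killed (Spec.Safe n) i S 0 (complete n) ≤ 1 / (n : ℝ) ^ 6 := hS n hnS i hi2
    have hone : c * killed (Spec.Safe n) (iOne n) (fun _ _ => 1) 0 (complete n) ≤ c :=
      mul_le_of_le_one_right hc0 (killed_one_le _ _ _)
    have hexp : Real.exp (-(9 * Real.log n)) = 1 / (n : ℝ) ^ 9 := by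
      rw [Real.exp_neg, show (9 : ℝ) * Real.log n = Real.log ((n : ℝ) ^ 9) by
        rw [Real.log_pow]; push_cast; ring, Real.exp_log (by positivity), one_div]
    have hN : ((n.choose 2 : ℕ) : ℝ) ≤ (n : ℝ) ^ 2 := by exact_mod_cast Nat.choose_le_pow n 2
    have hc' : c ≤ 8 / (n : ℝ) ^ 7 := by
      rw [hc, hexp]
      refine (mul_le_mul_of_nonneg_right hN (by positivity)).trans_eq ?_
      field_simp
    have hsum : 1 / (n : ℝ) ^ 6 + 8 / (n : ℝ) ^ 7 ≤ 1 / (n : ℝ) ^ 5 := by
      rw [div_add_div _ _ (by positivity) (by positivity),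
        div_le_div_iff₀ (by positivity) (by positivity)]
      nlinarith [mul_le_mul_of_nonneg_right (show n + 8 ≤ (n : ℝ) ^ 2 by nlinarith)
        (show (0 : ℝ) ≤ (n : ℝ) ^ 11 by positivity)]
    linarith
  obtain ⟨N, hN⟩ := eventually_atTop.1 hall
  exact ⟨N, fun n hn => hN n hn⟩

end Vale.Agent.P046.Phase
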