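import Vale.Agent.P046.Phase.Assembly
import Vale.Agent.P046.Phase.One
import Vale.Agent.P046.Phase.Structure
import Vale.Agent.P046.Phase.TwoMain
import Vale.Agent.P046.Flags.DriftYZ
import Vale.Agent.P046.Flags.DriftWU
import Vale.Agent.P046.Flags.SecondOrder
import Vale.Agent.P046.Flags.NoiseZW
import Vale.Agent.P046.Flags.NoiseU
import Vale.Agent.P046.Flags.TrackDeg
import Vale.Agent.P046.Flags.Track
import Vale.Agent.P046.Flags.ContractGraph

/-!
# The leading constant, given the presence bound
-/

namespace Vale.Agent.P046.Phase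

open Filter Topology Flags

/-- All modules composed. -/
theorem limits_of_present (hP : Phase.Spec.Present) :
    Tendsto (fun n : ℕ => expFinal (fun G => (G.card : ℝ))
        (Flags.complete n) / (n:ℝ) ^ ((3:ℝ) / 2))
      atTop (𝓝 (1 / (2 * Real.sqrt 2))) ∧
    ∀ ε : ℝ, 0 < ε → Tendsto (fun n : ℕ => expFinal (fun G =>
        if ε ≤ |(G.card : ℝ) / (n:ℝ) ^ ((3:ℝ) / 2) - 1 / (2 * Real.sqrt 2)| then 1 else 0)
          (Flags.complete n)) atTop (𝓝 0) :=
  have hW := driftW DriftYZ.driftZLin noiseZ
  have hS := structure_spec hP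
  have h1 := One.phaseOne DriftYZ.driftY DriftYZ.noiseY DriftYZ.driftZ noiseZ hW noiseW
    SecondOrder.driftV SecondOrder.noiseV (driftU hW noiseW) (noiseU noiseW) trackDeg trackWalk
    trackPair contract hS
  limits_of_phases h1 (phaseTwo DriftYZ.driftY DriftYZ.driftZ hW SecondOrder.driftV DriftYZ.noiseY
    noiseZ noiseW SecondOrder.noiseV hS h1) hP

end Vale.Agent.P046.Phase
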