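import Vale.Agent.P046.Phase.EndSpec

/-!
# The scale at the end of the second phase
-/

namespace Vale.Agent.P046.Phase

open Flags

/-- The scale quantities at the end of the second phase. -/
structure EndScale (n : ℕ) (x τ : ℝ) : Prop where
  n7 : 7 ≤ n
  hx : (10 : ℝ) ^ 8 ≤ x
  hL : Real.log n = x ^ 5
  hτ : 0 < τ
  hτ1 : τ ≤ 1 / 10 ^ 14
  small : x ^ 100 * Real.exp (-(x / 10)) ≤ τ

namespace EndScale

variable {n : ℕ} {x τ : ℝ} (h : EndScale n x τ)
include h

lemma x1 : 1 ≤ x := le_trans (by norm_num) h.hx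

lemma n0 : (0 : ℝ) < n := by have := h.n7; exact_mod_cast (by omega : 0 < n)

lemma n_eq : (n : ℝ) = Real.exp (x ^ 5) := by rw [← h.hL, Real.exp_log h.n0]

lemma root : Real.rpow (Real.log n) (1 / 5) = x := by
  rw [Real.rpow_eq_pow, h.hL, ← Real.rpow_natCast, ← Real.rpow_mul (le_trans zero_le_one h.x1)]
  norm_num

lemma D0_eq : D0 n = Real.exp x := by rw [D0, h.root]

/-- Small terms: a power of `x` against a negative exponential. -/
lemma bound {j : ℕ} (hj : j ≤ 100) {c : ℝ} (hc : c ≤ -(x / 10)) : x ^ j * Real.exp c ≤ τ :=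
  le_trans (mul_le_mul (pow_le_pow_right₀ h.x1 hj) (Real.exp_le_exp.2 hc) (Real.exp_pos _).le
    (pow_nonneg (le_trans zero_le_one h.x1) _)) h.small

lemma x_le : 1000 * x ≤ x ^ 5 := by
  have h1 : x * x ^ 4 = x ^ 5 := by ring
  have h2 : (1000 : ℝ) ≤ x ^ 4 :=
    le_trans (le_trans (by norm_num) h.hx) (le_self_pow₀ h.x1 (by norm_num))
  nlinarith [h.x1]

lemma rpow_le {a c : ℝ} (hc : a * x ^ 5 ≤ c) : Real.rpow n a ≤ Real.exp c := by
  rw [Real.rpow_eq_pow, Real.rpow_def_of_pos h.n0, h.hL]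
  exact Real.exp_le_exp.2 (by linarith)

lemma density : 0 < pp n (iTwo n) ∧ pp n (iTwo n) ≤ Real.sqrt (D0 n / n) ∧
    Real.exp x / 2 ≤ mu n (iTwo n) ∧ mu n (iTwo n) ≤ Real.exp x ∧
    (3 * iTwo n + 6 : ℕ) ≤ n.choose 2 ∧ iOne n ≤ iTwo n ∧ (iTwo n : ℝ) ≤ (n : ℝ) ^ 2 := by
  set C : ℝ := (n.choose 2 : ℝ) with hC
  set r : ℝ := Real.sqrt (D0 n / n) with hr
  have hn := h.n0
  have hC2 : C = n * ((n : ℝ) - 1) / 2 := by rw [hC, Nat.cast_choose_two]
  have hn7 : (7 : ℝ) ≤ n := by exact_mod_cast h.n7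
  have hC0 : 0 < C := by rw [hC2]; nlinarith
  have hr1 : 1 / (n : ℝ) ≤ r := by
    rw [hr]
    refine Real.le_sqrt_of_sq_le ?_
    rw [div_pow, one_pow, div_le_div_iff₀ (by positivity) hn, one_mul]
    have h1 : (1 : ℝ) ≤ D0 n := by rw [h.D0_eq]; exact Real.one_le_exp (by linarith [h.x1])
    have h2 := mul_le_mul_of_nonneg_right h1 (sq_nonneg (n : ℝ))
    nlinarith
  have hnbig : (1000 : ℝ) ≤ n := by
    rw [h.n_eq]
    linarith [Real.add_one_le_exp (x ^ 5), h.x_le, h.x1]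
  have hCr : 100 ≤ C * r := by
    refine le_trans ?_ (mul_le_mul_of_nonneg_left hr1 hC0.le)
    have h4 : C * (1 / (n : ℝ)) = ((n : ℝ) - 1) / 2 := by rw [hC2]; field_simp
    linarith
  have hrle : r ≤ (n : ℝ) ^ (-(9 / 25) : ℝ) := by
    refine (Real.sqrt_le_iff).2 ⟨Real.rpow_nonneg hn.le _, ?_⟩
    rw [← Real.rpow_natCast, ← Real.rpow_mul hn.le, h.D0_eq, Real.rpow_def_of_pos hn, h.hL,
      div_le_iff₀ hn, h.n_eq, ← Real.exp_add, Real.exp_le_exp]
    push_cast
    linarith [h.x_le, h.x1]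
  have hr2 : r ≤ 1 := hrle.trans (Real.rpow_le_one_of_one_le_of_nonpos (by linarith) (by norm_num))
  have hr0 : 0 < r := lt_of_lt_of_le (by positivity) hr1
  have ha : 0 ≤ C * (1 - r) / 3 := div_nonneg (mul_nonneg hC0.le (by linarith)) (by norm_num)
  have hlo : C * (1 - r) / 3 ≤ (iTwo n : ℝ) := by simp only [iTwo, ← hC, ← hr]; exact Nat.le_ceil _
  have hhi : (iTwo n : ℝ) < C * (1 - r) / 3 + 1 := by
    simp only [iTwo, ← hC, ← hr]; exact Nat.ceil_lt_add_one ha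
  have hpp : pp n (iTwo n) = (C - 3 * (iTwo n : ℝ)) / C := by simp only [pp, mm, ← hC]
  have hp1 : pp n (iTwo n) ≤ r := by rw [hpp, div_le_iff₀ hC0]; linarith
  have hp2 : r * (9 / 10) ≤ pp n (iTwo n) := by
    rw [hpp, le_div_iff₀ hC0]
    have : 30 ≤ C * r := by linarith
    linarith
  have hp0 : 0 < pp n (iTwo n) := lt_of_lt_of_le (by positivity) hp2
  have hsq : (n : ℝ) * r ^ 2 = Real.exp x := by
    rw [hr, Real.sq_sqrt (div_nonneg (by rw [h.D0_eq]; exact (Real.exp_pos _).le) hn.le), h.D0_eq]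
    field_simp
  refine ⟨hp0, hp1, ?_, ?_, ?_, ?_, ?_⟩
  · have := mul_le_mul_of_nonneg_left (pow_le_pow_left₀ (by positivity) hp2 2) hn.le
    rw [mu]
    nlinarith [Real.exp_pos x]
  · rw [mu, ← hsq]
    exact mul_le_mul_of_nonneg_left (pow_le_pow_left₀ hp0.le hp1 2) hn.le
  · have h9 : ((3 * iTwo n + 6 : ℕ) : ℝ) ≤ C := by push_cast; linarith
    rw [hC] at h9
    exact_mod_cast h9
  · simp only [iOne, iTwo, ← hC, ← hr, Real.rpow_eq_pow]
    refine Nat.ceil_mono ?_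
    gcongr
  · nlinarith [mul_pos hC0 hr0]

/-- The envelopes at the end. -/
lemma env : (envII n).y (iTwo n) ≤ 3 * x ^ 10 * Real.exp (-(x / 2)) ∧
    (envII n).z (iTwo n) ≤ 3 * x ^ 20 * Real.exp (-x) ∧
    (envII n).w (iTwo n) ≤ 6 * x ^ 50 * Real.exp (-(3 * x / 2)) ∧
    (envII n).v (iTwo n) ≤ 6 * x ^ 40 * Real.exp (-(3 * x / 2)) ∧
    0 ≤ (envII n).y (iTwo n) ∧ 0 ≤ (envII n).z (iTwo n) ∧ 0 ≤ (envII n).w (iTwo n) ∧
    0 ≤ (envII n).v (iTwo n) := by
  obtain ⟨hp0, -, hlo, hhi, -⟩ := h.density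
  set m := mu n (iTwo n) with hm
  have hx1 := h.x1
  have hm0 : 0 < m := lt_of_lt_of_le (by positivity) hlo
  have hm1 : 1 ≤ m := by
    have := Real.add_one_le_exp x
    linarith
  set s := Real.sqrt m with hs
  have hs0 : 0 < s := Real.sqrt_pos.2 hm0
  have hslo : 7 / 10 * Real.exp (x / 2) ≤ s := by
    refine Real.le_sqrt_of_sq_le ?_
    rw [mul_pow, ← Real.exp_nat_mul]
    have : ((2 : ℕ) : ℝ) * (x / 2) = x := by push_cast; ring
    rw [this]
    nlinarith [Real.exp_pos x]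
  have h1 : s⁻¹ ≤ 2 * Real.exp (-(x / 2)) := by
    rw [Real.exp_neg, inv_le_iff_one_le_mul₀ hs0]
    have he := Real.exp_pos (x / 2)
    rw [mul_comm 2 _, mul_assoc, ← div_eq_inv_mul, le_div_iff₀ he]
    linarith
  have h2 : m⁻¹ ≤ 2 * Real.exp (-x) := by
    rw [Real.exp_neg, inv_le_iff_one_le_mul₀ hm0]
    have he := Real.exp_pos x
    rw [mul_comm 2 _, mul_assoc, ← div_eq_inv_mul, le_div_iff₀ he]
    linarith
  have h32 : Real.rpow m (3 / 2) = s ^ 3 := by
    rw [Real.rpow_eq_pow, hs, Real.sqrt_eq_rpow, ← Real.rpow_natCast, ← Real.rpow_mul hm0.le]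
    norm_num
  have h3 : (Real.rpow m (3 / 2))⁻¹ ≤ 4 * Real.exp (-(3 * x / 2)) := by
    rw [h32, Real.exp_neg, inv_le_iff_one_le_mul₀ (pow_pos hs0 3)]
    have he := Real.exp_pos (3 * x / 2)
    rw [mul_comm 4 _, mul_assoc, ← div_eq_inv_mul, le_div_iff₀ he]
    have := pow_le_pow_left₀ (by positivity) hslo 3
    rw [mul_pow, ← Real.exp_nat_mul] at this
    have e : ((3 : ℕ) : ℝ) * (x / 2) = 3 * x / 2 := by push_cast; ring
    rw [e] at this
    nlinarith
  have hx5 := h.x_le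
  have a1 : Real.rpow n (-(1 / 8)) ≤ Real.exp (-(x / 2)) := h.rpow_le (by linarith)
  have a2 : Real.rpow n (-(4 / 25)) ≤ Real.exp (-x) := h.rpow_le (by linarith)
  have a3 : Real.rpow n (-(1 / 500)) ≤ Real.exp (-(x / 2)) := h.rpow_le (by linarith)
  have a4 : Real.rpow n (-(1 / 300)) ≤ Real.exp (-(x / 2)) := h.rpow_le (by linarith)
  have tail : ∀ a : ℝ, Real.rpow n a ≤ Real.exp (-(x / 2)) →
      Real.rpow n a / Real.rpow m (1001 / 1000) ≤ 2 * Real.exp (-(3 * x / 2)) := by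
    intro a ha
    have hge : m ≤ Real.rpow m (1001 / 1000) := Real.self_le_rpow_of_one_le hm1 (by norm_num)
    calc Real.rpow n a / Real.rpow m (1001 / 1000) ≤ Real.exp (-(x / 2)) * m⁻¹ := by
          rw [div_eq_mul_inv]
          exact mul_le_mul ha (inv_anti₀ hm0 hge)
            (inv_nonneg.2 (hm0.le.trans hge)) (Real.exp_pos _).le
      _ ≤ Real.exp (-(x / 2)) * (2 * Real.exp (-x)) :=
          mul_le_mul_of_nonneg_left h2 (Real.exp_pos _).le
      _ = 2 * Real.exp (-(3 * x / 2)) := by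
          rw [mul_left_comm, ← Real.exp_add]; ring_nf
  have hx0 : 0 ≤ x := by linarith
  have p10 : 1 ≤ x ^ 10 := one_le_pow₀ hx1
  have p20 : 1 ≤ x ^ 20 := one_le_pow₀ hx1
  have p50 : 1 ≤ x ^ 50 := one_le_pow₀ hx1
  have p40 : 1 ≤ x ^ 40 := one_le_pow₀ hx1
  have rp : ∀ a, 0 ≤ Real.rpow n a := fun a => Real.rpow_nonneg h.n0.le a
  have rm : ∀ a, 0 ≤ Real.rpow m a := fun a => Real.rpow_nonneg hm0.le a
  have hLn : Real.log n = x ^ 5 := h.hL
  refine ⟨?_, ?_, ?_, ?_, ?_, ?_, ?_, ?_⟩ <;>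
    simp only [envII, ← hm, ← hs, hLn, ← pow_mul]
  · rw [div_eq_mul_inv]
    have := mul_le_mul_of_nonneg_left h1 (zero_le_one.trans p10)
    have := mul_le_mul_of_nonneg_right p10 (Real.exp_pos (-(x / 2))).le
    linarith
  · rw [div_eq_mul_inv]
    have := mul_le_mul_of_nonneg_left h2 (zero_le_one.trans p20)
    have := mul_le_mul_of_nonneg_right p20 (Real.exp_pos (-x)).le
    linarith
  · rw [div_eq_mul_inv (x ^ (5 * 10))]
    have := mul_le_mul_of_nonneg_left h3 (zero_le_one.trans p50)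
    have := tail _ a3
    have := mul_le_mul_of_nonneg_right p50 (Real.exp_pos (-(3 * x / 2))).le
    linarith
  · rw [div_eq_mul_inv (x ^ (5 * 8))]
    have := mul_le_mul_of_nonneg_left h3 (zero_le_one.trans p40)
    have := tail _ a4
    have := mul_le_mul_of_nonneg_right p40 (Real.exp_pos (-(3 * x / 2))).le
    linarith
  all_goals
    first
      | exact add_nonneg (by positivity) (rp _)
      | exact add_nonneg (div_nonneg (pow_nonneg hx0 _) (rm _)) (div_nonneg (rp _) (rm _))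

lemma small_env : Small n (envII n) (iTwo n) := by
  obtain ⟨hp0, -, hlo, -, hroom, -⟩ := h.density
  obtain ⟨hy, hz, hw, hv, y0, z0, w0, v0⟩ := h.env
  have hx := h.hx
  have b : ∀ (j : ℕ) (c : ℝ), j ≤ 100 → c ≤ -(x / 10) → x ^ j * Real.exp c ≤ 1 / 10 ^ 14 :=
    fun j c hj hc => (h.bound hj hc).trans h.hτ1
  have b1 := b 10 _ (by norm_num) (show -(x / 2) ≤ -(x / 10) by linarith [h.x1])
  have b2 := b 20 _ (by norm_num) (show -x ≤ -(x / 10) by linarith [h.x1])
  have b3 := b 50 _ (by norm_num) (show -(3 * x / 2) ≤ -(x / 10) by linarith [h.x1])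
  have b4 := b 40 _ (by norm_num) (show -(3 * x / 2) ≤ -(x / 10) by linarith [h.x1])
  have hn : 100 ≤ n := by
    have h1 : (100 : ℝ) ≤ n := by
      rw [h.n_eq]; linarith [Real.add_one_le_exp (x ^ 5), h.x_le, h.x1]
    exact_mod_cast h1
  have htk : ∀ a b : ℝ, 0 ≤ a → 1 ≤ b →
      1 ≤ (if Real.rpow n (-(41 / 100)) ≤ pp n (iTwo n) then
        Real.rpow n (1 / 1000) * (1 + a) else b) := by
    intro a b ha hb
    split_ifs
    · exact one_le_mul_of_one_le_of_one_le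
        (Real.one_le_rpow (by exact_mod_cast (by omega : 1 ≤ n)) (by norm_num)) (by linarith)
    · exact hb
  have hn0 := h.n0.le
  refine ⟨hn, ?_, hroom, y0, by linarith, z0, by linarith, w0, by linarith, v0, by linarith,
    ?_, ?_⟩
  · have := Real.add_one_le_exp x
    linarith
  · exact htk _ _ (by positivity) (by norm_num)
  · simp only [envII, kapE, add_assoc]
    exact htk _ _ (by positivity) (by norm_num)

lemma balls_term {ρ : ℝ} (hρ : τ ≤ ρ) :
    Real.rpow n (-(1 / 20)) * (n : ℝ) ^ 2 * pp n (iTwo n) * mm n (iTwo n) ≤ ρ * (n : ℝ) ^ 3 := by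
  obtain ⟨hp0, -, hlo, hhi, -⟩ := h.density
  have hn := h.n0
  set p := pp n (iTwo n) with hp
  have hmm : mm n (iTwo n) ≤ (n : ℝ) ^ 2 * p := by
    have hC : (n.choose 2 : ℝ) ≤ (n : ℝ) ^ 2 := by exact_mod_cast Nat.choose_le_pow n 2
    have hC0 : (0 : ℝ) < n.choose 2 := by
      have := h.n7; exact_mod_cast Nat.choose_pos (by omega)
    have : mm n (iTwo n) = (n.choose 2 : ℝ) * p := by rw [hp, pp]; field_simp
    rw [this]
    exact mul_le_mul_of_nonneg_right hC hp0.le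
  have hrp : 0 ≤ Real.rpow n (-(1 / 20)) := Real.rpow_nonneg hn.le _
  calc Real.rpow n (-(1 / 20)) * (n : ℝ) ^ 2 * p * mm n (iTwo n)
      ≤ Real.rpow n (-(1 / 20)) * (n : ℝ) ^ 2 * p * ((n : ℝ) ^ 2 * p) := by gcongr
    _ = Real.rpow n (-(1 / 20)) * mu n (iTwo n) * (n : ℝ) ^ 3 := by rw [mu, ← hp]; ring
    _ ≤ Real.rpow n (-(1 / 20)) * Real.exp x * (n : ℝ) ^ 3 := by gcongr
    _ ≤ ρ * (n : ℝ) ^ 3 := by
        refine mul_le_mul_of_nonneg_right (le_trans ?_ hρ) (by positivity)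
        refine le_trans (mul_le_mul_of_nonneg_right
          (h.rpow_le (c := -(x ^ 5 / 20)) (le_of_eq (by ring))) (Real.exp_pos _).le) ?_
        rw [← Real.exp_add]
        simpa using h.bound (j := 0) (by norm_num)
          (show -(x ^ 5 / 20) + x ≤ -(x / 10) by linarith [h.x_le, h.x1])

lemma constant_term {g D ρ : ℝ} (hD : D = mu n (iTwo n) * (1 + g) - 1)
    (hgy : |g| ≤ 3 * x ^ 10 * Real.exp (-(x / 2))) (hτρ : 100 * τ ≤ ρ) :
    |mm n (iTwo n) / Real.sqrt (1 + 2 * D) - Real.rpow n (3 / 2) / (2 * Real.sqrt 2)|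
      ≤ ρ * Real.rpow n (3 / 2) := by
  obtain ⟨hp0, -, hlo, -⟩ := h.density
  have hn0 := h.n0
  have hn7 := h.n7
  have hτ0 := h.hτ
  have hτ1 := h.hτ1
  have hρ : 0 < ρ := by linarith
  have hx1 := h.x1
  have hxbig := h.hx
  have hexp := Real.add_one_le_exp x
  have b10 : x ^ 10 * Real.exp (-(x / 2)) ≤ τ := h.bound (by norm_num) (by linarith)
  set m := mu n (iTwo n) with hm
  set p := pp n (iTwo n) with hpdef
  have hC2 : (n.choose 2 : ℝ) = n * ((n : ℝ) - 1) / 2 := Nat.cast_choose_two ..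
  have hn7' : (7 : ℝ) ≤ n := by exact_mod_cast hn7
  have hC0 : (0 : ℝ) < n.choose 2 := by rw [hC2]; nlinarith
  have hmm : mm n (iTwo n) = (n.choose 2 : ℝ) * p := by rw [hpdef, pp]; field_simp
  have hm0 : 0 < m := lt_of_lt_of_le (by positivity) hlo
  set d : ℝ := g - 1 / (2 * m) with hd
  have hm_inv : 1 / (2 * m) ≤ τ := by
    have h1 : 1 / (2 * m) ≤ Real.exp (-x) := by
      rw [Real.exp_neg, ← one_div]
      exact one_div_le_one_div_of_le (Real.exp_pos _) (by linarith)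
    have := h.bound (j := 0) (by norm_num) (show -x ≤ -(x / 10) by linarith)
    simp at this
    linarith
  have hinv0 : 0 ≤ 1 / (2 * m) := by positivity
  have hd1 : |d| ≤ 4 * τ := by
    obtain ⟨u1, u2⟩ := abs_le.1 (hgy.trans (show 3 * x ^ 10 * Real.exp (-(x / 2)) ≤ 3 * τ by linarith))
    rw [abs_le, hd]
    constructor <;> linarith
  have hd2 : |d| ≤ 1 / 2 := by linarith
  set s := Real.sqrt (1 + d) with hs
  have hs7 : 7 / 10 ≤ s := Real.le_sqrt_of_sq_le (by linarith [neg_abs_le d])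
  have hs2 : s ^ 2 = 1 + d := Real.sq_sqrt (by linarith [neg_abs_le d])
  have hid : mm n (iTwo n) / Real.sqrt (1 + 2 * D) =
      Real.rpow n (3 / 2) / (2 * Real.sqrt 2) * ((1 - 1 / (n : ℝ)) / s) := by
    have he : 1 + 2 * D = 2 * n * p ^ 2 * (1 + d) := by
      rw [hD, hd, hm, mu, ← hpdef]
      field_simp
      ring
    have hr32 : Real.rpow n (3 / 2) = n * Real.sqrt n := by
      rw [Real.rpow_eq_pow, Real.sqrt_eq_rpow, show (3 / 2 : ℝ) = 1 + 1 / 2 by norm_num,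
        Real.rpow_add hn0, Real.rpow_one]
    have hnn := Real.mul_self_sqrt hn0.le
    rw [he, Real.sqrt_mul (by positivity), Real.sqrt_mul (by positivity),
      Real.sqrt_mul (by norm_num), Real.sqrt_sq hp0.le, ← hs, hmm, hC2, hr32]
    have hs0 : s ≠ 0 := by linarith
    have h2 : Real.sqrt 2 ≠ 0 := by positivity
    have h3 : Real.sqrt n ≠ 0 := by positivity
    have hp' : p ≠ 0 := hp0.ne'
    field_simp
    rw [Real.sq_sqrt hn0.le]
    ring
  have hfac : |(1 - 1 / (n : ℝ)) / s - 1| ≤ ρ := by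
    have hninv : 1 / (n : ℝ) ≤ τ := by
      have h1 : 1 / (n : ℝ) ≤ Real.exp (-(x / 10)) := by
        rw [h.n_eq, Real.exp_neg, ← one_div]
        exact one_div_le_one_div_of_le (Real.exp_pos _)
          (Real.exp_le_exp.2 (by linarith [h.x_le]))
      have := h.bound (j := 0) (by norm_num) (le_refl (-(x / 10)))
      simp at this
      linarith
    have hspos : 0 < s := by linarith
    have hn1 : 0 ≤ 1 / (n : ℝ) := by positivity
    have hsd : |1 - s| ≤ |d| := by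
      have : (1 - s) * (1 + s) = -d := by linear_combination (-1 : ℝ) * hs2
      have h1 := congrArg abs this
      rw [abs_mul, abs_neg, abs_of_pos (show (0 : ℝ) < 1 + s by linarith)] at h1
      nlinarith [abs_nonneg (1 - s)]
    rw [div_sub_one hspos.ne', abs_div, abs_of_pos hspos, div_le_iff₀ hspos]
    have := mul_le_mul_of_nonneg_left hs7 hρ.le
    obtain ⟨u1, u2⟩ := abs_le.1 hsd
    rw [abs_le]
    constructor <;> linarith
  rw [hid]
  have hrn : 0 ≤ Real.rpow n (3 / 2) := Real.rpow_nonneg hn0.le _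
  have hK : Real.rpow n (3 / 2) / (2 * Real.sqrt 2) ≤ Real.rpow n (3 / 2) :=
    div_le_self hrn (by linarith [Real.one_le_sqrt.2 (show (1 : ℝ) ≤ 2 by norm_num)])
  rw [← mul_sub_one, abs_mul, abs_of_nonneg (div_nonneg hrn (by positivity))]
  exact (mul_le_mul hK hfac (abs_nonneg _) hrn).trans_eq (mul_comm _ _)

end EndScale

end Vale.Agent.P046.Phase
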