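import Vale.Agent.P046.Phase.Spec
import Vale.Agent.P046.Tree.Concentrate

/-!
# The numerical facts at the end of the second phase
-/

namespace Vale.Agent.P046.Phase.Spec

open Flags

/-- All numerical conditions needed to glue the second phase to the last one. -/
def EndNumerics : Prop := ∀ ρ : ℝ, 0 < ρ → ∃ N : ℕ, ∀ n, N ≤ n →
  Small n (envII n) (iTwo n) ∧ iOne n ≤ iTwo n ∧ (iTwo n : ℝ) ≤ (n:ℝ) ^ 2 ∧
    Real.rpow n (-(1 / 20)) * (n:ℝ) ^ 2 * pp n (iTwo n) * mm n (iTwo n) ≤ ρ * (n:ℝ) ^ 3 ∧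
    ∀ g : ℝ, |g| ≤ (envII n).y (iTwo n) → ∀ D : ℝ, D = mu n (iTwo n) * (1 + g) - 1 →
      ∃ (eps lam : ℝ) (q k : ℕ), 0 < eps ∧ 1 ≤ lam ∧ Real.log (1 + 2 * D) ≤ lam ∧
        1 / D ≤ eps ^ 2 ∧ 4 * eps * lam ^ 2 ≤ 1 / 1000 ∧
        4 * (envII n).y (iTwo n) ≤ eps ∧
        3 * ((envII n).z (iTwo n) + 3 * (envII n).y (iTwo n) ^ 2) ≤ eps ^ 2 ∧
        70 * (envII n).y (iTwo n) ^ 2 ≤ eps ^ 2 ∧
        6 * (envII n).w (iTwo n) ≤ eps ^ 3 ∧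
        6 * (envII n).v (iTwo n) + 24 * (envII n).y (iTwo n) * (envII n).z (iTwo n) ≤ eps ^ 3 ∧
        (0.93:ℝ) ^ q / 50 ≤ 20 * (4 * eps) ^ 3 * lam ^ 4 ∧
        320 * (4 * eps) ^ 3 * lam ^ 4 * Real.exp (6 / 5 * lam) ≤ 1 / 1000 ∧
        ⌈100 * lam⌉₊ * (q + 1) ≤ k ∧ Even k ∧ k + 1 ≤ radius n ∧
        Tree.delta eps lam ≤ ρ ∧
        mm n (iTwo n) * (9 * D) ^ (2 * k + 3) ≤ ρ * (n:ℝ) ^ 3 ∧
        |mm n (iTwo n) / Real.sqrt (1 + 2 * D) - Real.rpow n (3 / 2) / (2 * Real.sqrt 2)|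
          ≤ ρ * Real.rpow n (3 / 2)

end Vale.Agent.P046.Phase.Spec
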