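import Vale.Agent.P046.Chain
import Vale.Agent.P046.Tree.Concentrate

/-!
# The law of the final graph, seen from the chain and from greedy matching
-/

set_option linter.unusedSectionVars false

namespace Vale.Agent.P046

open Finset Chain

variable {n : ℕ}

/-- Expectation of `f` at the final graph of random triangle removal started from `E`: a uniform
triangle is removed as long as there is one. -/
noncomputable def expFinal (f : Finset (Finset (Fin n)) → ℝ) (E : Finset (Finset (Fin n))) : ℝ :=
  if triangles E = ∅ then f E
  else (∑ t ∈ (triangles E).attach, expFinal f (E \ sides t.1)) / (triangles E).card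
termination_by E.card
decreasing_by
  have h := card_sdiff_sides t.2
  have h3 := three_le_card t.2
  omega

namespace Phase

lemma expFinal_of_empty (f : St n → ℝ) {E : St n} (h : triangles E = ∅) : expFinal f E = f E := by
  rw [expFinal, if_pos h]

lemma expFinal_step (f : St n → ℝ) (E : St n) : avg (expFinal f) E = expFinal f E := by
  unfold avg
  split_ifs with h
  · rfl
  · conv_rhs => rw [expFinal, if_neg h]
    rw [sum_attach (triangles E) (fun t => expFinal f (E \ sides t))]

lemma expect_expFinal (f : St n → ℝ) : ∀ (k j : ℕ) (E : St n),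
    expect k (fun _ F => expFinal f F) j E = expFinal f E
  | 0, j, E => rfl
  | k + 1, j, E => by
    rw [expect_succ, avg_congr (g := expFinal f) fun F _ => expect_expFinal f k (j + 1) F,
      expFinal_step]

lemma expFinal_mono {f g : St n → ℝ} (E : St n) (h : ∀ F, F ⊆ E → f F ≤ g F) :
    expFinal f E ≤ expFinal g E := by
  induction E using Finset.strongInduction with
  | H E ih =>
    by_cases h0 : triangles E = ∅
    · rw [expFinal_of_empty f h0, expFinal_of_empty g h0]
      exact h E subset_rfl
    · rw [← expFinal_step f E, ← expFinal_step g E]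
      simp only [avg, if_neg h0]
      refine div_le_div_of_nonneg_right (sum_le_sum fun t ht => ih _ ?_ fun F hF =>
        h F (hF.trans sdiff_subset)) (Nat.cast_nonneg _)
      refine sdiff_ssubset (mem_filter.1 ht).2 (card_pos.1 ?_)
      rw [card_sides ht]
      norm_num

lemma expFinal_const (c : ℝ) (E : St n) : expFinal (fun _ => c) E = c := by
  induction E using Finset.strongInduction with
  | H E ih =>
    by_cases h0 : triangles E = ∅
    · exact expFinal_of_empty _ h0
    · rw [← expFinal_step _ E]
      simp only [avg, if_neg h0]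
      have e : ∀ t ∈ triangles E, expFinal (fun _ => c) (E \ sides t) = c := fun t ht =>
        ih _ (sdiff_ssubset (mem_filter.1 ht).2 (card_pos.1 (by rw [card_sides ht]; norm_num)))
      rw [sum_congr rfl e, sum_const, nsmul_eq_mul, mul_div_cancel_left₀]
      exact_mod_cast (card_pos.2 (nonempty_iff_ne_empty.2 h0)).ne'

lemma expFinal_add (f g : St n → ℝ) (E : St n) :
    expFinal (fun F => f F + g F) E = expFinal f E + expFinal g E := by
  induction E using Finset.strongInduction with
  | H E ih =>
    by_cases h0 : triangles E = ∅
    · simp [expFinal_of_empty _ h0]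
    · rw [← expFinal_step (fun F => f F + g F) E, ← expFinal_step f E, ← expFinal_step g E,
        ← avg_add]
      simp only [avg, if_neg h0]
      refine congrArg (· / _) (sum_congr rfl fun t ht => ih _ (sdiff_ssubset (mem_filter.1 ht).2
        (card_pos.1 (by rw [card_sides ht]; norm_num))))

lemma expFinal_mul (c : ℝ) (f : St n → ℝ) (E : St n) :
    expFinal (fun F => c * f F) E = c * expFinal f E := by
  induction E using Finset.strongInduction with
  | H E ih =>
    by_cases h0 : triangles E = ∅
    · simp [expFinal_of_empty _ h0]
    · rw [← expFinal_step (fun F => c * f F) E, ← expFinal_step f E, ← avg_mul]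
      simp only [avg, if_neg h0]
      refine congrArg (· / _) (sum_congr rfl fun t ht => ih _ (sdiff_ssubset (mem_filter.1 ht).2
        (card_pos.1 (by rw [card_sides ht]; norm_num))))

/-- The sides of a triangle as a set of elements of the edge set `E`. -/
def sideIn (E : St n) (t : Finset (Fin n)) : Finset {e // e ∈ E} :=
  (Finset.univ : Finset {e // e ∈ E}).filter fun f => f.1 ∈ sides t

lemma mem_sideIn {E : St n} {t : Finset (Fin n)} {f : {e // e ∈ E}} :
    f ∈ sideIn E t ↔ f.1 ∈ sides t := by simp [sideIn]

lemma card_sideIn {E : St n} {t : Finset (Fin n)} (ht : t ∈ triangles E) :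
    (sideIn E t).card = 3 := by
  rw [← card_sides ht, ← card_map (Function.Embedding.subtype _)]
  congr 1
  ext e
  simp only [mem_map, mem_sideIn, Function.Embedding.subtype_apply]
  exact ⟨fun ⟨f, hf, he⟩ => he ▸ hf, fun he => ⟨⟨e, (mem_filter.1 ht).2 he⟩, he, rfl⟩⟩

lemma rest_sideIn (E : St n) {H : St n} (hH : H ⊆ triangles E) {t : Finset (Fin n)} (ht : t ∈ H) :
    Tree.rest (sideIn E) H t = Tree.rest sides H t := by
  refine filter_congr fun u hu => ?_
  have hu' := (mem_filter.1 (hH (mem_erase.1 hu).2)).2
  have ht' := (mem_filter.1 (hH ht)).2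
  simp only [disjoint_left, mem_sideIn]
  exact ⟨fun h e he => @h ⟨e, hu' he⟩ he, fun h f hf => h hf⟩

lemma expMatch_sideIn (E : St n) : ∀ (H : St n) (g : St n → ℝ), H ⊆ triangles E →
    Tree.expMatch (sideIn E) g H = Tree.expMatch sides g H := by
  intro H
  induction H using Finset.strongInduction with
  | H H ih =>
    intro g hH
    rw [Tree.expMatch, Tree.expMatch]
    split_ifs
    · rfl
    · refine congrArg (· / _) (sum_congr rfl fun t _ => ?_)
      rw [rest_sideIn E hH t.2]
      exact ih _ ((ssubset_iff_of_subset (Tree.rest_subset _ H _)).2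
        ⟨t.1, t.2, fun h => by simp [Tree.rest] at h⟩) _ ((Tree.rest_subset _ H _).trans hH)

lemma expMatch_congr : ∀ (H : St n) {g g' : St n → ℝ}, (∀ M, M ⊆ H → g M = g' M) →
    Tree.expMatch sides g H = Tree.expMatch sides g' H := by
  intro H
  induction H using Finset.strongInduction with
  | H H ih =>
    intro g g' h
    rw [Tree.expMatch, Tree.expMatch]
    split_ifs
    · exact h _ (empty_subset _)
    · refine congrArg (· / _) (sum_congr rfl fun t _ => ih _
        ((ssubset_iff_of_subset (Tree.rest_subset _ H _)).2
          ⟨t.1, t.2, fun h => by simp [Tree.rest] at h⟩) fun M hM => h _ ?_)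
      exact insert_subset t.2 (hM.trans (Tree.rest_subset _ H _))

lemma rest_triangles {E : St n} {t : Finset (Fin n)} (ht : t ∈ triangles E) :
    Tree.rest sides (triangles E) t = triangles (E \ sides t) := by
  rw [triangles_sdiff]
  ext u
  simp only [Tree.rest, mem_filter, mem_erase]
  refine ⟨fun h => ⟨h.1.2, h.2⟩, fun h => ⟨⟨fun he => ?_, h.1⟩, h.2⟩⟩
  have hd := h.2
  rw [he, disjoint_self] at hd
  have := card_sides ht
  simp only [Finset.bot_eq_empty] at hd
  simp [hd] at this

lemma expFinal_eq_expMatch (f : St n → ℝ) (E : St n) :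
    expFinal f E = Tree.expMatch sides (fun M => f (E \ M.biUnion sides)) (triangles E) := by
  induction E using Finset.strongInduction with
  | H E ih =>
    rw [Tree.expMatch, expFinal]
    split_ifs
    · simp
    · refine congrArg (· / _) (sum_congr rfl fun t _ => ?_)
      rw [ih _ (sdiff_ssubset (mem_filter.1 t.2).2
        (card_pos.1 (by rw [card_sides t.2]; norm_num))), rest_triangles t.2]
      refine expMatch_congr _ fun M _ => ?_
      rw [biUnion_insert, sdiff_sdiff_left]
      rfl

lemma card_uncovered (E M : St n) :
    ((Finset.univ : Finset {e // e ∈ E}).filter fun f => ∀ T ∈ M, f ∉ sideIn E T).card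
      = (E \ M.biUnion sides).card := by
  rw [← card_map (Function.Embedding.subtype _)]
  congr 1
  ext e
  simp only [mem_map, mem_filter, mem_univ, true_and, Function.Embedding.subtype_apply, mem_sdiff,
    mem_biUnion, mem_sideIn, not_exists, not_and]
  exact ⟨fun ⟨f, hf, he⟩ => he ▸ ⟨f.2, hf⟩, fun ⟨h1, h2⟩ => ⟨⟨e, h1⟩, h2, rfl⟩⟩

/-- The final number of edges in terms of greedy matching on the edges of `E`. -/
lemma expFinal_eq_greedy (g : ℝ → ℝ) (E : St n) :
    expFinal (fun F => g F.card) E = Tree.expMatch (sideIn E)
      (fun M => g (((Finset.univ : Finset {e // e ∈ E}).filter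
        fun f => ∀ T ∈ M, f ∉ sideIn E T).card : ℝ)) (triangles E) := by
  rw [expFinal_eq_expMatch, expMatch_sideIn E _ _ subset_rfl]
  refine expMatch_congr _ fun M _ => ?_
  simp only [card_uncovered]

end Phase

end Vale.Agent.P046
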