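import Vale.Agent.P046.Flags.Defs
import Vale.Agent.P046.Tree.Final
import Vale.Agent.P046.Phase.Leave

/-!
# A state inside the envelope is regular for the last phase
-/

set_option linter.unusedSectionVars false

namespace Vale.Agent.P046.Phase

open Finset Chain Flags

variable {n : ℕ}

lemma sum_triAt_swap (E : St n) (F : Finset (Fin n) → Finset (Fin n) → ℝ) :
    ∑ e ∈ E, ∑ t ∈ triAt E e, F e t = ∑ t ∈ triangles E, ∑ e ∈ sides t, F e t := by
  simp only [triAt, sum_filter]
  rw [sum_comm]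
  refine sum_congr rfl fun t ht => ?_
  rw [← sum_filter]
  congr 1
  ext e
  simp only [mem_filter]
  exact ⟨fun h => h.2, fun h => ⟨(mem_filter.1 ht).2 h, h⟩⟩

lemma sum_card_triAt (E : St n) :
    ∑ e ∈ E, ((triAt E e).card : ℝ) = 3 * ((triangles E).card : ℝ) := by
  have h := sum_triAt_swap E fun _ _ => (1:ℝ)
  simp only [sum_const, nsmul_eq_mul, mul_one] at h
  rw [h, sum_congr rfl fun t ht => by rw [card_sides ht], sum_const, nsmul_eq_mul]
  push_cast
  ring

lemma sum_others (E : St n) (e : Finset (Fin n)) (f : Finset (Fin n) → ℝ) :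
    ∑ t ∈ triAt E e, ∑ g ∈ (sides t).erase e, f g = 2 * (triAt E e).card * avgE E f e := by
  rcases (triAt E e).eq_empty_or_nonempty with h | h
  · simp [h]
  · have : ((triAt E e).card : ℝ) ≠ 0 := by exact_mod_cast h.card_pos.ne'
    simp only [avgE, FlagDrift.mean, ← sum_div]
    field_simp

lemma sum_avgG (E : St n) (f : Finset (Fin n) → ℝ) :
    ∑ e ∈ E, (triAt E e).card * f e = 3 * (triangles E).card * avgG E f := by
  have h := sum_triAt_swap E fun e _ => f e
  simp only [sum_const, nsmul_eq_mul] at h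
  rcases (triangles E).eq_empty_or_nonempty with h0 | h0
  · rw [h]; simp [h0]
  · have : ((triangles E).card : ℝ) ≠ 0 := by exact_mod_cast h0.card_pos.ne'
    rw [h]
    simp only [avgG, FlagDrift.mean, ← sum_div]
    field_simp

lemma avgG_avgE (E : St n) (f : Finset (Fin n) → ℝ) : avgG E (avgE E f) = avgG E f := by
  rcases (triangles E).eq_empty_or_nonempty with h0 | h0
  · simp [avgG, FlagDrift.mean, h0]
  · have hQ : (0:ℝ) < (triangles E).card := by exact_mod_cast h0.card_pos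
    refine mul_left_cancel₀ (show (3:ℝ) * (triangles E).card ≠ 0 by positivity) ?_
    rw [← sum_avgG, ← sum_avgG]
    have e1 : ∑ e ∈ E, ((triAt E e).card : ℝ) * avgE E f e
        = (∑ e ∈ E, ∑ t ∈ triAt E e, ∑ g ∈ (sides t).erase e, f g) / 2 := by
      rw [sum_div]
      refine sum_congr rfl fun e _ => ?_
      rw [sum_others]; ring
    rw [e1, sum_triAt_swap E fun e t => ∑ g ∈ (sides t).erase e, f g,
      show ∑ e ∈ E, ((triAt E e).card : ℝ) * f e = ∑ e ∈ E, ∑ t ∈ triAt E e, f e by simp,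
      sum_triAt_swap E fun e _ => f e, sum_div]
    refine sum_congr rfl fun t ht => ?_
    rw [sum_congr rfl fun e he => sum_erase_eq_sub he (f := f), sum_sub_distrib, sum_const,
      card_sides ht, nsmul_eq_mul]
    ring

variable {P : Env} {i : ℕ} {E : St n}

/-- Elementary consequences of the envelope. -/
lemma sizes (hG : Good P i E) (hS : Small n P i) :
    0 < E.card ∧ (E.card : ℝ) = mm n i ∧ |gg i E| ≤ P.y i ∧
      3 * ((triangles E).card : ℝ) = (E.card : ℝ) * mu n i * (1 + gg i E) ∧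
      |avgG E (yy i E) - gg i E| ≤ 3 * P.y i ^ 2 := by
  have hmu : 0 < mu n i := by linarith [hS.mu_big]
  have hEpos : 0 < E.card := by
    have := hG.size.2
    have := hS.room
    omega
  have hm : (E.card : ℝ) = mm n i := by
    have h2 : ((E.card + 3 * i : ℕ) : ℝ) = (n.choose 2 : ℝ) := by exact_mod_cast hG.size.2
    push_cast at h2
    unfold mm
    linarith
  have hc : (0:ℝ) < E.card := by exact_mod_cast hEpos
  have hQ : 3 * ((triangles E).card : ℝ) = (E.card : ℝ) * mu n i * (1 + gg i E) := by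
    simp only [gg]
    field_simp
    ring
  have hY : ∀ e, ((triAt E e).card : ℝ) = mu n i * (1 + yy i E e) := fun e => by
    simp only [yy]; field_simp; ring
  have hsumy : ∑ e ∈ E, yy i E e = E.card * gg i E := by
    have h := sum_card_triAt E
    simp only [hY, mul_add, mul_one, sum_add_distrib, sum_const, nsmul_eq_mul, ← mul_sum, hQ] at h
    have : mu n i * ∑ e ∈ E, yy i E e = mu n i * (E.card * gg i E) := by linarith
    exact mul_left_cancel₀ hmu.ne' this
  have hg : |gg i E| ≤ P.y i := by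
    have h1 : |∑ e ∈ E, yy i E e| ≤ E.card * P.y i :=
      (abs_sum_le_sum_abs _ _).trans ((sum_le_sum hG.y).trans_eq (by rw [sum_const, nsmul_eq_mul]))
    rw [hsumy, abs_mul, abs_of_pos hc] at h1
    exact le_of_mul_le_mul_left h1 hc
  refine ⟨hEpos, hm, hg, hQ, ?_⟩
  have e1 : (E.card : ℝ) * mu n i * (1 + gg i E) * (avgG E (yy i E) - gg i E)
      = mu n i * ∑ e ∈ E, yy i E e * (yy i E e - gg i E) := by
    rw [← hQ, mul_sub, ← sum_avgG, hQ]
    simp only [hY]
    have : ∑ e ∈ E, mu n i * (1 + yy i E e) * yy i E e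
        = mu n i * ∑ e ∈ E, (yy i E e * (yy i E e - gg i E) + (1 + gg i E) * yy i E e) := by
      rw [mul_sum]; exact sum_congr rfl fun e _ => by ring
    rw [this, sum_add_distrib, ← mul_sum _ _ (1 + gg i E), hsumy]
    ring
  have e2 : |∑ e ∈ E, yy i E e * (yy i E e - gg i E)| ≤ E.card * (2 * P.y i ^ 2) := by
    refine (abs_sum_le_sum_abs _ _).trans ((sum_le_sum fun e he => ?_).trans_eq
      (by rw [sum_const, nsmul_eq_mul]))
    rw [abs_mul]
    calc |yy i E e| * |yy i E e - gg i E| ≤ P.y i * (P.y i + P.y i) :=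
          mul_le_mul (hG.y e he) ((abs_sub _ _).trans (add_le_add (hG.y e he) hg)) (abs_nonneg _)
            hS.y0
      _ = _ := by ring
  have e3 := congrArg abs e1
  rw [abs_mul, abs_mul (mu n i), abs_mul, abs_mul, abs_of_pos hc, abs_of_pos hmu,
    abs_of_pos (by linarith [(abs_le.1 hg).1, hS.y1] : 0 < 1 + gg i E)] at e3
  have h9 : (99:ℝ) / 100 ≤ 1 + gg i E := by linarith [(abs_le.1 hg).1, hS.y1]
  have key : (E.card : ℝ) * mu n i * (99 / 100) * |avgG E (yy i E) - gg i E|
      ≤ (E.card : ℝ) * mu n i * (2 * P.y i ^ 2) := by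
    calc _ ≤ (E.card : ℝ) * mu n i * (1 + gg i E) * |avgG E (yy i E) - gg i E| := by gcongr
      _ ≤ _ := by
        rw [e3]
        have := mul_le_mul_of_nonneg_left e2 hmu.le
        linarith
  rw [mul_assoc (_ * mu n i)] at key
  have := le_of_mul_le_mul_left key (mul_pos hc hmu)
  nlinarith [sq_nonneg (P.y i)]

lemma vG_abs (hG : Good P i E) : |vG i E| ≤ 2 * P.y i ^ 2 := by
  rcases (triangles E).eq_empty_or_nonempty with h0 | h0
  · simp [vG, FlagDrift.mean, h0, sq_nonneg]
  · have hQp : (0:ℝ) < (triangles E).card := by exact_mod_cast h0.card_pos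
    rw [vG, FlagDrift.mean, abs_div, abs_of_pos hQp, div_le_iff₀ hQp]
    refine (abs_sum_le_sum_abs _ _).trans ((sum_le_card_nsmul _ _ (2 * P.y i ^ 2)
      fun t ht => ?_).trans_eq (by rw [nsmul_eq_mul, mul_comm]))
    rw [abs_div, abs_of_pos (by norm_num : (0:ℝ) < 3), div_le_iff₀ (by norm_num)]
    refine (abs_sum_le_sum_abs _ _).trans ((sum_le_card_nsmul _ _ (2 * P.y i ^ 2)
      fun e he' => ?_).trans_eq (by rw [card_sides ht, nsmul_eq_mul, mul_comm]; norm_num))
    have h2 : |∑ g ∈ (sides t).erase e, yy i E g| ≤ 2 * P.y i := by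
      refine (abs_sum_le_sum_abs _ _).trans ((sum_le_sum fun g hg' => hG.y g
        ((mem_filter.1 ht).2 (mem_erase.1 hg').2)).trans_eq ?_)
      rw [sum_const, card_erase_of_mem he', card_sides ht, nsmul_eq_mul]
      norm_num
    simp only [phi]
    rw [abs_div, abs_pow, abs_two]
    have := pow_le_pow_left₀ (abs_nonneg _) h2 2
    linarith

lemma lin_sum (r : ℝ) (e : Finset (Fin n)) :
    avgE E (fun g => r * (yy i E g - gg i E)) e * (triAt E e).card
      = r * (zz i E e - gg i E) * (triAt E e).card := by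
  rcases (triAt E e).eq_empty_or_nonempty with h0 | h0
  · simp [h0]
  · congr 1
    have hT : ((triAt E e).card : ℝ) ≠ 0 := by exact_mod_cast h0.card_pos.ne'
    simp only [zz, avgE, FlagDrift.mean]
    rw [sum_congr rfl fun t ht => show
      (∑ g ∈ (sides t).erase e, r * (yy i E g - gg i E)) / 2
        = r * ((∑ g ∈ (sides t).erase e, yy i E g) / 2 - gg i E) by
      rw [← mul_sum, sum_sub_distrib, sum_const, card_erase_of_mem (mem_filter.1 ht).2,
        card_sides (mem_filter.1 ht).1, nsmul_eq_mul]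
      push_cast; ring]
    rw [← mul_sum, sum_sub_distrib, sum_const, nsmul_eq_mul]
    field_simp

lemma lin_sum_two (r : ℝ) (e : Finset (Fin n)) :
    ∑ t ∈ triAt E e, ∑ g ∈ (sides t).erase e, 2 * r * (zz i E g - gg i E)
      = 4 * r * (triAt E e).card * (ww i E e - gg i E) := by
  rw [sum_congr rfl fun t ht => show
      ∑ g ∈ (sides t).erase e, 2 * r * (zz i E g - gg i E)
        = 2 * r * (∑ g ∈ (sides t).erase e, zz i E g - 2 * gg i E) by
      rw [← mul_sum, sum_sub_distrib, sum_const, card_erase_of_mem (mem_filter.1 ht).2,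
        card_sides (mem_filter.1 ht).1, nsmul_eq_mul]
      push_cast; ring]
  rw [← mul_sum, sum_sub_distrib, sum_others, sum_const, nsmul_eq_mul, ww]
  ring

lemma quad_sum (r : ℝ) (e : Finset (Fin n)) :
    ∑ t ∈ triAt E e, (∑ g ∈ (sides t).erase e, r * (yy i E g - gg i E)) ^ 2
      = r ^ 2 * (triAt E e).card
        * (2 * vv i E e - 8 * gg i E * zz i E e + 4 * gg i E ^ 2) := by
  rcases (triAt E e).eq_empty_or_nonempty with h0 | h0
  · simp [h0]
  · have hT : ((triAt E e).card : ℝ) ≠ 0 := by exact_mod_cast h0.card_pos.ne'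
    rw [sum_congr rfl fun t ht => show
      (∑ g ∈ (sides t).erase e, r * (yy i E g - gg i E)) ^ 2
        = r ^ 2 * (2 * phi i E e t
          - 4 * gg i E * (∑ g ∈ (sides t).erase e, yy i E g) + 4 * gg i E ^ 2) by
      rw [← mul_sum, sum_sub_distrib, sum_const, card_erase_of_mem (mem_filter.1 ht).2,
        card_sides (mem_filter.1 ht).1, nsmul_eq_mul, phi]
      push_cast; ring]
    rw [← mul_sum, sum_add_distrib, sum_sub_distrib, ← mul_sum, ← mul_sum, sum_others,
      sum_const, nsmul_eq_mul, vv, FlagDrift.mean, zz]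
    field_simp
    ring

lemma const_bounds {eps r : ℝ} (hG : Good P i E) (hS : Small n P i) (hr0 : 0 ≤ r)
    (hr2 : r ≤ 11 / 10) (hy2 : 70 * P.y i ^ 2 ≤ eps ^ 2) :
    |4 * r * (avgG E (yy i E) - gg i E)| ≤ eps ^ 2 ∧
      |r ^ 2 * (2 * vG i E - 8 * gg i E * avgG E (yy i E) + 4 * gg i E ^ 2)| ≤ eps ^ 2 := by
  obtain ⟨-, -, hg, -, hgy⟩ := sizes hG hS
  have hvG := vG_abs hG
  set zb := avgG E (yy i E)
  constructor
  · rw [abs_mul, abs_mul, abs_of_pos (by norm_num : (0:ℝ) < 4), abs_of_nonneg hr0]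
    have := mul_le_mul (mul_le_mul_of_nonneg_left hr2 (by norm_num : (0:ℝ) ≤ 4)) hgy
      (abs_nonneg _) (by norm_num)
    nlinarith [sq_nonneg (P.y i)]
  · rw [abs_mul, abs_of_nonneg (sq_nonneg r)]
    have hzb' : |zb| ≤ 2 * P.y i := by
      have h1 := abs_le.1 hgy
      have h2 : P.y i ^ 2 ≤ P.y i * (1 / 100) := by
        rw [pow_two]; exact mul_le_mul_of_nonneg_left hS.y1 hS.y0
      rw [abs_le]; constructor <;> linarith [hS.y0, (abs_le.1 hg).1, (abs_le.1 hg).2]
    have h3 : |2 * vG i E - 8 * gg i E * zb + 4 * gg i E ^ 2| ≤ 24 * P.y i ^ 2 := by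
      refine (abs_add_le _ _).trans ?_
      have := abs_sub (2 * vG i E) (8 * gg i E * zb)
      rw [abs_mul, abs_two, abs_mul, abs_mul, abs_of_pos (by norm_num : (0:ℝ) < 8)] at this
      have hgz := mul_le_mul hg hzb' (abs_nonneg _) hS.y0
      have hg2 := pow_le_pow_left₀ (abs_nonneg _) hg 2
      rw [abs_mul, abs_pow, abs_of_pos (by norm_num : (0:ℝ) < 4)]
      linarith [show P.y i * (2 * P.y i) = 2 * P.y i ^ 2 by ring]
    have := mul_le_mul (pow_le_pow_left₀ hr0 hr2 2) h3 (abs_nonneg _) (by norm_num)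
    nlinarith [sq_nonneg (P.y i)]

/-- Regularity of the final state. -/
theorem regular_of_good (hG : Good P i E) (hS : Small n P i) {eps lam D : ℝ}
    (hD : D = mu n i * (1 + gg i E) - 1)
    (he : 0 ≤ eps) (hlam : 1 ≤ lam) (hell : Real.log (1 + 2 * D) ≤ lam)
    (hDe : 1 / D ≤ eps ^ 2) (hsmall : 4 * eps * lam ^ 2 ≤ 1 / 1000)
    (hy : 4 * P.y i ≤ eps) (hz : 3 * (P.z i + 3 * P.y i ^ 2) ≤ eps ^ 2)
    (hy2 : 70 * P.y i ^ 2 ≤ eps ^ 2)
    (hw : 6 * P.w i ≤ eps ^ 3) (hv : 6 * P.v i + 24 * P.y i * P.z i ≤ eps ^ 3) :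
    ∃ (c1 c2 : ℝ) (y : {e // e ∈ E} → ℝ),
      Tree.Regular (sideIn E) (triangles E) D eps lam c1 c2 y := by
  obtain ⟨hEpos, -, hg, hQ, hgy⟩ := sizes hG hS
  have hmu : 0 < mu n i := by linarith [hS.mu_big]
  have hgl := (abs_le.1 hg).1
  have hgu := (abs_le.1 hg).2
  have hD98 : 97 / 100 * mu n i ≤ D := by
    rw [hD]; nlinarith [hS.mu_big, hS.y1, mul_le_mul_of_nonneg_left (hgl.trans' (neg_le_neg hS.y1)) hmu.le]
  have hDp : 0 < D := by nlinarith
  set r : ℝ := mu n i / D with hr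
  have hr0 : 0 ≤ r := div_nonneg hmu.le hDp.le
  have hr2 : r ≤ 11 / 10 := by rw [hr, div_le_iff₀ hDp]; nlinarith
  have hdeg : ∀ f : {e // e ∈ E},
      Tree.br (sideIn E) (triangles E) f none = triAt E f.1 := fun f => by
    ext t
    simp [Tree.br, triAt, mem_sideIn]
  have hxe : ∀ f : {e // e ∈ E},
      Tree.xe (sideIn E) (triangles E) D f = r * (yy i E f.1 - gg i E) := fun f => by
    simp only [Tree.xe, Tree.deg, hdeg, hr, yy]
    rw [hD]
    have : mu n i * (1 + gg i E) - 1 ≠ 0 := by rw [← hD]; exact hDp.ne'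
    field_simp
    ring
  have hsum : ∀ (f : {e // e ∈ E}) (F : Finset (Fin n) → ℝ), ∀ t ∈ triAt E f.1,
      ∑ g ∈ (sideIn E t).erase f, F g.1 = ∑ g ∈ (sides t).erase f.1, F g := by
    intro f F t ht
    refine sum_bij (fun g _ => g.1) (fun g hg => ?_) (fun g _ g' _ h => Subtype.ext h)
      (fun b hb => ?_) (fun g _ => rfl)
    · rw [mem_erase] at hg ⊢
      exact ⟨fun h => hg.1 (Subtype.ext h), mem_sideIn.1 hg.2⟩
    · rw [mem_erase] at hb
      exact ⟨⟨b, (mem_filter.1 (mem_filter.1 ht).1).2 hb.2⟩,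
        mem_erase.2 ⟨fun h => hb.1 (congrArg Subtype.val h), mem_sideIn.2 hb.2⟩, rfl⟩
  set zb := avgG E (yy i E) with hzb
  have hzz : avgG E (zz i E) = zb := avgG_avgE E (yy i E)
  have hzabs : ∀ e ∈ E, |zz i E e - gg i E| ≤ P.z i + 3 * P.y i ^ 2 := by
    intro e he'
    have := abs_sub_le (zz i E e) zb (gg i E)
    have h1 : |zz i E e - zb| ≤ P.z i := hG.z e he'
    linarith
  refine ⟨4 * r * (zb - gg i E),
    r ^ 2 * (2 * vG i E - 8 * gg i E * zb + 4 * gg i E ^ 2),
    fun f => 2 * r * (zz i E f.1 - gg i E), ?_⟩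
  have he1 : eps ≤ 1 := by nlinarith [one_le_pow₀ (n := 2) hlam]
  refine { hD := by nlinarith [hS.mu_big], heps := he, hlam := hlam, hell := hell, hDeps := hDe,
           hsmall := hsmall, hc1 := ?_, hc2 := ?_, hsd := fun t ht => card_sideIn ht,
           hx := ?_, hy := ?_, hxsum := ?_, hysum := ?_, hx2sum := ?_ }
  · exact (const_bounds hG hS hr0 hr2 hy2).1
  · exact (const_bounds hG hS hr0 hr2 hy2).2
  · intro f
    rw [hxe, abs_mul, abs_of_nonneg hr0]
    have := mul_le_mul hr2 ((abs_sub _ _).trans (add_le_add (hG.y f.1 f.2) hg)) (abs_nonneg _)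
      (by norm_num)
    linarith [hS.y0]
  · intro f
    rw [abs_mul, abs_mul, abs_two, abs_of_nonneg hr0]
    have := mul_le_mul (mul_le_mul_of_nonneg_left hr2 (by norm_num : (0:ℝ) ≤ 2)) (hzabs f.1 f.2)
      (abs_nonneg _) (by norm_num)
    have : 0 ≤ P.z i + 3 * P.y i ^ 2 := by nlinarith [hS.z0]
    linarith
  · intro f
    simp only [Tree.deg, hdeg, hxe]
    rw [sum_congr rfl fun t ht => hsum f (fun g => r * (yy i E g - gg i E)) t ht]
    rw [sum_others E f.1 fun g => r * (yy i E g - gg i E)]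
    have hlin := lin_sum (i := i) (E := E) r f.1
    have : 2 * ((triAt E f.1).card : ℝ) * avgE E (fun g => r * (yy i E g - gg i E)) f.1
        - 2 * r * (zz i E f.1 - gg i E) * (triAt E f.1).card = 0 := by linarith
    rw [this, abs_zero]
    positivity
  · intro f
    simp only [Tree.deg, hdeg]
    rw [sum_congr rfl fun t ht => hsum f (fun g => 2 * r * (zz i E g - gg i E)) t ht]
    have hlin := lin_sum_two (i := i) (E := E) r f.1
    rw [hlin, show 4 * r * ((triAt E f.1).card : ℝ) * (ww i E f.1 - gg i E)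
      - 4 * r * (zb - gg i E) * (triAt E f.1).card
        = 4 * r * wc i E f.1 * (triAt E f.1).card by simp only [wc, hzz]; ring]
    rw [abs_mul, abs_mul, abs_mul, abs_of_pos (by norm_num : (0:ℝ) < 4), abs_of_nonneg hr0,
      Nat.abs_cast]
    refine mul_le_mul_of_nonneg_right ?_ (Nat.cast_nonneg _)
    have := mul_le_mul (mul_le_mul_of_nonneg_left hr2 (by norm_num : (0:ℝ) ≤ 4)) (hG.w f.1 f.2)
      (abs_nonneg _) (by norm_num)
    linarith [hS.w0]
  · intro f
    simp only [Tree.deg, hdeg, hxe]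
    rw [sum_congr rfl fun t ht => by rw [hsum f (fun g => r * (yy i E g - gg i E)) t ht]]
    have hlin := quad_sum (i := i) (E := E) r f.1
    rw [hlin, show r ^ 2 * ((triAt E f.1).card : ℝ)
        * (2 * vv i E f.1 - 8 * gg i E * zz i E f.1 + 4 * gg i E ^ 2)
      - r ^ 2 * (2 * vG i E - 8 * gg i E * zb + 4 * gg i E ^ 2) * (triAt E f.1).card
      = r ^ 2 * (2 * vc i E f.1 - 8 * gg i E * zc i E f.1) * (triAt E f.1).card by
        simp only [vc, zc, ← hzb]; ring]
    rw [abs_mul, abs_mul, abs_of_nonneg (sq_nonneg r), Nat.abs_cast]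
    refine mul_le_mul_of_nonneg_right ?_ (Nat.cast_nonneg _)
    have h1 : |2 * vc i E f.1 - 8 * gg i E * zc i E f.1| ≤ 2 * P.v i + 8 * P.y i * P.z i := by
      refine (abs_sub _ _).trans ?_
      rw [abs_mul, abs_two, abs_mul, abs_mul, abs_of_pos (by norm_num : (0:ℝ) < 8)]
      have := mul_le_mul hg (hG.z f.1 f.2) (abs_nonneg _) hS.y0
      linarith [hG.v f.1 f.2]
    have := mul_le_mul (pow_le_pow_left₀ hr0 hr2 2) h1 (abs_nonneg _) (by norm_num)
    linarith [hS.v0, mul_nonneg hS.y0 hS.z0]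

end Vale.Agent.P046.Phase
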