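import Vale.Agent.P046.Phase.EndSpec
import Vale.Agent.P046.Phase.Regular

/-!
# Assembly: the leading constant of the final number of edges
-/

set_option linter.unusedSectionVars false

namespace Vale.Agent.P046.Phase

open Finset Chain Flags

variable {n : ℕ}

lemma killed_const_le {Good : ℕ → St n → Prop} {c : ℝ} (hc : 0 ≤ c) (k j : ℕ) (E : St n) :
    killed Good k (fun _ _ => c) j E ≤ c :=
  (killed_mono_good (fun _ _ _ => trivial) (fun _ _ => hc) k j E).trans_eq (expect_const c k j E)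

lemma card_le_sq {F : St n} (h : F ⊆ complete n) : (F.card : ℝ) ≤ (n:ℝ) ^ 2 := by
  have h1 : F.card ≤ n.choose 2 := (card_le_card h).trans_eq (by simp [complete])
  have h2 : n.choose 2 ≤ n ^ 2 := Nat.choose_le_pow n 2
  exact_mod_cast h1.trans h2

lemma abs_le_amgm {X a : ℝ} (ha : 0 < a) : |X| ≤ a / 2 + X ^ 2 / (2 * a) := by
  rw [div_add_div _ _ two_ne_zero (by positivity), le_div_iff₀ (by positivity), ← sq_abs X]
  nlinarith [sq_nonneg (|X| - a)]

section Mono

variable {V τ : Type} [DecidableEq V] [DecidableEq τ] (sd : τ → Finset V) (H : Finset τ)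

lemma dep_mono : ∀ k f P, Tree.dep sd H k f P ⊆ Tree.dep sd H (k + 1) f P
  | 0, f, P => by simp [Tree.dep]
  | k + 1, f, P => by
    simp only [Tree.dep]
    exact biUnion_mono fun T _ => insert_subset_insert _ (biUnion_mono fun g _ => dep_mono k g _)

lemma isTree_pred : ∀ k f P, Tree.IsTree sd H (k + 1) f P → Tree.IsTree sd H k f P
  | 0, f, P, _ => trivial
  | k + 1, f, P, h => by
    refine ⟨h.1.mono fun T => insert_subset_insert _ (biUnion_mono fun g _ => dep_mono sd H k g _),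
      fun T hT => ⟨(h.2 T hT).1.mono fun g => dep_mono sd H k g _, fun g hg =>
        ⟨fun hm => ((h.2 T hT).2 g hg).1 (dep_mono sd H k g _ hm),
          isTree_pred k g _ ((h.2 T hT).2 g hg).2⟩⟩⟩

lemma isTree_anti {k l : ℕ} (hkl : k ≤ l) {f : V} {P : Option τ} :
    Tree.IsTree sd H l f P → Tree.IsTree sd H k f P := by
  induction hkl with
  | refl => exact id
  | step _ ih => exact fun h => ih (isTree_pred sd H _ f P h)

end Mono

open Classical in
/-- The edges of `F` without a tree neighbourhood of radius `k`. -/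
noncomputable def badSet (k : ℕ) (F : St n) : Finset {e // e ∈ F} :=
  (Finset.univ : Finset {e // e ∈ F}).filter fun e =>
    ¬ Tree.IsTree (sideIn F) (triangles F) k e none

/-- The target value. -/
noncomputable def target (n : ℕ) : ℝ := Real.rpow n (3 / 2) / (2 * Real.sqrt 2)

lemma target_bounds (hn : 1 ≤ n) :
    0 ≤ target n ∧ target n ≤ Real.rpow n (3 / 2) / 2 ∧ Real.rpow n (3 / 2) ≤ (n:ℝ) ^ 2 := by
  have h0 : (0:ℝ) < Real.rpow n (3 / 2) := Real.rpow_pos_of_pos (by exact_mod_cast hn) _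
  have h2 : (1:ℝ) ≤ Real.sqrt 2 := Real.one_le_sqrt.2 (by norm_num)
  refine ⟨by unfold target; positivity, ?_, ?_⟩
  · exact div_le_div_of_nonneg_left h0.le two_pos (by linarith)
  · calc Real.rpow n (3 / 2) ≤ Real.rpow n (2 : ℕ) :=
        Real.rpow_le_rpow_of_exponent_le (by exact_mod_cast hn) (by norm_num)
      _ = _ := Real.rpow_natCast _ _

/-- The last phase from one safe state. -/
lemma end_state {ρ : ℝ} {F : St n} {eps lam D T a : ℝ} {q k i : ℕ} {P : Env}
    (hG : Good P i F) (hS : Flags.Small n P i) (hD : D = mu n i * (1 + gg i F) - 1)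
    (he : 0 < eps) (hlam : 1 ≤ lam) (hell : Real.log (1 + 2 * D) ≤ lam)
    (hDe : 1 / D ≤ eps ^ 2) (hsmall : 4 * eps * lam ^ 2 ≤ 1 / 1000)
    (hy : 4 * P.y i ≤ eps) (hz : 3 * (P.z i + 3 * P.y i ^ 2) ≤ eps ^ 2)
    (hy2 : 70 * P.y i ^ 2 ≤ eps ^ 2) (hw : 6 * P.w i ≤ eps ^ 3)
    (hv : 6 * P.v i + 24 * P.y i * P.z i ≤ eps ^ 3)
    (hq : (0.93:ℝ) ^ q / 50 ≤ 20 * (4 * eps) ^ 3 * lam ^ 4)
    (hGs : 320 * (4 * eps) ^ 3 * lam ^ 4 * Real.exp (6 / 5 * lam) ≤ 1 / 1000)
    (hk : ⌈100 * lam⌉₊ * (q + 1) ≤ k) (hev : Even k) (ha : 0 < a)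
    (hδ : Tree.delta eps lam ≤ ρ) (hT : |mm n i / Real.sqrt (1 + 2 * D) - T| ≤ ρ * a) :
    expFinal (fun G => |(G.card : ℝ) - T|) F ≤ a / 2 + ρ * a +
      (2 * mm n i * (9 * D) ^ (2 * k + 3) +
        4 * mm n i * ((badSet k F).card + (badSet (k + 1) F).card : ℝ) +
        16 * ρ ^ 2 * (|T| + ρ * a) ^ 2) / (2 * a) := by
  classical
  obtain ⟨hFpos, hm, -, -, -⟩ := sizes hG hS
  obtain ⟨c1, c2, y, hreg⟩ := regular_of_good hG hS hD he.le hlam hell hDe hsmall hy hz hy2 hw hv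
  have hmain := Tree.greedy_second_moment hreg he hq hGs hk hev (badSet k F ∪ badSet (k + 1) F)
    (fun f hf => by simpa [badSet, not_or] using hf)
  rw [Fintype.card_coe, hm] at hmain
  set μ := mm n i / Real.sqrt (1 + 2 * D) with hμ
  have hm0 : 0 ≤ mm n i := hm ▸ Nat.cast_nonneg _
  have hμ0 : 0 ≤ μ := by positivity
  have hμT : μ ≤ |T| + ρ * a := by linarith [(abs_le.1 hT).2, le_abs_self T]
  have hδ0 : 0 ≤ Tree.delta eps lam := by
    have := hlam
    unfold Tree.delta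
    positivity
  set b : ℝ := ((badSet k F ∪ badSet (k + 1) F).card : ℝ)
  have hb0 : 0 ≤ b := Nat.cast_nonneg _
  have hb1 : b ≤ ((badSet k F).card + (badSet (k + 1) F).card : ℝ) := by
    simp only [b, ← Nat.cast_add]
    exact Nat.cast_le.2 (card_union_le _ _)
  have hb2 : b ≤ mm n i := by
    rw [← hm, ← Fintype.card_coe]
    exact Nat.cast_le.2 (card_le_univ _)
  have hsq : (b + 2 * Tree.delta eps lam * μ) ^ 2 ≤
      2 * mm n i * ((badSet k F).card + (badSet (k + 1) F).card : ℝ)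
        + 8 * ρ ^ 2 * (|T| + ρ * a) ^ 2 := by
    have h1 : b ^ 2 ≤ mm n i * ((badSet k F).card + (badSet (k + 1) F).card : ℝ) := by
      rw [pow_two]; exact mul_le_mul hb2 hb1 hb0 hm0
    have h2 : (Tree.delta eps lam * μ) ^ 2 ≤ (ρ * (|T| + ρ * a)) ^ 2 :=
      pow_le_pow_left₀ (mul_nonneg hδ0 hμ0) (mul_le_mul hδ hμT hμ0 (hδ0.trans hδ)) 2
    nlinarith [sq_nonneg (b - 2 * Tree.delta eps lam * μ)]
  have hX : expFinal (fun G => ((G.card : ℝ) - μ) ^ 2) F ≤
      2 * mm n i * (9 * D) ^ (2 * k + 3) +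
        4 * mm n i * ((badSet k F).card + (badSet (k + 1) F).card : ℝ) +
        16 * ρ ^ 2 * (|T| + ρ * a) ^ 2 := by
    rw [expFinal_eq_greedy (fun c => (c - μ) ^ 2) F]
    linarith
  calc expFinal (fun G => |(G.card : ℝ) - T|) F
      ≤ expFinal (fun G => (a / 2 + ρ * a) + 1 / (2 * a) * ((G.card : ℝ) - μ) ^ 2) F := by
        refine expFinal_mono F fun G _ => ?_
        have := abs_sub_le (G.card : ℝ) μ T
        have h := abs_le_amgm (X := (G.card : ℝ) - μ) ha
        rw [div_eq_inv_mul (((G.card : ℝ) - μ) ^ 2), ← one_div] at h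
        linarith
    _ = (a / 2 + ρ * a) + 1 / (2 * a) * expFinal (fun G => ((G.card : ℝ) - μ) ^ 2) F := by
        rw [expFinal_add, expFinal_const, expFinal_mul]
    _ ≤ _ := by
        rw [div_eq_inv_mul (2 * mm n i * (9 * D) ^ (2 * k + 3) + _ + _), ← one_div]
        have := mul_le_mul_of_nonneg_left hX (by positivity : (0:ℝ) ≤ 1 / (2 * a))
        linarith

lemma complete_good_exit (hn : 1 ≤ n) {N2 : ℕ} (hi : (N2 : ℝ) ≤ (n:ℝ) ^ 2)
    (hexit : ∀ i, i ≤ N2 → killed (Spec.Safe n) i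
      (fun k F => haveI := Classical.dec (Spec.Safe n k F);
        if Spec.Safe n k F then 0 else 1) 0 (complete n) ≤ 2 / (n:ℝ) ^ 5) :
    (killed (Spec.Safe n) N2 (fun k F => haveI := Classical.dec (Spec.Safe n k F);
        if Spec.Safe n k F then 0 else 1) 0 (complete n))
      + (1 - killed (Spec.Safe n) N2 (fun _ _ => 1) 0 (complete n)) ≤ 4 / (n:ℝ) ^ 3 := by
  classical
  have h := killed_exit (Good := Spec.Safe n) N2 0 (complete n)
  have hs : ∑ i ∈ range N2, killed (Spec.Safe n) i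
      (fun a F => if Spec.Safe n a F then 0 else 1) 0 (complete n) ≤ N2 * (2 / (n:ℝ) ^ 5) := by
    refine (sum_le_card_nsmul _ _ _ fun i hi' => ?_).trans_eq (by rw [card_range, nsmul_eq_mul])
    convert hexit i (mem_range.1 hi').le
  have h2 := hexit N2 le_rfl
  have hnp : (0:ℝ) < n := by exact_mod_cast hn
  have e1 : (N2:ℝ) * (2 / (n:ℝ) ^ 5) ≤ 2 / (n:ℝ) ^ 3 := by
    calc _ ≤ (n:ℝ) ^ 2 * (2 / (n:ℝ) ^ 5) := by gcongr
      _ = _ := by field_simp
  have e2 : 2 / (n:ℝ) ^ 5 ≤ 2 / (n:ℝ) ^ 3 :=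
    div_le_div_of_nonneg_left (by norm_num) (by positivity)
      (pow_le_pow_right₀ (by exact_mod_cast hn) (by norm_num))
  have e3 : (4:ℝ) / (n:ℝ) ^ 3 = 2 / (n:ℝ) ^ 3 + 2 / (n:ℝ) ^ 3 := by ring
  convert (add_le_add (h2.trans e2) ((le_of_eq (eq_sub_of_add_eq' h).symm).trans (hs.trans e1))).trans_eq
    e3.symm using 2

open Classical in
lemma safe_exit {i : ℕ}
    (h1 : i ≤ iOne n → killed (Spec.Safe n) i
      (fun k F => if GoodI (envI n) (etaI n) k F then 0 else 1) 0 (complete n) ≤ 1 / (n:ℝ) ^ 5)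
    (h2 : iOne n ≤ i → killed (Spec.Safe n) i
      (fun k F => if Good (envII n) k F then 0 else 1) 0 (complete n) ≤ 1 / (n:ℝ) ^ 5) :
    killed (Spec.Safe n) i (fun k F => if Spec.Safe n k F then 0 else 1) 0 (complete n)
      ≤ 2 / (n:ℝ) ^ 5 := by
  have hpos : 0 ≤ 1 / (n:ℝ) ^ 5 := by positivity
  set g : ℕ → St n → ℝ := fun k F =>
    (if k ≤ iOne n ∧ ¬ GoodI (envI n) (etaI n) k F then 1 else 0) +
      (if iOne n ≤ k ∧ ¬ Good (envII n) k F then 1 else 0) with hg
  have hle : killed (Spec.Safe n) i (fun k F => if Spec.Safe n k F then 0 else 1) 0 (complete n)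
      ≤ killed (Spec.Safe n) i g 0 (complete n) := by
    refine killed_mono i 0 _ fun F _ => ?_
    simp only [hg]
    by_cases hsafe : Spec.Safe n (0 + i) F
    · rw [if_pos hsafe]; positivity
    · rw [if_neg hsafe]
      unfold Spec.Safe at hsafe
      rcases not_and_or.1 hsafe with h | h
      · rw [Classical.not_imp] at h
        rw [if_pos h]
        split_ifs <;> norm_num
      · rw [Classical.not_imp] at h
        rw [if_pos h]
        split_ifs <;> norm_num
  refine hle.trans ?_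
  simp only [hg]
  rw [killed_add_fun]
  have a1 : killed (Spec.Safe n) i (fun k F => if k ≤ iOne n ∧ ¬ GoodI (envI n) (etaI n) k F
      then (1:ℝ) else 0) 0 (complete n) ≤ 1 / (n:ℝ) ^ 5 := by
    rcases le_or_gt i (iOne n) with hc | hc
    · refine le_trans (killed_mono i 0 _ fun F _ => ?_) (h1 hc)
      simp only [zero_add]
      split_ifs with u v <;> first | exact absurd v u.2 | norm_num
    · refine le_trans (killed_mono (g := fun _ _ => (0:ℝ)) i 0 _ fun F _ => ?_) ?_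
      · simp [not_le.2 hc]
      · exact (killed_const_le le_rfl i 0 _).trans hpos
  have a2 : killed (Spec.Safe n) i (fun k F => if iOne n ≤ k ∧ ¬ Good (envII n) k F
      then (1:ℝ) else 0) 0 (complete n) ≤ 1 / (n:ℝ) ^ 5 := by
    rcases le_or_gt (iOne n) i with hc | hc
    · refine le_trans (killed_mono i 0 _ fun F _ => ?_) (h2 hc)
      simp only [zero_add]
      split_ifs with u v <;> first | exact absurd v u.2 | norm_num
    · refine le_trans (killed_mono (g := fun _ _ => (0:ℝ)) i 0 _ fun F _ => ?_) ?_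
      · simp [not_le.2 hc]
      · exact (killed_const_le le_rfl i 0 _).trans hpos
  refine (add_le_add a1 a2).trans_eq ?_
  ring

lemma numeric_tail {ε s R a T ρ : ℝ} (hε : 0 < ε) (hs0 : 0 < s) (hs1 : s ≤ 1)
    (hsε : 100 * s ≤ ε) (hR1 : 1 ≤ R) (hnε : 16 / ε + 100 < (n:ℝ)) (ha : a = s * R)
    (hT0 : 0 ≤ T) (hT1 : T ≤ R / 2) (hρs : ρ = s ^ 2) :
    4 / (n:ℝ) ≤ ε / 4 * R ∧
      a / 2 + s * a + (2 * (ρ * R ^ 2) + 16 * s ^ 2 * (|T| + s * a) ^ 2) / (2 * a) ≤ 35 * s * R ∧
      40 * s * R ≤ ε * (2 / 5) * R := by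
  have h16e : 0 < 16 / ε := by positivity
  have hnR : (1:ℝ) ≤ n := by linarith
  have hR0 : 0 < R := by linarith
  have ha0 : 0 < a := ha ▸ mul_pos hs0 hR0
  have h4n : 4 / (n:ℝ) ≤ ε / 4 * R := by
    rw [div_le_iff₀ (by linarith)]
    have h8 : 16 ≤ ε * n := by
      have := mul_le_mul_of_nonneg_left hnε.le hε.le
      rw [mul_add, mul_div_cancel₀ _ hε.ne'] at this
      linarith
    have := mul_le_mul_of_nonneg_left hR1 (show 0 ≤ ε / 4 * n by positivity)
    linarith
  have hc0R : a / 2 + s * a + (2 * (ρ * R ^ 2) + 16 * s ^ 2 * (|T| + s * a) ^ 2) / (2 * a)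
      ≤ 35 * s * R := by
    have hTR : |T| + s * a ≤ 2 * R := by
      rw [abs_of_nonneg hT0, ha]
      have : s * (s * R) ≤ R := by
        calc s * (s * R) ≤ 1 * (1 * R) := by gcongr
          _ = R := by ring
      linarith
    have h16 : 16 * s ^ 2 * (|T| + s * a) ^ 2 ≤ 64 * s ^ 2 * R ^ 2 := by
      have := pow_le_pow_left₀ (by positivity) hTR 2
      have := mul_le_mul_of_nonneg_left this (show 0 ≤ 16 * s ^ 2 by positivity)
      linarith
    have h17 : (2 * (ρ * R ^ 2) + 16 * s ^ 2 * (|T| + s * a) ^ 2) / (2 * a) ≤ 33 * s * R := by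
      rw [div_le_iff₀ (by positivity), hρs]
      have e : 33 * s * R * (2 * a) = 66 * (s ^ 2 * R ^ 2) := by rw [ha]; ring
      linarith
    have : s * a ≤ 1 * a := mul_le_mul_of_nonneg_right hs1 ha0.le
    linarith [show a = s * R from ha]
  have h40 : 40 * s * R ≤ ε * (2 / 5) * R := mul_le_mul_of_nonneg_right (by linarith) hR0.le
  exact ⟨h4n, hc0R, h40⟩

open Classical in
/-- The first absolute moment of the deviation from the predicted value is negligible. -/
theorem mean_abs_small (h1 : Spec.PhaseOne) (h2 : Spec.PhaseTwo) (hB : Spec.Balls)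
    (hE : Spec.EndNumerics) : ∀ ε : ℝ, 0 < ε → ∃ N : ℕ, ∀ n, N ≤ n →
      expFinal (fun G => |(G.card : ℝ) - target n|) (complete n) ≤ ε * Real.rpow n (3 / 2) := by
  intro ε hε
  set ρ : ℝ := (min 1 (ε / 100)) ^ 2 with hρ
  have hs0 : 0 < min 1 (ε / 100) := lt_min one_pos (by linarith)
  have hρ0 : 0 < ρ := by positivity
  have hρ1 : ρ ≤ 1 := pow_le_one₀ hs0.le (min_le_left _ _)
  obtain ⟨N1, h1⟩ := h1
  obtain ⟨N2, h2⟩ := h2
  obtain ⟨N3, hB⟩ := hB
  obtain ⟨N4, hE⟩ := hE ρ hρ0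
  obtain ⟨N5, hN5⟩ := exists_nat_gt (16 / ε + 100)
  refine ⟨max (max N1 N2) (max N3 (max N4 N5)), fun n hn => ?_⟩
  simp only [max_le_iff] at hn
  obtain ⟨⟨hn1, hn2⟩, hn3, hn4, hn5⟩ := hn
  obtain ⟨hS, h12, hi2, hsmallbad, hnum⟩ := hE n hn4
  have hnε : 16 / ε + 100 < (n:ℝ) := lt_of_lt_of_le hN5 (by exact_mod_cast hn5)
  have h16 : 0 < 16 / ε := by positivity
  have hnpos : 1 ≤ n := by
    have : (1:ℝ) ≤ n := by linarith
    exact_mod_cast this
  have hnR : (1:ℝ) ≤ n := by exact_mod_cast hnpos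
  set R : ℝ := Real.rpow n (3 / 2) with hR
  have hR0 : 0 < R := Real.rpow_pos_of_pos (by linarith) _
  have hR1 : 1 ≤ R := Real.one_le_rpow hnR (by norm_num)
  obtain ⟨hT0, hT1, hRn⟩ := target_bounds hnpos
  rw [← hR] at hT1 hRn
  set T := target n
  set i2 := iTwo n
  set s : ℝ := min 1 (ε / 100) with hs
  have hs1 : s ≤ 1 := min_le_left _ _
  have hsε : 100 * s ≤ ε := by linarith [min_le_right (1:ℝ) (ε / 100)]
  set a : ℝ := s * R with ha
  have ha0 : 0 < a := mul_pos hs0 hR0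
  have hR2 : R ^ 2 = (n:ℝ) ^ 3 := by
    rw [hR]
    show ((n:ℝ) ^ ((3:ℝ) / 2)) ^ (2:ℕ) = _
    rw [← Real.rpow_natCast ((n:ℝ) ^ ((3:ℝ) / 2)) 2, ← Real.rpow_mul (by linarith)]
    norm_num
  have hexit : ∀ i, i ≤ i2 → killed (Spec.Safe n) i
      (fun k F => if Spec.Safe n k F then 0 else 1) 0 (complete n) ≤ 2 / (n:ℝ) ^ 5 :=
    fun i hi => safe_exit (fun hc => h1 n hn1 i hc) (fun hc => h2 n hn2 i hc hi)
  set h : St n → ℝ := fun G => |(G.card : ℝ) - T| with hh
  have hB2 : ∀ F : St n, F ⊆ complete n → expFinal h F ≤ (n:ℝ) ^ 2 := by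
    intro F hF
    refine (expFinal_mono (g := fun _ => (n:ℝ) ^ 2) F fun G hG => ?_).trans_eq (expFinal_const _ _)
    have := card_le_sq (hG.trans hF)
    have h0 : (0:ℝ) ≤ G.card := Nat.cast_nonneg _
    simp only [hh]
    rw [abs_le]
    constructor <;> linarith
  have hexp := expect_le_killed (Good := Spec.Safe n) (fun _ F => expFinal h F) i2 0 (complete n)
    (B := (n:ℝ) ^ 2) (fun F hF => hB2 F hF)
  rw [expect_expFinal] at hexp
  set kk : ℕ := Spec.radius n
  have hball : ∀ k, k ≤ kk → killed (Spec.Safe n) i2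
      (fun j F => if Spec.Safe n j F then ((badSet k F).card : ℝ) else 0) 0 (complete n)
      ≤ Real.rpow n (-(1 / 20)) * (n:ℝ) ^ 2 * pp n i2 := fun k hk => by
    refine le_of_eq_of_le (congrArg (fun f => killed (Spec.Safe n) i2 f 0 (complete n)) ?_)
      (hB n hn3 k hk)
    funext j F
    simp only [badSet]
    congr
  set c0 : ℝ := a / 2 + s * a + (2 * (ρ * R ^ 2) + 16 * s ^ 2 * (|T| + s * a) ^ 2) / (2 * a) with hc0
  have hc00 : 0 ≤ c0 := by positivity
  have hρs : ρ = s ^ 2 := rfl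
  have hm0 : 0 ≤ mm n i2 := by
    unfold mm
    have h6 : ((3 * i2 + 6 : ℕ) : ℝ) ≤ (n.choose 2 : ℝ) := by exact_mod_cast hS.room
    push_cast at h6
    linarith
  have hpw : ∀ F, F ⊆ complete n → expFinal h F ≤ c0 +
      (4 * mm n i2 / a * (if Spec.Safe n i2 F then ((badSet kk F).card : ℝ) else 0)
        + (n:ℝ) ^ 2 * (if Spec.Safe n i2 F then 0 else 1)) := by
    intro F hF
    by_cases hsafe : Spec.Safe n i2 F
    · rw [if_pos hsafe, if_pos hsafe, mul_zero, add_zero]
      have hG : Good (envII n) i2 F := hsafe.2 h12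
      obtain ⟨-, -, hg, -, -⟩ := sizes hG hS
      obtain ⟨eps, lam, q, k, he, hlam, hell, hDe, hsm, hy, hz, hy2, hw, hv, hq, hGs, hk, hev, hkr,
        hδ, hpow, hT⟩ := hnum (gg i2 F) hg _ rfl
      have hδ' : Tree.delta eps lam ≤ s := hδ.trans (by rw [hρs]; nlinarith)
      have hT' : |mm n i2 / Real.sqrt (1 + 2 * (mu n i2 * (1 + gg i2 F) - 1)) - T| ≤ s * a := by
        refine hT.trans (le_of_eq ?_)
        rw [hρs, ha]; ring
      refine (end_state (ρ := s) (T := T) (a := a) hG hS rfl he hlam hell hDe hsm hy hz hy2 hw hv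
        hq hGs hk hev ha0 hδ' hT').trans ?_
      have hsub : ∀ l, l ≤ kk → ((badSet l F).card : ℝ) ≤ (badSet kk F).card := fun l hl => by
        refine Nat.cast_le.2 (card_le_card fun e he' => ?_)
        simp only [badSet, mem_filter, mem_univ, true_and] at he' ⊢
        exact fun htree => he' (isTree_anti _ _ hl htree)
      have b1 := mul_le_mul_of_nonneg_left (add_le_add (hsub k (by omega)) (hsub (k + 1) hkr))
        (by positivity : 0 ≤ 4 * mm n i2)
      have e1 : c0 + 4 * mm n i2 / a * ((badSet kk F).card : ℝ) = a / 2 + s * a +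
          (2 * (ρ * R ^ 2) + 4 * mm n i2 * ((badSet kk F).card + (badSet kk F).card : ℝ)
            + 16 * s ^ 2 * (|T| + s * a) ^ 2) / (2 * a) := by
        rw [hc0]; field_simp; ring
      rw [e1]
      refine add_le_add le_rfl (div_le_div_of_nonneg_right ?_ (by positivity))
      rw [hR2]
      linarith
    · rw [if_neg hsafe, if_neg hsafe, mul_zero, zero_add, mul_one]
      exact (hB2 F hF).trans (le_add_of_nonneg_left hc00)
  have hk1 := killed_mono (Good := Spec.Safe n) (f := fun _ F => expFinal h F)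
    (g := fun j F => c0 + (4 * mm n i2 / a * (if Spec.Safe n j F then ((badSet kk F).card : ℝ) else 0)
        + (n:ℝ) ^ 2 * (if Spec.Safe n j F then 0 else 1))) i2 0 (complete n)
    (fun F hF => by simp only [zero_add]; exact hpw F hF)
  rw [killed_add_fun (fun _ _ => c0), killed_add_fun
    (fun j F => 4 * mm n i2 / a * (if Spec.Safe n j F then ((badSet kk F).card : ℝ) else 0)),
    killed_mul, killed_mul] at hk1
  have hk2 := killed_const_le (Good := Spec.Safe n) hc00 i2 0 (complete n)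
  have hk3 : 4 * mm n i2 / a * killed (Spec.Safe n) i2
      (fun j F => if Spec.Safe n j F then ((badSet kk F).card : ℝ) else 0) 0 (complete n)
      ≤ 4 * s * R := by
    refine (mul_le_mul_of_nonneg_left (hball kk le_rfl) (by positivity)).trans ?_
    rw [div_mul_eq_mul_div, div_le_iff₀ ha0, ha, show 4 * s * R * (s * R) = 4 * (s ^ 2 * R ^ 2) by ring,
      hR2, ← hρs]
    linarith
  have hex := complete_good_exit hnpos hi2 (fun i hi => by convert hexit i hi)
  have hex' : (n:ℝ) ^ 2 * (killed (Spec.Safe n) i2 (fun j F => if Spec.Safe n j F then 0 else 1) 0 (complete n)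
      + (1 - killed (Spec.Safe n) i2 (fun _ _ => 1) 0 (complete n))) ≤ 4 / n := by
    refine le_of_le_of_eq (mul_le_mul_of_nonneg_left (by convert hex) (by positivity)) ?_
    field_simp
  obtain ⟨h4n, hc0R', h40⟩ :=
    numeric_tail (n := n) (a := a) (T := T) hε hs0 hs1 hsε hR1 hnε ha hT0 hT1 hρs
  have hc0R : c0 ≤ 35 * s * R := hc0R'
  calc expFinal h (complete n) ≤ _ := hexp
    _ ≤ ε * R := by
      have hmain := hk1
      have hsr : 0 ≤ s * R := (mul_pos hs0 hR0).le
      linarith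

end Vale.Agent.P046.Phase
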