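import Vale.Agent.P046.Phase.Final

/-!
# Limit statements
-/

namespace Vale.Agent.P046.Phase

open Finset Chain Flags Filter Topology

variable {n : ℕ}

lemma abs_expFinal_le (f : St n → ℝ) (E : St n) :
    |expFinal f E| ≤ expFinal (fun F => |f F|) E := by
  rw [abs_le]
  refine ⟨?_, expFinal_mono E fun F _ => le_abs_self _⟩
  have h := expFinal_mono (f := fun F => (-1) * f F) (g := fun F => |f F|) E
    fun F _ => by linarith [neg_abs_le (f F)]
  rw [expFinal_mul] at h
  linarith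

open Classical in
/-- From the first absolute moment to convergence in mean and in probability. -/
theorem limits (h : ∀ ε : ℝ, 0 < ε → ∃ N : ℕ, ∀ n, N ≤ n →
      expFinal (fun G => |(G.card : ℝ) - target n|) (complete n) ≤ ε * Real.rpow n (3 / 2)) :
    Tendsto (fun n : ℕ =>
        expFinal (fun G => (G.card : ℝ)) (complete n) / (n:ℝ) ^ ((3:ℝ) / 2))
      atTop (𝓝 (1 / (2 * Real.sqrt 2))) ∧
    ∀ ε : ℝ, 0 < ε → Tendsto (fun n : ℕ => expFinal (fun G =>
        if ε ≤ |(G.card : ℝ) / (n:ℝ) ^ ((3:ℝ) / 2) - 1 / (2 * Real.sqrt 2)| then 1 else 0)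
          (complete n)) atTop (𝓝 0) := by
  have hT : ∀ n : ℕ, target n = (n:ℝ) ^ ((3:ℝ) / 2) * (1 / (2 * Real.sqrt 2)) := fun n => by
    show (n:ℝ) ^ ((3:ℝ) / 2) / (2 * Real.sqrt 2) = _
    ring
  constructor
  · rw [Metric.tendsto_atTop]
    intro ε hε
    obtain ⟨N, hN⟩ := h (ε / 2) (by linarith)
    refine ⟨max N 1, fun n hn => ?_⟩
    simp only [ge_iff_le, max_le_iff] at hn
    have hR : (0:ℝ) < (n:ℝ) ^ ((3:ℝ) / 2) :=
      Real.rpow_pos_of_pos (by exact_mod_cast hn.2) _
    have hb := hN n hn.1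
    have h1 : |expFinal (fun G => (G.card : ℝ)) (complete n) - target n|
        ≤ ε / 2 * (n:ℝ) ^ ((3:ℝ) / 2) := by
      refine le_trans ?_ hb
      have := abs_expFinal_le (fun G => (G.card : ℝ) + (-1) * target n) (complete n)
      rw [expFinal_add, expFinal_const] at this
      simpa [← sub_eq_add_neg] using this
    rw [Real.dist_eq]
    calc |expFinal (fun G => (G.card : ℝ)) (complete n) / (n:ℝ) ^ ((3:ℝ) / 2)
          - 1 / (2 * Real.sqrt 2)|
        = |expFinal (fun G => (G.card : ℝ)) (complete n) - target n| / (n:ℝ) ^ ((3:ℝ) / 2) := by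
          rw [← abs_of_pos hR, ← abs_div, abs_of_pos hR, hT]
          congr 1
          field_simp
      _ ≤ ε / 2 * (n:ℝ) ^ ((3:ℝ) / 2) / (n:ℝ) ^ ((3:ℝ) / 2) :=
          div_le_div_of_nonneg_right h1 hR.le
      _ < ε := by rw [mul_div_cancel_right₀ _ hR.ne']; linarith
  · intro ε hε
    rw [Metric.tendsto_atTop]
    intro η hη
    obtain ⟨N, hN⟩ := h (ε * η / 2) (by positivity)
    refine ⟨max N 1, fun n hn => ?_⟩
    simp only [ge_iff_le, max_le_iff] at hn
    have hR : (0:ℝ) < (n:ℝ) ^ ((3:ℝ) / 2) :=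
      Real.rpow_pos_of_pos (by exact_mod_cast hn.2) _
    set p := expFinal (fun G =>
      if ε ≤ |(G.card : ℝ) / (n:ℝ) ^ ((3:ℝ) / 2) - 1 / (2 * Real.sqrt 2)| then (1:ℝ) else 0)
      (complete n) with hp
    have hp0 : 0 ≤ p := by
      refine le_of_eq_of_le (expFinal_const 0 (complete n)).symm (expFinal_mono _ fun G _ => ?_)
      split_ifs <;> norm_num
    have hle : ε * (n:ℝ) ^ ((3:ℝ) / 2) * p ≤ ε * η / 2 * (n:ℝ) ^ ((3:ℝ) / 2) := by
      refine le_trans ?_ (hN n hn.1)
      rw [hp, ← expFinal_mul]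
      refine expFinal_mono _ fun G _ => ?_
      split_ifs with hg
      · rw [mul_one, hT]
        have := mul_le_mul_of_nonneg_right hg hR.le
        refine this.trans_eq ?_
        rw [← abs_of_pos hR, ← abs_mul, abs_of_pos hR]
        congr 1
        field_simp
      · simp
    rw [Real.dist_eq, sub_zero, abs_of_nonneg hp0]
    have : p ≤ η / 2 := le_of_mul_le_mul_left
      (hle.trans_eq (by ring : ε * η / 2 * (n:ℝ) ^ ((3:ℝ) / 2) = ε * (n:ℝ) ^ ((3:ℝ) / 2) * (η / 2)))
      (mul_pos hε hR)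
    linarith

end Vale.Agent.P046.Phase
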