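import Vale.Agent.P046.Flags.Defs

/-!
# The envelopes of the two phases
-/

namespace Vale.Agent.P046.Phase

open Flags

/-- The final average codegree. -/
noncomputable def D0 (n : ℕ) : ℝ := Real.exp (Real.rpow (Real.log n) (1 / 5))

/-- The last step of the first phase: the first step with density at most `n^(-9/25)`. -/
noncomputable def iOne (n : ℕ) : ℕ :=
  ⌈(n.choose 2 : ℝ) * (1 - Real.rpow n (-(9 / 25))) / 3⌉₊

/-- The last step of the second phase: the first step with mean codegree at most `D0`. -/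
noncomputable def iTwo (n : ℕ) : ℕ :=
  ⌈(n.choose 2 : ℝ) * (1 - Real.sqrt (D0 n / n)) / 3⌉₊

/-- Bound on triple codegrees. -/
noncomputable def tauE (n i : ℕ) : ℝ :=
  if Real.rpow n (-(41 / 100)) ≤ pp n i then
    Real.rpow n (1 / 1000) * (1 + n * pp n i ^ 3) else 200

/-- Bound on link walks. -/
noncomputable def kapE (n i : ℕ) : ℝ :=
  if Real.rpow n (-(41 / 100)) ≤ pp n i then
    Real.rpow n (1 / 1000) * (1 + n * pp n i ^ 3 + (n:ℝ) ^ 2 * pp n i ^ 5) else 1000000

/-- First phase envelope. -/
noncomputable def envI (n : ℕ) : Env where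
  y _ := Real.rpow n (-(13 / 100))
  z _ := Real.rpow n (-(13 / 50))
  w _ := Real.rpow n (-(3 / 10))
  v _ := Real.rpow n (-(17 / 50))
  tau := tauE n
  kap := kapE n

/-- Tolerance for the tracked counts in the first phase. -/
noncomputable def etaI (n : ℕ) : ℕ → ℝ := fun _ => Real.rpow n (-(1 / 20))

/-- Second phase envelope. -/
noncomputable def envII (n : ℕ) : Env where
  y i := Real.log n ^ 2 / Real.sqrt (mu n i) + Real.rpow n (-(1 / 8))
  z i := Real.log n ^ 4 / mu n i + Real.rpow n (-(4 / 25))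
  w i := Real.log n ^ 10 / Real.rpow (mu n i) (3 / 2)
    + Real.rpow n (-(1 / 500)) / Real.rpow (mu n i) (1001 / 1000)
  v i := Real.log n ^ 8 / Real.rpow (mu n i) (3 / 2)
    + Real.rpow n (-(1 / 300)) / Real.rpow (mu n i) (1001 / 1000)
  tau := tauE n
  kap := kapE n

end Vale.Agent.P046.Phase
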