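import Vale.Agent.P046.Phase.Params
import Vale.Agent.P046.Flags.Spec
import Vale.Agent.P046.Tree.Local

/-!
# The statements of the two phases
-/

namespace Vale.Agent.P046.Phase.Spec

open Finset Chain Flags

/-- The event followed from the complete graph to the end of the second phase. -/
def Safe (n : ℕ) (i : ℕ) (E : St n) : Prop :=
  (i ≤ iOne n → GoodI (envI n) (etaI n) i E) ∧ (iOne n ≤ i → Good (envII n) i E)

/-- The first phase event alone. -/
def SafeOne (n : ℕ) (i : ℕ) (E : St n) : Prop := GoodI (envI n) (etaI n) i E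

/-- While safe, fixed small edge sets are present with probability at most `(3 p) ^ #S`. -/
def Present : Prop := ∃ N : ℕ, ∀ n, N ≤ n → ∀ i, i ≤ iTwo n → ∀ S : St n,
  (S.card : ℝ) ≤ Real.log n ^ 3 →
  killed (Safe n) i (fun _ F => if S ⊆ F then 1 else 0) 0 (complete n) ≤ (3 * pp n i) ^ S.card

open Classical in
/-- While safe, the structural bounds fail with small probability. -/
def Structure : Prop := ∃ N : ℕ, ∀ n, N ≤ n → ∀ i, i ≤ iTwo n →
  killed (Safe n) i (fun k F =>
    if (∀ a b d : Fin n, a ≠ b → a ≠ d → b ≠ d → (T3 F a b d : ℝ) ≤ tauE n k) ∧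
       (∀ a x z : Fin n, a ≠ x → a ≠ z → (W3 F a x z : ℝ) ≤ kapE n k)
    then 0 else 1) 0 (complete n) ≤ 1 / (n:ℝ) ^ 6

open Classical in
/-- The first phase keeps its envelope. -/
def PhaseOne : Prop := ∃ N : ℕ, ∀ n, N ≤ n → ∀ i, i ≤ iOne n →
  killed (Safe n) i (fun k F => if GoodI (envI n) (etaI n) k F then 0 else 1) 0 (complete n)
    ≤ 1 / (n:ℝ) ^ 5

open Classical in
/-- The second phase keeps its envelope. -/
def PhaseTwo : Prop := ∃ N : ℕ, ∀ n, N ≤ n → ∀ i, iOne n ≤ i → i ≤ iTwo n →
  killed (Safe n) i (fun k F => if Good (envII n) k F then 0 else 1) 0 (complete n)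
    ≤ 1 / (n:ℝ) ^ 5

/-- The radius of the balls used in the last phase. -/
noncomputable def radius (n : ℕ) : ℕ := ⌈Real.rpow (Real.log n) (1 / 2)⌉₊

open Classical in
/-- Few edges fail to have a tree neighbourhood at the end of the second phase. -/
def Balls : Prop := ∃ N : ℕ, ∀ n, N ≤ n → ∀ k, k ≤ radius n →
  killed (Safe n) (iTwo n) (fun j F => if Safe n j F then
      (((Finset.univ : Finset {e // e ∈ F}).filter fun e =>
        ¬ Tree.IsTree (fun t => (Finset.univ : Finset {e // e ∈ F}).filter fun f => f.1 ∈ sides t)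
          (triangles F) k e none).card : ℝ) else 0) 0 (complete n)
    ≤ Real.rpow n (-(1 / 20)) * (n:ℝ) ^ 2 * pp n (iTwo n)

end Vale.Agent.P046.Phase.Spec
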