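import Vale.Agent.P046.Phase.Spec

/-!
# Tails of rooted counts from the presence of disjoint copies

If every copy conflicts with at most `D` of the copies present, many copies give many ordered
tuples of non conflicting copies, whose edge sets are disjoint.
-/

set_option linter.unusedSectionVars false

namespace Vale.Agent.P046.Phase

open Finset Chain Flags

variable {n : ℕ} {α : Type*}

/-- Ordered `r`-tuples of pairwise non conflicting members of `W`. -/
def free (conf : α → α → Prop) [DecidableRel conf] (W : Finset α) (r : ℕ) : Finset (Fin r → α) :=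
  (Fintype.piFinset fun _ : Fin r => W).filter fun φ => ∀ i j, i ≠ j → ¬ conf (φ i) (φ j)

variable [DecidableEq α] (conf : α → α → Prop) [DecidableRel conf]

lemma mem_free {W : Finset α} {r : ℕ} {φ : Fin r → α} :
    φ ∈ free conf W r ↔ (∀ i, φ i ∈ W) ∧ ∀ i j, i ≠ j → ¬ conf (φ i) (φ j) := by
  simp [free, Fintype.mem_piFinset]

/-- Many copies give many free tuples. -/
lemma pow_le_card_free (hsymm : ∀ a b, conf a b → conf b a) {W : Finset α} {D m : ℕ}
    (hD : ∀ a ∈ W, (W.filter (conf a)).card ≤ D) :
    ∀ r, D * r + m ≤ W.card → m ^ r ≤ (free conf W r).card := by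
  intro r
  induction r with
  | zero =>
    intro _
    rw [pow_zero]
    exact card_pos.2 ⟨fun i => i.elim0, (mem_free conf).2 ⟨fun i => i.elim0, fun i => i.elim0⟩⟩
  | succ r ih =>
    intro hW
    set F := fun φ : Fin r → α => W \ Finset.univ.biUnion (fun i => W.filter (conf (φ i))) with hF
    have hcard : ∀ φ ∈ free conf W r, m ≤ (F φ).card := by
      intro φ hφ
      have h1 := le_card_sdiff (Finset.univ.biUnion fun i => W.filter (conf (φ i))) W
      have h2 : (Finset.univ.biUnion fun i => W.filter (conf (φ i))).card ≤ D * r := by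
        refine (card_biUnion_le_card_mul _ _ D fun i _ => hD _ ((mem_free conf).1 hφ |>.1 i)).trans
          (le_of_eq ?_)
        simp [mul_comm]
      have h3 : D * r + m ≤ W.card := le_trans (by nlinarith) hW
      simp only [hF]
      omega
    calc m ^ (r + 1) = m ^ r * m := pow_succ m r
      _ ≤ (free conf W r).card * m := Nat.mul_le_mul_right _ (ih (le_trans (by nlinarith) hW))
      _ ≤ ∑ φ ∈ free conf W r, (F φ).card := by
          rw [← smul_eq_mul, ← Finset.sum_const]
          exact sum_le_sum hcard
      _ = ((free conf W r).sigma F).card := (card_sigma _ _).symm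
      _ ≤ (free conf W (r + 1)).card := by
          refine card_le_card_of_injOn (fun p => (Fin.cons p.2 p.1 : Fin (r + 1) → α)) ?_ ?_
          · intro p hp
            simp only [coe_sigma, Set.mem_sigma_iff, mem_coe] at hp
            obtain ⟨h1, h2⟩ := hp
            rw [mem_free] at h1
            simp only [hF, mem_sdiff, mem_biUnion, mem_univ, true_and, mem_filter, not_exists,
              not_and] at h2
            rw [mem_coe, mem_free]
            refine ⟨fun i => ?_, fun i j hij => ?_⟩
            · refine Fin.cases ?_ (fun i => ?_) i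
              · simpa using h2.1
              · simpa using h1.1 i
            · revert hij
              refine Fin.cases ?_ (fun i => ?_) i <;> refine Fin.cases ?_ (fun j => ?_) j <;>
                intro hij <;> simp only [Fin.cons_zero, Fin.cons_succ]
              · exact absurd rfl hij
              · exact fun hc => h2.2 j h2.1 (hsymm _ _ hc)
              · exact h2.2 i h2.1
              · exact h1.2 i j fun h => hij (congrArg Fin.succ h)
          · intro p _ p' _ h
            obtain ⟨h1, h2⟩ := Fin.cons_inj.1 h
            exact Sigma.ext h2 (heq_of_eq h1)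

open Classical in
/-- The tail of one rooted count. -/
theorem killed_copies_le (hsymm : ∀ a b, conf a b → conf b a) (G : ℕ → St n → Prop) (i : ℕ)
    (E₀ : St n) (U : Finset α) (img : α → St n) {e L : ℕ} {q : ℝ}
    (he : ∀ a ∈ U, (img a).card = e)
    (hdis : ∀ a ∈ U, ∀ b ∈ U, ¬ conf a b → Disjoint (img a) (img b))
    (hP : ∀ S : St n, S.card ≤ L →
      killed G i (fun _ F => if S ⊆ F then 1 else 0) 0 E₀ ≤ q ^ S.card)
    (hq0 : 0 ≤ q) {r D m : ℕ} (hL : e * r ≤ L) (Ev : St n → Prop)
    (hEv : ∀ F, F ⊆ E₀ → Ev F → D * r + m ≤ (U.filter fun a => img a ⊆ F).card ∧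
      ∀ a ∈ U, img a ⊆ F → ((U.filter fun a => img a ⊆ F).filter (conf a)).card ≤ D) :
    (m : ℝ) ^ r * killed G i (fun _ F => if Ev F then 1 else 0) 0 E₀ ≤
      ((U.card : ℝ) * q ^ e) ^ r := by
  rw [← killed_mul]
  calc killed G i (fun _ F => (m : ℝ) ^ r * if Ev F then 1 else 0) 0 E₀
      ≤ killed G i (fun _ F => ∑ φ ∈ free conf U r,
          if (Finset.univ.biUnion fun k => img (φ k)) ⊆ F then (1 : ℝ) else 0) 0 E₀ := by
        refine killed_mono i 0 E₀ fun F hF => ?_
        split_ifs with hE
        · obtain ⟨h1, h2⟩ := hEv F hF hE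
          rw [mul_one, sum_boole]
          have h3 := pow_le_card_free conf hsymm (W := U.filter fun a => img a ⊆ F)
            (fun a ha => h2 a (mem_filter.1 ha).1 (mem_filter.1 ha).2) r h1
          refine le_trans (by exact_mod_cast h3) (Nat.cast_le.2 (card_le_card fun φ hφ => ?_))
          rw [mem_free] at hφ
          rw [mem_filter, mem_free]
          refine ⟨⟨fun k => (mem_filter.1 (hφ.1 k)).1, hφ.2⟩, ?_⟩
          exact biUnion_subset.2 fun k _ => (mem_filter.1 (hφ.1 k)).2
        · rw [mul_zero]
          exact sum_nonneg fun φ _ => by split_ifs <;> norm_num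
    _ = ∑ φ ∈ free conf U r, killed G i (fun _ F =>
          if (Finset.univ.biUnion fun k => img (φ k)) ⊆ F then (1 : ℝ) else 0) 0 E₀ := by
        rw [killed_sum]
    _ ≤ ∑ φ ∈ free conf U r, q ^ (e * r) := by
        refine sum_le_sum fun φ hφ => ?_
        rw [mem_free] at hφ
        have hc : (Finset.univ.biUnion fun k => img (φ k)).card = e * r := by
          rw [card_biUnion fun k _ l _ hkl => hdis _ (hφ.1 k) _ (hφ.1 l) (hφ.2 k l hkl),
            sum_congr rfl fun k _ => he _ (hφ.1 k)]
          simp [mul_comm]
        rw [← hc]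
        exact hP _ (hc.trans_le hL)
    _ ≤ ((U.card : ℝ) * q ^ e) ^ r := by
        rw [sum_const, nsmul_eq_mul, mul_pow, ← pow_mul]
        refine mul_le_mul_of_nonneg_right ?_ (pow_nonneg hq0 _)
        have : (free conf U r).card ≤ U.card ^ r := by
          refine (card_filter_le _ _).trans ?_
          simp
        exact_mod_cast this

end Vale.Agent.P046.Phase
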