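import Vale.Agent.P046.Phase.TwoMargins

/-!
# The margins for the quadratic variations and the jumps of `w` and `v`
-/

namespace Vale.Agent.P046.Phase.Two

open Filter

lemma ev_noise_w (C : ℝ) (hC : 0 ≤ C) : ∀ᶠ n : ℕ in atTop, ∀ t, Rng n t →
    C * (Tv n t * (1 / t) + Kv n t + Yv n t ^ 2 * Tv n t + Zv n t ^ 2 * (1 / t) + Iv n t) *
        Real.log n ^ 3 ≤ Wv n t ^ 2 ∧
    C * (Tv n t + Kv n t + Zv n t * (1 / t)) * Real.log n ^ 2 ≤ Wv n t := by
  filter_upwards [gL 3 20 0 (-3) (by norm_num) (10000000 * C),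
    gN 3 0 (-(179 / 1000)) (-(1 / 250)) (-2) (-(1001 / 500)) (by norm_num) (by norm_num) (20 * C),
    gN 3 0 (-(589 / 1000)) (-(1 / 250)) (-1) (-(1001 / 500)) (by norm_num) (by norm_num) (20 * C),
    gN 3 0 (-(589 / 1000)) (-(1 / 250)) 0 (-(1001 / 500)) (by norm_num) (by norm_num) (40 * C),
    gL 7 20 0 (-3) (by norm_num) (4000 * C),
    gN 7 0 (-(179 / 1000)) (-(1 / 250)) (-2) (-(1001 / 500)) (by norm_num) (by norm_num) (20 * C),
    gN 7 0 (-(589 / 1000)) (-(1 / 250)) (-1) (-(1001 / 500)) (by norm_num) (by norm_num) (20 * C),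
    gN 3 0 (-(1 / 4)) (-(1 / 250)) (-2) (-(1001 / 500)) (by norm_num) (by norm_num) (4000 * C),
    gN 3 0 (-(429 / 1000)) (-(1 / 250)) (-1) (-(1001 / 500)) (by norm_num) (by norm_num) (20 * C),
    gN 3 0 (-(839 / 1000)) (-(1 / 250)) 0 (-(1001 / 500)) (by norm_num) (by norm_num) (20 * C),
    gL 11 20 0 (-3) (by norm_num) (20 * C),
    gN 3 0 (-(8 / 25)) (-(1 / 250)) (-1) (-(1001 / 500)) (by norm_num) (by norm_num) (20 * C),
    gN 3 0 (-1) (-(1 / 250)) 0 (-(1001 / 500)) (by norm_num) (by norm_num) (10 * C),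
    gT 2 10 (-2) (-(3 / 2)) (by norm_num) (2000 * C),
    gN 2 0 (-(179 / 1000)) (-(1 / 500)) (-1) (-(1001 / 1000)) (by norm_num) (by norm_num) (20 * C),
    gN 2 0 (-(589 / 1000)) (-(1 / 500)) 0 (-(1001 / 1000)) (by norm_num) (by norm_num) (40 * C),
    gT 2 10 (-3) (-(3 / 2)) (by norm_num) (10000000 * C),
    gN 2 0 (-(179 / 1000)) (-(1 / 500)) (-2) (-(1001 / 1000)) (by norm_num) (by norm_num) (20 * C),
    gT 6 10 (-2) (-(3 / 2)) (by norm_num) (10 * C),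
    gN 2 0 (-(4 / 25)) (-(1 / 500)) (-1) (-(1001 / 1000)) (by norm_num) (by norm_num) (10 * C)]
    with n a1 a2 a3 a4 a5 a6 a7 a8 a9 a10 a11 a12 a13 b1 b2 b3 b4 b5 b6 b7
  intro t ht
  have ht0 : (0 : ℝ) < t := by linarith [ht.2.2.1]
  obtain ⟨hy2, hz2, hY, hZ, hW, hV, hT, hK⟩ := sq_bounds ht
  have p := fun k a b => tm_nonneg (n := n) ht0.le k a b
  have m := fun k k' a a' b b' => tm_mul (n := n) ht.1 ht0 k k' a a' b b'
  have hL : 0 ≤ Real.log n := by linarith [ht.2.1]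
  have hinv : 0 ≤ 1 / t := by positivity
  have l := fun j k a b => log_mul_tm n t j k a b
  have eW : Wv n t ^ 2 = tm n t 20 0 (-3) +
      2 * tm n t 10 (-(1 / 500)) (-(2501 / 1000)) + tm n t 0 (-(1 / 250)) (-(1001 / 500)) := by
    simp only [Wv, sq, add_mul, mul_add, m]; norm_num; ring
  have eZ : Zv n t * (1 / t) = tm n t 4 0 (-2) + tm n t 0 (-(4 / 25)) (-1) := by
    rw [tm_inv (n := n) ht0]; simp only [Zv, add_mul, m]; norm_num
  have eT : Tv n t * (1 / t) = 200 * tm n t 0 0 (-3) + tm n t 0 (-(179 / 1000)) (-2) +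
      tm n t 0 (-(589 / 1000)) (-1) := by
    rw [tm_inv (n := n) ht0]; simp only [Tv, add_mul, mul_assoc, m]; norm_num
  have hZ2 : Zv n t ^ 2 * (1 / t) ≤ 2 * tm n t 8 0 (-3) + 2 * tm n t 0 (-(8 / 25)) (-1) := by
    refine (mul_le_mul_of_nonneg_right hz2 hinv).trans (le_of_eq ?_)
    rw [tm_inv (n := n) ht0]; simp only [add_mul, mul_assoc, m]; norm_num
  have hYT : Yv n t ^ 2 * Tv n t ≤ 400 * tm n t 4 0 (-3) +
      2 * tm n t 4 (-(179 / 1000)) (-2) + 2 * tm n t 4 (-(589 / 1000)) (-1) +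
      400 * tm n t 0 (-(1 / 4)) (-2) + 2 * tm n t 0 (-(429 / 1000)) (-1) +
      2 * tm n t 0 (-(839 / 1000)) 0 := by
    refine (mul_le_mul_of_nonneg_right hy2 hT).trans (le_of_eq ?_)
    simp only [Tv, mul_add, add_mul, mul_assoc, mul_left_comm (tm n t _ _ _) (200 : ℝ), m]
    norm_num
    ring
  have hCL3 : 0 ≤ C * Real.log n ^ 3 := mul_nonneg hC (pow_nonneg hL 3)
  have := mul_le_mul_of_nonneg_left hYT hCL3
  have := mul_le_mul_of_nonneg_left hZ2 hCL3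
  have := a1 t ht; have := a2 t ht; have := a3 t ht; have := a4 t ht; have := a5 t ht
  have := a6 t ht; have := a7 t ht; have := a8 t ht; have := a9 t ht; have := a10 t ht
  have := a11 t ht; have := a12 t ht; have := a13 t ht; have := b1 t ht; have := b2 t ht
  have := b3 t ht; have := b4 t ht; have := b5 t ht; have := b6 t ht; have := b7 t ht
  have := p 20 0 (-3); have := p 10 (-(1 / 500)) (-(2501 / 1000))
  have := p 0 (-(1 / 250)) (-(1001 / 500))
  have := p 10 0 (-(3 / 2)); have := p 0 (-(1 / 500)) (-(1001 / 1000))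
  refine ⟨?_, ?_⟩
  · simp only [eW, eT, Kv, Iv, mul_add, mul_assoc,
      mul_left_comm (Real.log (n : ℝ) ^ 3), mul_comm _ (Real.log (n : ℝ) ^ 3), l,
      Nat.reduceAdd] at *
    linarith
  · simp only [eZ, Tv, Kv, Wv, mul_add, mul_assoc,
      mul_left_comm (Real.log (n : ℝ) ^ 2), mul_comm _ (Real.log (n : ℝ) ^ 2), l,
      Nat.reduceAdd] at *
    linarith

lemma ev_noise_v (C : ℝ) (hC : 0 ≤ C) : ∀ᶠ n : ℕ in atTop, ∀ t, Rng n t →
    C * (Yv n t ^ 2 * Tv n t + Tv n t * (1 / t) ^ 2 + Yv n t ^ 4 * (1 / t) + Iv n t) *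
        Real.log n ^ 3 ≤ Vv n t ^ 2 ∧
    C * (Yv n t * Tv n t + Tv n t * (1 / t) + Yv n t ^ 2 * (1 / t) + Iv n t) *
        Real.log n ^ 2 ≤ Vv n t := by
  filter_upwards [ev_small, gL 7 16 0 (-3) (by norm_num) (10000 * C),
    gN 7 0 (-(179 / 1000)) (-(1 / 150)) (-2) (-(1001 / 500)) (by norm_num) (by norm_num) (20 * C),
    gN 7 0 (-(589 / 1000)) (-(1 / 150)) (-1) (-(1001 / 500)) (by norm_num) (by norm_num) (20 * C),
    gN 3 0 (-(1 / 4)) (-(1 / 150)) (-2) (-(1001 / 500)) (by norm_num) (by norm_num) (4000 * C),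
    gN 3 0 (-(429 / 1000)) (-(1 / 150)) (-1) (-(1001 / 500)) (by norm_num) (by norm_num) (20 * C),
    gN 3 0 (-(839 / 1000)) (-(1 / 150)) 0 (-(1001 / 500)) (by norm_num) (by norm_num) (20 * C),
    gT 3 16 (-4) (-3) (by norm_num) (10000 * C),
    gN 3 0 (-(179 / 1000)) (-(1 / 150)) (-3) (-(1001 / 500)) (by norm_num) (by norm_num) (20 * C),
    gN 3 0 (-(589 / 1000)) (-(1 / 150)) (-2) (-(1001 / 500)) (by norm_num) (by norm_num) (20 * C),
    gL 11 16 0 (-3) (by norm_num) (100 * C),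
    gN 3 0 (-(1 / 2)) (-(1 / 150)) (-1) (-(1001 / 500)) (by norm_num) (by norm_num) (100 * C),
    gN 3 0 (-1) (-(1 / 150)) 0 (-(1001 / 500)) (by norm_num) (by norm_num) (10 * C),
    gT 2 8 (-2) (-(3 / 2)) (by norm_num) (8000 * C),
    gN 2 0 (-(179 / 1000)) (-(1 / 300)) (-1) (-(1001 / 1000)) (by norm_num) (by norm_num) (20 * C),
    gN 2 0 (-(589 / 1000)) (-(1 / 300)) 0 (-(1001 / 1000)) (by norm_num) (by norm_num) (20 * C),
    gT 6 8 (-2) (-(3 / 2)) (by norm_num) (20 * C),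
    gN 2 0 (-(1 / 4)) (-(1 / 300)) (-1) (-(1001 / 1000)) (by norm_num) (by norm_num) (20 * C),
    gN 2 0 (-1) (-(1 / 300)) 0 (-(1001 / 1000)) (by norm_num) (by norm_num) (10 * C)]
    with n hs a1 a2 a3 a4 a5 a6 a7 a8 a9 a10 a11 a12 b1 b2 b3 b4 b5 b6
  intro t ht
  have ht0 : (0 : ℝ) < t := by linarith [ht.2.2.1]
  obtain ⟨hy2, hz2, hY, hZ, hW, hV, hT, hK⟩ := sq_bounds ht
  have hY1 : Yv n t ≤ 1 := le_trans (hs t ht).1 (by norm_num)
  have p := fun k a b => tm_nonneg (n := n) ht0.le k a b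
  have m := fun k k' a a' b b' => tm_mul (n := n) ht.1 ht0 k k' a a' b b'
  have hL : 0 ≤ Real.log n := by linarith [ht.2.1]
  have hinv : 0 ≤ 1 / t := by positivity
  have hinv1 : 1 / t ≤ 1 := by rw [div_le_one ht0]; exact ht.2.2.1
  have l := fun j k a b => log_mul_tm n t j k a b
  have eV : Vv n t ^ 2 = tm n t 16 0 (-3) +
      2 * tm n t 8 (-(1 / 300)) (-(2501 / 1000)) + tm n t 0 (-(1 / 150)) (-(1001 / 500)) := by
    simp only [Vv, sq, add_mul, mul_add, m]; norm_num; ring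
  have eT : Tv n t * (1 / t) ^ 2 = 200 * tm n t 0 0 (-4) + tm n t 0 (-(179 / 1000)) (-3) +
      tm n t 0 (-(589 / 1000)) (-2) := by
    rw [tm_inv (n := n) ht0]; simp only [Tv, sq, add_mul, mul_assoc, m]; norm_num
  have hYT : Yv n t ^ 2 * Tv n t ≤ 400 * tm n t 4 0 (-3) +
      2 * tm n t 4 (-(179 / 1000)) (-2) + 2 * tm n t 4 (-(589 / 1000)) (-1) +
      400 * tm n t 0 (-(1 / 4)) (-2) + 2 * tm n t 0 (-(429 / 1000)) (-1) +
      2 * tm n t 0 (-(839 / 1000)) 0 := by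
    refine (mul_le_mul_of_nonneg_right hy2 hT).trans (le_of_eq ?_)
    simp only [Tv, mul_add, add_mul, mul_assoc, mul_left_comm (tm n t _ _ _) (200 : ℝ), m]
    norm_num
    ring
  have hY4 : Yv n t ^ 4 * (1 / t) ≤ 8 * tm n t 8 0 (-3) + 8 * tm n t 0 (-(1 / 2)) (-1) := by
    refine (mul_le_mul_of_nonneg_right (add_pow_le (p _ _ _) (p _ _ _) 4) hinv).trans (le_of_eq ?_)
    rw [tm_inv (n := n) ht0]
    simp only [pow_succ, pow_zero, one_mul, mul_add, add_mul, mul_assoc, m]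
    norm_num
    ring
  have hYT1 : Yv n t * Tv n t + Tv n t * (1 / t) ≤ 2 * Tv n t := by
    have := mul_le_mul_of_nonneg_right hY1 hT
    have := mul_le_mul_of_nonneg_left hinv1 hT
    linarith
  have hY2 : Yv n t ^ 2 * (1 / t) ≤ 2 * tm n t 4 0 (-2) + 2 * tm n t 0 (-(1 / 4)) (-1) := by
    refine (mul_le_mul_of_nonneg_right hy2 hinv).trans (le_of_eq ?_)
    rw [tm_inv (n := n) ht0]; simp only [add_mul, mul_assoc, m]; norm_num
  have hCL3 : 0 ≤ C * Real.log n ^ 3 := mul_nonneg hC (pow_nonneg hL 3)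
  have hCL2 : 0 ≤ C * Real.log n ^ 2 := mul_nonneg hC (pow_nonneg hL 2)
  have := mul_le_mul_of_nonneg_left hYT hCL3
  have := mul_le_mul_of_nonneg_left hY4 hCL3
  have := mul_le_mul_of_nonneg_left hYT1 hCL2
  have := mul_le_mul_of_nonneg_left hY2 hCL2
  have := a1 t ht; have := a2 t ht; have := a3 t ht; have := a4 t ht; have := a5 t ht
  have := a6 t ht; have := a7 t ht; have := a8 t ht; have := a9 t ht; have := a10 t ht
  have := a11 t ht; have := a12 t ht; have := b1 t ht; have := b2 t ht; have := b3 t ht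
  have := b4 t ht; have := b5 t ht; have := b6 t ht
  have := p 16 0 (-3); have := p 8 (-(1 / 300)) (-(2501 / 1000))
  have := p 0 (-(1 / 150)) (-(1001 / 500))
  have := p 8 0 (-(3 / 2)); have := p 0 (-(1 / 300)) (-(1001 / 1000))
  refine ⟨?_, ?_⟩
  · simp only [eV, eT, Iv, mul_add, mul_assoc,
      mul_left_comm (Real.log (n : ℝ) ^ 3), mul_comm _ (Real.log (n : ℝ) ^ 3), l,
      Nat.reduceAdd] at *
    linarith
  · simp only [Vv, Tv, Iv, mul_add, mul_assoc,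
      mul_left_comm (Real.log (n : ℝ) ^ 2), mul_comm _ (Real.log (n : ℝ) ^ 2), l,
      Nat.reduceAdd] at *
    linarith

end Vale.Agent.P046.Phase.Two
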