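import Vale.Agent.P046.Phase.Params

/-!
# The time scale of the second phase
-/

namespace Vale.Agent.P046.Phase.Two

open Finset Flags

variable {n b j l : ℕ}

lemma mm_succ (n b : ℕ) : mm n (b + 1) = mm n b - 3 := by
  simp only [mm]; push_cast; ring

lemma mm_mono {n a b : ℕ} (h : a ≤ b) : mm n b ≤ mm n a := by
  simp only [mm]
  have : (a : ℝ) ≤ b := by exact_mod_cast h
  linarith

lemma mm_pos (h : 3 * b < n.choose 2) : 0 < mm n b := by
  simp only [mm]
  have : (3 : ℝ) * b < (n.choose 2 : ℕ) := by exact_mod_cast h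
  linarith

lemma choose_pos (h : 3 * b < n.choose 2) : (0 : ℝ) < (n.choose 2 : ℕ) := by
  exact_mod_cast (Nat.lt_of_le_of_lt (Nat.zero_le _) h)

lemma n_pos (h : 3 * b < n.choose 2) : (0 : ℝ) < n := by
  rcases Nat.eq_zero_or_pos n with rfl | hn
  · simp at h
  · exact_mod_cast hn

lemma pp_pos (h : 3 * b < n.choose 2) : 0 < pp n b := div_pos (mm_pos h) (choose_pos h)

lemma mu_pos (h : 3 * b < n.choose 2) : 0 < mu n b :=
  mul_pos (n_pos h) (pow_pos (pp_pos h) 2)

lemma mu_anti {a b : ℕ} (hab : a ≤ b) (h : 3 * b < n.choose 2) : mu n b ≤ mu n a := by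
  refine mul_le_mul_of_nonneg_left (pow_le_pow_left₀ (pp_pos h).le ?_ 2) (n_pos h).le
  exact div_le_div_of_nonneg_right (mm_mono hab) (choose_pos h).le

/-- One step of the logarithmic clock. -/
lemma step_log (h : 3 * (b + 1) < n.choose 2) :
    3 / mm n b ≤ Real.log (mm n b) - Real.log (mm n (b + 1)) := by
  have h0 := mm_pos (n := n) (b := b) (by omega)
  have h1 := mm_pos h
  have h2 := Real.log_le_sub_one_of_pos (div_pos h1 h0)
  rw [Real.log_div h1.ne' h0.ne'] at h2
  have e : mm n (b + 1) / mm n b - 1 = -(3 / mm n b) := by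
    rw [mm_succ]
    field_simp
    ring
  linarith

/-- The total logarithmic time is at most `2 log n`. -/
lemma sum_time (h : 3 * (j + l) < n.choose 2) :
    ∑ b ∈ range l, 3 / mm n (j + b) ≤ 2 * Real.log n := by
  have h1 : ∑ b ∈ range l, 3 / mm n (j + b) ≤
      Real.log (mm n j) - Real.log (mm n (j + l)) := by
    induction l with
    | zero => simp
    | succ l ih =>
      rw [sum_range_succ]
      have h1 := ih (by omega)
      have h2 := step_log (b := j + l) (n := n) (by omega)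
      rw [show j + (l + 1) = j + l + 1 by omega]
      linarith
  have hm : (1 : ℝ) ≤ mm n (j + l) := by
    simp only [mm]
    have : ((3 * (j + l) + 1 : ℕ) : ℝ) ≤ (n.choose 2 : ℕ) := by exact_mod_cast h
    push_cast at this ⊢
    linarith
  have h2 : Real.log (mm n j) ≤ Real.log ((n : ℝ) ^ 2) := by
    refine Real.log_le_log (mm_pos (by omega)) ?_
    simp only [mm]
    have : ((n.choose 2 : ℕ) : ℝ) ≤ (n : ℝ) ^ 2 := by exact_mod_cast Nat.choose_le_pow n 2
    have : (0 : ℝ) ≤ 3 * (j : ℝ) := by positivity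
    linarith
  have h3 := Real.log_nonneg hm
  rw [Real.log_pow] at h2
  push_cast at h2
  linarith

/-- One step of a negative power of the mean codegree. -/
lemma step_rpow {s : ℝ} (hs : 0 ≤ s) (h : 3 * (b + 1) < n.choose 2) :
    2 * s * (3 / mm n b * mu n b ^ (-s)) ≤ mu n (b + 1) ^ (-s) - mu n b ^ (-s) := by
  have h0 := mm_pos (n := n) (b := b) (by omega)
  have h1 := mm_pos h
  have hN := choose_pos h
  have hn := n_pos h
  set r := mm n (b + 1) / mm n b with hr
  have hr0 : 0 < r := div_pos h1 h0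
  have e : mu n (b + 1) = mu n b * r ^ 2 := by
    simp only [mu, pp, hr]
    field_simp
  have e1 : r - 1 = -(3 / mm n b) := by
    rw [hr, mm_succ]
    field_simp
    ring
  have hl := Real.log_le_sub_one_of_pos hr0
  rw [e1] at hl
  rw [e, Real.mul_rpow (mu_pos (by omega)).le (sq_nonneg r)]
  have key : 1 + 2 * s * (3 / mm n b) ≤ (r ^ 2) ^ (-s) := by
    rw [Real.rpow_def_of_pos (pow_pos hr0 2), Real.log_pow]
    push_cast
    refine le_trans ?_ ((Real.add_one_le_exp (2 * s * (3 / mm n b))).trans (Real.exp_le_exp.2 ?_))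
    · linarith
    nlinarith [mul_le_mul_of_nonneg_left hl hs]
  have hp : 0 ≤ mu n b ^ (-s) := Real.rpow_nonneg (mu_pos (by omega)).le _
  nlinarith [mul_le_mul_of_nonneg_left key hp]

/-- Integral of a negative power of the mean codegree. -/
lemma sum_rpow {s : ℝ} (hs : 0 < s) (h : 3 * (j + l) < n.choose 2) :
    ∑ b ∈ range l, 3 / mm n (j + b) * mu n (j + b) ^ (-s) ≤
      mu n (j + l) ^ (-s) / (2 * s) := by
  rw [le_div_iff₀ (by positivity), mul_comm, mul_sum]
  have hp : 0 ≤ mu n j ^ (-s) := Real.rpow_nonneg (mu_pos (by omega)).le _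
  suffices ∑ b ∈ range l, 2 * s * (3 / mm n (j + b) * mu n (j + b) ^ (-s)) ≤
      mu n (j + l) ^ (-s) - mu n j ^ (-s) by linarith
  clear hp
  induction l with
  | zero => simp
  | succ l ih =>
    rw [sum_range_succ]
    have h1 := ih (by omega)
    have h2 := step_rpow (n := n) (b := j + l) hs.le (by omega)
    rw [show j + (l + 1) = j + l + 1 by omega]
    linarith

/-- At the end of the first phase the density is at most `n ^ (-9/25)`. -/
lemma pp_iOne_le (hb : iOne n ≤ b) (h : 3 * b < n.choose 2) :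
    pp n b ≤ (n : ℝ) ^ (-(9 / 25) : ℝ) := by
  have hN := choose_pos h
  have h1 : (n.choose 2 : ℝ) * (1 - (n : ℝ) ^ (-(9 / 25) : ℝ)) / 3 ≤ b :=
    (Nat.le_ceil _).trans (by exact_mod_cast hb)
  rw [pp, div_le_iff₀ hN, mm]
  linarith

lemma mu_le_top (hb : iOne n ≤ b) (h : 3 * b < n.choose 2) :
    mu n b ≤ (n : ℝ) ^ (7 / 25 : ℝ) := by
  have hn := n_pos h
  calc mu n b ≤ n * ((n : ℝ) ^ (-(9 / 25) : ℝ)) ^ 2 :=
        mul_le_mul_of_nonneg_left (pow_le_pow_left₀ (pp_pos h).le (pp_iOne_le hb h) 2) hn.le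
    _ = (n : ℝ) ^ (7 / 25 : ℝ) := by
        rw [← Real.rpow_natCast, ← Real.rpow_mul hn.le]
        nth_rewrite 1 [← Real.rpow_one (n : ℝ)]
        rw [← Real.rpow_add hn]
        norm_num

end Vale.Agent.P046.Phase.Two
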