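import Vale.Agent.P046.Chain

/-!
Freedman bound with the parameter chosen, and congruences for the killed chain.
-/

namespace Vale.Agent.P046.Chain

open Finset

variable {n : ℕ} {Good : ℕ → St n → Prop}

lemma killed_mono_inv {f g : ℕ → St n → ℝ} (Inv : ℕ → St n → Prop)
    (hInv : ∀ i E F, Inv i E → Good i E → Succ E F → Inv (i + 1) F) (k j : ℕ) (E : St n)
    (hE : Inv j E) (h : ∀ F, Inv (j + k) F → f (j + k) F ≤ g (j + k) F) :
    killed Good k f j E ≤ killed Good k g j E := by
  induction k generalizing j E with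
  | zero => exact h E hE
  | succ k ih =>
    by_cases hg : Good j E
    · rw [killed_succ_of_good hg, killed_succ_of_good hg]
      refine avg_mono fun F hF => ih (j + 1) F (hInv j E F hE hg hF) fun G hG => ?_
      have e : j + 1 + k = j + (k + 1) := by ring
      rw [e] at hG ⊢
      exact h G hG
    · rw [killed_succ_of_not_good hg, killed_succ_of_not_good hg]

lemma killed_congr_good {Good' : ℕ → St n → Prop} (f : ℕ → St n → ℝ) (k j : ℕ) (E : St n)
    (h : ∀ i F, j ≤ i → i < j + k → (Good i F ↔ Good' i F)) :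
    killed Good k f j E = killed Good' k f j E := by
  induction k generalizing j E with
  | zero => rfl
  | succ k ih =>
    by_cases hg : Good j E
    · rw [killed_succ_of_good hg, killed_succ_of_good ((h j E le_rfl (by omega)).1 hg)]
      exact avg_congr fun F _ => ih (j + 1) F fun i G h1 h2 => h i G (by omega) (by omega)
    · rw [killed_succ_of_not_good hg,
        killed_succ_of_not_good fun h' => hg ((h j E le_rfl (by omega)).2 h')]

lemma killed_one_le (k j : ℕ) (E : St n) : killed Good k (fun _ _ => 1) j E ≤ 1 :=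
  (killed_mono_good (Good' := fun _ _ => True) (fun _ _ _ => trivial) (fun _ _ => zero_le_one)
    k j E).trans_eq (expect_const 1 k j E)

open Classical in
/-- Freedman-type tail with the parameter chosen. -/
theorem killed_tail_opt (Inv : ℕ → St n → Prop)
    (hInv : ∀ i E F, Inv i E → Good i E → Succ E F → Inv (i + 1) F)
    (A : St n → Prop) (hA : ∀ E F, Succ E F → A F → A E) (z : ℕ → St n → ℝ)
    (a v : ℕ → ℝ) {R V : ℝ} (hR0 : 0 < R) (hV0 : 0 < V)
    (hR : ∀ i E, Inv i E → Good i E → A E → ∀ F, Succ E F → A F →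
      |z (i + 1) F - z i E| ≤ R)
    (ha : ∀ i E, Inv i E → Good i E → A E →
      avg (fun F => if A F then z (i + 1) F - z i E else 0) E ≤ a i)
    (hv : ∀ i E, Inv i E → Good i E → A E →
      avg (fun F => if A F then (z (i + 1) F - z i E) ^ 2 else 0) E ≤ v i)
    (k j : ℕ) (E : St n) (hE : Inv j E) (hV : ∑ b ∈ range k, v (j + b) ≤ V)
    {θ : ℝ} (hθ : 0 ≤ θ) {T : ℝ} (hT : z j E + (∑ b ∈ range k, a (j + b)) + θ ≤ T) :
    killed Good k (fun i F => if A F ∧ T ≤ z i F then 1 else 0) j E ≤
      Real.exp (-min (θ ^ 2 / (4 * V)) (θ / (2 * R))) := by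
  set l := min (θ / (2 * V)) (1 / R) with hl
  have hl0 : 0 ≤ l := le_min (by positivity) (by positivity)
  have hlR : l * R ≤ 1 := by
    calc l * R ≤ 1 / R * R := mul_le_mul_of_nonneg_right (min_le_right _ _) hR0.le
      _ = 1 := by field_simp
  have h := killed_tail Inv hInv A hA z a v (fun _ => R) l hl0 (fun _ => hlR) hR ha hv k j E hE θ
  refine (le_trans (killed_mono k j E fun F _ => ?_) h).trans (Real.exp_le_exp.2 ?_)
  · by_cases hc : A F ∧ T ≤ z (j + k) F
    · rw [if_pos hc, if_pos ⟨hc.1, hT.trans hc.2⟩]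
    · rw [if_neg hc]; split_ifs <;> norm_num
  · have hlV : l ^ 2 * ∑ b ∈ range k, v (j + b) ≤ l ^ 2 * V :=
      mul_le_mul_of_nonneg_left hV (sq_nonneg l)
    have key : min (θ ^ 2 / (4 * V)) (θ / (2 * R)) ≤ l * θ - l ^ 2 * V := by
      rcases le_total (θ / (2 * V)) (1 / R) with hc | hc
      · rw [hl, min_eq_left hc]
        refine (min_le_left _ _).trans (le_of_eq ?_)
        field_simp
        ring
      · rw [hl, min_eq_right hc]
        refine (min_le_right _ _).trans ?_
        have h2 : 2 * V ≤ θ * R := by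
          rw [div_le_div_iff₀ hR0 (by positivity)] at hc
          linarith
        have e1 : θ / (2 * R) = (θ * R / 2) / R ^ 2 := by field_simp
        have e2 : 1 / R * θ - (1 / R) ^ 2 * V = (θ * R - V) / R ^ 2 := by field_simp
        rw [e1, e2]
        exact div_le_div_of_nonneg_right (by linarith) (by positivity)
    linarith

open Classical in
/-- Two-sided form. -/
theorem killed_tail_abs (Inv : ℕ → St n → Prop)
    (hInv : ∀ i E F, Inv i E → Good i E → Succ E F → Inv (i + 1) F)
    (A : St n → Prop) (hA : ∀ E F, Succ E F → A F → A E) (z : ℕ → St n → ℝ)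
    (a v : ℕ → ℝ) {R V : ℝ} (hR0 : 0 < R) (hV0 : 0 < V)
    (hR : ∀ i E, Inv i E → Good i E → A E → ∀ F, Succ E F → A F →
      |z (i + 1) F - z i E| ≤ R)
    (ha : ∀ i E, Inv i E → Good i E → A E →
      |avg (fun F => if A F then z (i + 1) F - z i E else 0) E| ≤ a i)
    (hv : ∀ i E, Inv i E → Good i E → A E →
      avg (fun F => if A F then (z (i + 1) F - z i E) ^ 2 else 0) E ≤ v i)
    (k j : ℕ) (E : St n) (hE : Inv j E) (hV : ∑ b ∈ range k, v (j + b) ≤ V)
    {θ : ℝ} (hθ : 0 ≤ θ) {T : ℝ} (hT : |z j E| + (∑ b ∈ range k, a (j + b)) + θ ≤ T) :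
    killed Good k (fun i F => if A F ∧ T ≤ |z i F| then 1 else 0) j E ≤
      2 * Real.exp (-min (θ ^ 2 / (4 * V)) (θ / (2 * R))) := by
  have hp := killed_tail_opt Inv hInv A hA z a v hR0 hV0 hR
    (fun i F hi hg hA' => (abs_le.1 (ha i F hi hg hA')).2) hv k j E hE hV hθ
    (T := T) (by linarith [le_abs_self (z j E)])
  have hm := killed_tail_opt Inv hInv A hA (fun i F => -z i F) a v hR0 hV0
    (fun i F hi hg hA' G hG hAG => by
      rw [show -z (i + 1) G - -z i F = -(z (i + 1) G - z i F) by ring, abs_neg]
      exact hR i F hi hg hA' G hG hAG)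
    (fun i F hi hg hA' => by
      have h := (abs_le.1 (ha i F hi hg hA')).1
      have e : avg (fun G => if A G then -z (i + 1) G - -z i F else 0) F =
          -avg (fun G => if A G then z (i + 1) G - z i F else 0) F := by
        rw [show -avg (fun G => if A G then z (i + 1) G - z i F else 0) F =
          (-1) * avg (fun G => if A G then z (i + 1) G - z i F else 0) F by ring, ← avg_mul]
        exact avg_congr fun G _ => by split_ifs <;> ring
      linarith)
    (fun i F hi hg hA' => by
      have e : (fun G => if A G then (-z (i + 1) G - -z i F) ^ 2 else (0 : ℝ)) =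
          fun G => if A G then (z (i + 1) G - z i F) ^ 2 else 0 := by
        funext G; split_ifs <;> ring
      simp only [e]
      exact hv i F hi hg hA') k j E hE hV hθ (T := T) (by linarith [neg_le_abs (z j E)])
  calc killed Good k (fun i F => if A F ∧ T ≤ |z i F| then 1 else 0) j E
      ≤ killed Good k (fun i F => (if A F ∧ T ≤ z i F then 1 else 0) +
          (if A F ∧ T ≤ -z i F then 1 else 0)) j E := by
        refine killed_mono k j E fun F _ => ?_
        by_cases hc : A F ∧ T ≤ |z (j + k) F|
        · rw [if_pos hc]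
          rcases le_abs.1 hc.2 with h | h
          · rw [if_pos ⟨hc.1, h⟩]; split_ifs <;> norm_num
          · rw [if_pos (show A F ∧ T ≤ -z (j + k) F from ⟨hc.1, h⟩)]; split_ifs <;> norm_num
        · rw [if_neg hc]; split_ifs <;> norm_num
    _ ≤ _ := by
        rw [killed_add_fun, two_mul]
        exact add_le_add hp hm

end Vale.Agent.P046.Chain
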