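import Vale.Agent.P046.Flags.Basic
import Vale.Agent.P046.Phase.Spec
import Vale.Agent.P046.Phase.TwoScalar
import Vale.Agent.P046.Phase.TwoTail
import Vale.Agent.P046.Phase.TwoMarginsW

/-!
# The second phase keeps its envelope
-/

namespace Vale.Agent.P046.Phase.Two

open Finset Chain Flags Filter

variable {n : ℕ}

lemma env_eq {b : ℕ} (h : 3 * b < n.choose 2) :
    (envII n).y b = Yv n (mu n b) ∧ (envII n).z b = Zv n (mu n b) ∧
      (envII n).w b = Wv n (mu n b) ∧ (envII n).v b = Vv n (mu n b) := by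
  have ht := (mu_pos h).le
  simp only [envII, Yv, Zv, Wv, Vv, tm, Real.rpow_eq_pow, Real.rpow_neg ht, Real.sqrt_eq_rpow,
    Real.rpow_zero, pow_zero, Real.rpow_one, div_eq_mul_inv, one_mul, mul_one, and_self]

lemma tm_anti {t t' : ℝ} (ht : 0 < t') (h : t' ≤ t) (k : ℕ) (a : ℝ) {b : ℝ} (hb : b ≤ 0) :
    tm n t k a b ≤ tm n t' k a b :=
  mul_le_mul_of_nonneg_left (Real.rpow_le_rpow_of_nonpos ht h hb)
    (mul_nonneg (pow_nonneg (Real.log_natCast_nonneg n) k)
      (Real.rpow_nonneg (Nat.cast_nonneg n) a))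

lemma env_anti {b i : ℕ} (hbi : b ≤ i) (h : 3 * i < n.choose 2) :
    (envII n).y b ≤ (envII n).y i ∧ (envII n).z b ≤ (envII n).z i ∧
      (envII n).w b ≤ (envII n).w i ∧ (envII n).v b ≤ (envII n).v i := by
  obtain ⟨b1, b2, b3, b4⟩ := env_eq (n := n) (b := b) (by omega)
  obtain ⟨i1, i2, i3, i4⟩ := env_eq (n := n) h
  rw [b1, b2, b3, b4, i1, i2, i3, i4]
  have ht := mu_pos h
  have hm := mu_anti hbi h
  refine ⟨?_, ?_, ?_, ?_⟩ <;> simp only [Yv, Zv, Wv, Vv] <;>
    exact add_le_add (tm_anti ht hm _ _ (by norm_num)) (tm_anti ht hm _ _ (by norm_num))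

/-- The facts about every step of the second phase used below. -/
structure Ok (n b : ℕ) : Prop where
  room : 3 * b + 6 < n.choose 2
  rng : Rng n (mu n b)
  small : Small n (envII n) b
  y : (envII n).y b ≤ 1 / 10000
  tau : tauE n b / mu n b ^ 2 ≤ Tv n (mu n b)
  kap : kapE n b / mu n b ^ 3 ≤ Kv n (mu n b)
  inv : 1 / mm n b ≤ Iv n (mu n b)

lemma tau_kap {b : ℕ} (h : 3 * b < n.choose 2) (hb : iOne n ≤ b) (ht : 1 ≤ mu n b) :
    tauE n b / mu n b ^ 2 ≤ Tv n (mu n b) ∧ kapE n b / mu n b ^ 3 ≤ Kv n (mu n b) := by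
  have hn := n_pos h
  have hp := pp_pos h
  set p := pp n b with hpdef
  set t := mu n b with htdef
  have ht0 : 0 < t := mu_pos h
  have q := fun k a b => tm_nonneg (n := n) ht0.le k a b
  simp only [tauE, kapE, Real.rpow_eq_pow, Tv, Kv]
  have z2 : tm n t 0 0 (-2) = 1 / t ^ 2 := by
    simp [tm, Real.rpow_neg ht0.le]
  have z3 : tm n t 0 0 (-3) = 1 / t ^ 3 := by
    simp [tm, Real.rpow_neg ht0.le]
  split_ifs with hc
  · have hp2 : (n : ℝ) ^ (-(41 / 50) : ℝ) ≤ p ^ 2 := by
      refine le_trans (le_of_eq ?_) (pow_le_pow_left₀ (Real.rpow_nonneg hn.le _) hc 2)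
      rw [← Real.rpow_natCast, ← Real.rpow_mul hn.le]; norm_num
    have ht18 : (n : ℝ) ^ (9 / 50 : ℝ) ≤ t := by
      refine le_trans (le_of_eq ?_) (mul_le_mul_of_nonneg_left hp2 hn.le)
      rw [← Real.rpow_one_add' hn.le (by norm_num)]; norm_num
    have hnp : (n : ℝ) ^ (59 / 100 : ℝ) ≤ n * p := by
      refine le_trans (le_of_eq ?_) (mul_le_mul_of_nonneg_left hc hn.le)
      rw [← Real.rpow_one_add' hn.le (by norm_num)]; norm_num
    have e2 : n * p ^ 3 / t ^ 2 = 1 / (n * p) := by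
      simp only [htdef, mu, ← hpdef]; field_simp
    have e3 : (n : ℝ) ^ 2 * p ^ 5 / t ^ 3 = 1 / (n * p) := by
      simp only [htdef, mu, ← hpdef]; field_simp
    have e32 : n * p ^ 3 / t ^ 3 ≤ 1 / (n * p) := by
      rw [pow_succ t 2, ← div_div, e2]
      exact div_le_self (by positivity) ht
    set a := (n : ℝ) ^ (1 / 1000 : ℝ) with ha
    have ha0 : 0 ≤ a := Real.rpow_nonneg hn.le _
    have hI : a * (1 / (n * p)) ≤ tm n t 0 (-(589 / 1000)) 0 := by
      simp only [tm, pow_zero, one_mul, Real.rpow_zero, mul_one, ← div_eq_mul_one_div,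
        mul_one_div]
      rw [div_le_iff₀ (by positivity)]
      refine le_trans (le_of_eq ?_) (mul_le_mul_of_nonneg_left hnp (Real.rpow_nonneg hn.le _))
      rw [ha, ← Real.rpow_add hn]; norm_num
    have hT : a / t ≤ (n : ℝ) ^ (-(179 / 1000) : ℝ) := by
      rw [div_le_iff₀ ht0]
      refine le_trans (le_of_eq ?_) (mul_le_mul_of_nonneg_left ht18 (Real.rpow_nonneg hn.le _))
      rw [ha, ← Real.rpow_add hn]; norm_num
    have w1 : tm n t 0 (-(179 / 1000)) (-1) = (n : ℝ) ^ (-(179 / 1000) : ℝ) / t := by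
      simp [tm, Real.rpow_neg ht0.le, div_eq_mul_inv]
    have w2 : tm n t 0 (-(179 / 1000)) (-2) = (n : ℝ) ^ (-(179 / 1000) : ℝ) / t ^ 2 := by
      simp [tm, Real.rpow_neg ht0.le, div_eq_mul_inv]
    rw [z2, z3, w1, w2]
    have h1 : a / t ^ 2 ≤ (n : ℝ) ^ (-(179 / 1000) : ℝ) / t := by
      rw [pow_two, ← div_div]; exact div_le_div_of_nonneg_right hT ht0.le
    have h2 : a / t ^ 3 ≤ (n : ℝ) ^ (-(179 / 1000) : ℝ) / t ^ 2 := by
      rw [pow_succ' t 2, ← div_div]; exact div_le_div_of_nonneg_right hT (by positivity)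
    have x2 : a * (1 + n * p ^ 3) / t ^ 2 = a / t ^ 2 + a * (n * p ^ 3 / t ^ 2) := by ring
    have x3 : a * (1 + n * p ^ 3 + (n : ℝ) ^ 2 * p ^ 5) / t ^ 3 = a / t ^ 3 +
        a * (n * p ^ 3 / t ^ 3) + a * ((n : ℝ) ^ 2 * p ^ 5 / t ^ 3) := by ring
    have := mul_le_mul_of_nonneg_left e32 ha0
    have : 0 ≤ 1 / t ^ 2 := by positivity
    have : 0 ≤ 1 / t ^ 3 := by positivity
    rw [x2, x3, e2, e3]
    exact ⟨by linarith, by linarith⟩
  · rw [z2, z3]
    have := q 0 (-(179 / 1000)) (-1); have := q 0 (-(179 / 1000)) (-2)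
    have := q 0 (-(589 / 1000)) 0
    exact ⟨by linarith [mul_one_div (200 : ℝ) (t ^ 2)],
      by linarith [mul_one_div (1000000 : ℝ) (t ^ 3)]⟩

lemma ev_ok : ∀ᶠ n : ℕ in atTop, ∀ b, iOne n ≤ b → b ≤ iTwo n → Ok n b := by
  filter_upwards [ev_small, ev_log, tendsto_D0.eventually_ge_atTop 200,
    eventually_ge_atTop 10000] with n hs hL hD hn
  intro b hb1 hb2
  have hnR : (10000 : ℝ) ≤ n := by exact_mod_cast hn
  have hn0 : (0 : ℝ) < n := by linarith
  set N := (n.choose 2 : ℝ) with hN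
  have hNn : (n : ℝ) ^ 2 / 4 ≤ N := by
    rw [hN, Nat.cast_choose_two]; nlinarith
  have hD0n : D0 n ≤ n := by
    rw [D0, ← Real.exp_log hn0]
    refine Real.exp_le_exp.2 ?_
    simp only [Real.rpow_eq_pow, Real.log_exp]
    exact Real.rpow_le_self_of_one_le hL (by norm_num)
  set s := Real.sqrt (D0 n / n) with hs'
  have hs1 : s ≤ 1 := Real.sqrt_le_one.2 ((div_le_one hn0).2 hD0n)
  have hs2 : s ^ 2 = D0 n / n := Real.sq_sqrt (div_nonneg (by linarith) hn0.le)
  have hs0 : 0 ≤ s := Real.sqrt_nonneg _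
  have hsn : 5 / (n : ℝ) ≤ s := by
    rw [hs', Real.le_sqrt (by positivity) (div_nonneg (by linarith) hn0.le), div_pow]
    rw [div_le_div_iff₀ (by positivity) hn0]
    nlinarith [mul_le_mul_of_nonneg_right hD hn0.le]
  have hb : (b : ℝ) < N * (1 - s) / 3 + 1 :=
    lt_of_le_of_lt (by exact_mod_cast hb2)
      (Nat.ceil_lt_add_one (div_nonneg (mul_nonneg (by positivity) (by linarith)) (by norm_num)))
  have hNs : 200 ≤ N * s := by
    have := mul_le_mul hNn hsn (by positivity) (by positivity)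
    have e : (n : ℝ) ^ 2 / 4 * (5 / n) = 5 * n / 4 := by field_simp
    linarith
  have hroom : 3 * b + 6 < n.choose 2 := by
    have h : ((3 * b + 6 : ℕ) : ℝ) < ((n.choose 2 : ℕ) : ℝ) := by push_cast; rw [← hN]; linarith
    exact_mod_cast h
  have hp : 97 / 100 * s ≤ pp n b := by
    rw [pp, le_div_iff₀ (show (0 : ℝ) < N by nlinarith), mm, ← hN]
    linarith
  have ht : 9 / 10 * D0 n ≤ mu n b := by
    refine le_trans ?_ (mul_le_mul_of_nonneg_left (pow_le_pow_left₀ (by positivity) hp 2) hn0.le)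
    rw [mul_pow, hs2]
    have e : (n : ℝ) * ((97 / 100) ^ 2 * (D0 n / n)) = (97 / 100) ^ 2 * D0 n := by field_simp
    linarith
  have h3 : 3 * b < n.choose 2 := by omega
  have hr : Rng n (mu n b) :=
    ⟨by omega, hL, by linarith, by linarith, mu_le_top hb1 h3⟩
  obtain ⟨hy, hz, hw, hv⟩ := hs _ hr
  obtain ⟨ey, ez, ew, ev⟩ := env_eq h3
  obtain ⟨-, -, py, pz, pw, pv, -, -⟩ := sq_bounds hr
  obtain ⟨hT, hK⟩ := tau_kap h3 hb1 (by linarith)
  have htau : (1 : ℝ) ≤ tauE n b ∧ (1 : ℝ) ≤ kapE n b := by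
    have hp0 := (pp_pos h3).le
    have h1 : (1 : ℝ) ≤ (n : ℝ) ^ (1 / 1000 : ℝ) :=
      Real.one_le_rpow (by linarith) (by norm_num)
    simp only [tauE, kapE, Real.rpow_eq_pow]
    constructor <;> split_ifs <;> try norm_num
    · exact one_le_mul_of_one_le_of_one_le h1 (le_add_of_nonneg_right (by positivity))
    · exact one_le_mul_of_one_le_of_one_le h1
        (by linarith [mul_nonneg hn0.le (pow_nonneg hp0 3),
          mul_nonneg (sq_nonneg (n : ℝ)) (pow_nonneg hp0 5)])
  refine ⟨hroom, hr, ⟨by omega, by linarith, by omega, ?_, ?_, ?_, ?_, ?_, ?_, ?_, ?_, htau.1,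
    htau.2⟩, by linarith, hT, hK, ?_⟩
  all_goals try linarith
  simp only [Iv, tm, pow_zero, one_mul, Real.rpow_zero, mul_one, Real.rpow_neg_one, one_div]
  refine inv_anti₀ hn0 ?_
  have h1 : mm n b = N * pp n b := by
    rw [pp, ← hN, mul_div_cancel₀ _ (show N ≠ 0 by nlinarith)]
  have h2 := mul_le_mul hNn ((mul_le_mul_of_nonneg_left hsn (by norm_num)).trans hp)
    (by positivity) (by positivity)
  have e : (n : ℝ) ^ 2 / 4 * (97 / 100 * (5 / n)) = 485 / 400 * n := by field_simp; ring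
  linarith

/-- The good event of the second phase, between the given times. -/
def During (n i : ℕ) (b : ℕ) (F : St n) : Prop := Spec.Safe n b F ∧ iOne n ≤ b ∧ b < i

lemma during_good {i b : ℕ} {F : St n} (h : During n i b F) : Good (envII n) b F :=
  h.1.2 h.2.1

lemma during_size {i : ℕ} (hok : ∀ b, iOne n ≤ b → b ≤ i → Ok n b) (b : ℕ) (E F : St n)
    (hE : Size b E) (hg : During n i b E) (h : Succ E F) : Size (b + 1) F := by
  have hne := triangles_ne_empty (hok b hg.2.1 hg.2.2.le).small (during_good hg)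
  refine ⟨h.subset.trans hE.1, ?_⟩
  rcases h with ⟨-, h0⟩ | ⟨t, ht, rfl⟩
  · exact absurd h0 hne
  · rw [card_sdiff_sides ht]
    have := three_le_card ht
    have := hE.2
    omega

open Classical in
/-- The tail of one observable at one edge. -/
lemma obs_tail {l i : ℕ} (hi : i = iOne n + l) (hok : ∀ b, iOne n ≤ b → b ≤ i → Ok n b)
    (hlog : 7200000000 ≤ Real.log n) (e : Finset (Fin n)) (f : ℕ → St n → ℝ)
    (env a q r : ℕ → ℝ) (h0 : 0 < env i) (E : St n) (hE : Size (iOne n) E)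
    (hinit : |f (iOne n) E| ≤ env i / 10000)
    (hda : ∀ b F, During n i b F → e ∈ F → |inc {e} f b F| ≤ a b)
    (hsum : ∑ c ∈ range l, 3 / mm n (iOne n + c) * a (iOne n + c) ≤
      (1 - 2 / 10000) * env i)
    (hq : ∀ b F, During n i b F → e ∈ F → Flags.sq {e} f b F ≤ q b ∧ JumpLE {e} f b F (r b))
    (hqb : ∀ b, iOne n ≤ b → b < i →
      q b * Real.log n ^ 3 ≤ env i ^ 2 ∧ r b * Real.log n ^ 2 ≤ env i) :
    killed (During n i) l (fun b F => if {e} ⊆ F ∧ env i ≤ |f b F| then 1 else 0) (iOne n) E ≤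
      2 * Real.exp (-(9 * Real.log n)) := by
  set L := Real.log n with hL
  have hL0 : 0 < L := by linarith
  set j := iOne n with hj
  have hmm : ∀ b, j ≤ b → b ≤ i → 0 < mm n b :=
    fun b h1 h2 => mm_pos (by have := (hok b h1 h2).room; omega)
  have hconv : ∀ b F (x : ℝ), During n i b F → 3 / mm n b * (mm n b / 3 * x) = x := by
    intro b F x hg
    have := (hmm b hg.2.1 hg.2.2.le).ne'
    field_simp
  have h := killed_tail_abs (Good := During n i) Size (during_size hok) (fun F => {e} ⊆ F)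
    (fun _ _ h hA => hA.trans h.subset) f (fun b => 3 / mm n b * a b)
    (fun b => if j ≤ b ∧ b < i then 3 / mm n b * q b else 0)
    (R := env i / L ^ 2) (V := 2 * env i ^ 2 / L ^ 2) (by positivity) (by positivity)
    ?_ ?_ ?_ l j E hE ?_ (θ := env i / 10000) (by positivity) (T := env i) (by linarith)
  · refine le_trans (le_of_eq ?_) (h.trans (mul_le_mul_of_nonneg_left
      (Real.exp_le_exp.2 (neg_le_neg (a := 9 * L) ?_)) (by norm_num)))
    · congr! 4
    have e1 : (env i / 10000) ^ 2 / (4 * (2 * env i ^ 2 / L ^ 2)) = L ^ 2 / 800000000 := by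
      field_simp; ring
    have e2 : env i / 10000 / (2 * (env i / L ^ 2)) = L ^ 2 / 20000 := by
      field_simp; ring
    rw [e1, e2]
    have := mul_le_mul_of_nonneg_right hlog hL0.le
    exact le_min (by linarith [sq L]) (by linarith [sq L])
  · intro b F _ hg hA G hG hAG
    rcases hG with ⟨-, h0'⟩ | ⟨t, ht, rfl⟩
    · exact absurd h0' (triangles_ne_empty (hok b hg.2.1 hg.2.2.le).small (during_good hg))
    · refine ((hq b F hg (singleton_subset_iff.1 hA)).2 t ht hAG).trans ?_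
      rw [le_div_iff₀ (by positivity)]
      exact (hqb b hg.2.1 hg.2.2).2
  · intro b F _ hg hA
    refine le_trans (le_of_eq (b := |3 / mm n b * inc {e} f b F|) ?_) ?_
    · simp only [inc]
      rw [hconv b F _ hg]
      congr! 3
      split_ifs <;> rfl
    rw [abs_mul, abs_of_pos (div_pos three_pos (hmm b hg.2.1 hg.2.2.le))]
    exact mul_le_mul_of_nonneg_left (hda b F hg (singleton_subset_iff.1 hA))
      (div_pos three_pos (hmm b hg.2.1 hg.2.2.le)).le
  · intro b F _ hg hA
    rw [if_pos ⟨hg.2.1, hg.2.2⟩]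
    refine le_trans (le_of_eq (b := 3 / mm n b * Flags.sq {e} f b F) ?_) ?_
    · simp only [Flags.sq]
      rw [hconv b F _ hg]
      congr! 2
      split_ifs <;> rfl
    exact mul_le_mul_of_nonneg_left (hq b F hg (singleton_subset_iff.1 hA)).1
      (div_pos three_pos (hmm b hg.2.1 hg.2.2.le)).le
  · calc ∑ c ∈ range l, (if j ≤ j + c ∧ j + c < i then 3 / mm n (j + c) * q (j + c) else 0)
        ≤ ∑ c ∈ range l, 3 / mm n (j + c) * (env i ^ 2 / L ^ 3) := by
          refine sum_le_sum fun c hc => ?_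
          have hc := mem_range.1 hc
          rw [if_pos ⟨by omega, by omega⟩]
          refine mul_le_mul_of_nonneg_left ?_
            (div_pos three_pos (hmm _ (by omega) (by omega))).le
          rw [le_div_iff₀ (by positivity)]
          exact (hqb _ (by omega) (by omega)).1
      _ ≤ 2 * L * (env i ^ 2 / L ^ 3) := by
          rw [← sum_mul]
          exact mul_le_mul_of_nonneg_right
            (sum_time (by have := (hok i (by omega) le_rfl).room; omega)) (by positivity)
      _ = 2 * env i ^ 2 / L ^ 2 := by field_simp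

lemma abs_avgE_wc {P : Env} {i : ℕ} {E : St n} (hs : Small n P i) (hg : Good P i E)
    (e : Finset (Fin n)) : |avgE E (wc i E) e| ≤ P.w i := by
  refine abs_mean_le hs.w0 fun t ht => ?_
  have htr := (mem_filter.1 ht).1
  have hc : ((sides t).erase e).card = 2 := card_erase_sides htr (mem_filter.1 ht).2
  have h := (abs_sum_le_sum_abs (fun g => wc i E g) ((sides t).erase e)).trans
    (sum_le_card_nsmul _ _ _ fun g hgm => hg.w g (sides_sub htr (mem_erase.1 hgm).2))
  rw [hc, nsmul_eq_mul] at h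
  rw [abs_div, abs_two]
  norm_num at h ⊢
  linarith

/-- A sum of pointwise small drifts over the logarithmic time. -/
lemma sum_small {l : ℕ} (h : 3 * (iOne n + l) < n.choose 2) (hL : 0 < Real.log n) {K x : ℝ}
    (hx : 0 ≤ x) (hK : 0 < K) (a : ℕ → ℝ)
    (ha : ∀ c, c < l → K * a (iOne n + c) * Real.log n ≤ x) :
    ∑ c ∈ range l, 3 / mm n (iOne n + c) * a (iOne n + c) ≤ 2 * x / K := by
  calc ∑ c ∈ range l, 3 / mm n (iOne n + c) * a (iOne n + c)
      ≤ ∑ c ∈ range l, 3 / mm n (iOne n + c) * (x / (K * Real.log n)) := by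
        refine sum_le_sum fun c hc => mul_le_mul_of_nonneg_left ?_
          (div_pos three_pos (mm_pos (by have := mem_range.1 hc; omega))).le
        rw [le_div_iff₀ (by positivity)]
        linarith [ha c (mem_range.1 hc)]
    _ ≤ 2 * Real.log n * (x / (K * Real.log n)) := by
        rw [← sum_mul]
        exact mul_le_mul_of_nonneg_right (sum_time h) (by positivity)
    _ = 2 * x / K := by field_simp

/-- The self-reproduction of the envelope of `w`. -/
lemma sum_growth {l : ℕ} (h : 3 * (iOne n + l) < n.choose 2) :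
    ∑ c ∈ range l, 3 / mm n (iOne n + c) *
        (20003 / 10000 * Wv n (mu n (iOne n + c))) ≤
      9993 / 10000 * Wv n (mu n (iOne n + l)) := by
  have key : ∀ (k : ℕ) (a : ℝ) (s : ℝ), 1001 / 1000 ≤ s →
      ∑ c ∈ range l, 3 / mm n (iOne n + c) *
          (20003 / 10000 * tm n (mu n (iOne n + c)) k a (-s)) ≤
        9993 / 10000 * tm n (mu n (iOne n + l)) k a (-s) := by
    intro k a s hs
    have h1 := sum_rpow (s := s) (by linarith) h
    set M := mu n (iOne n + l) ^ (-s) with hM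
    set A := Real.log n ^ k * (n : ℝ) ^ a with hA
    have hA0 : 0 ≤ A :=
      mul_nonneg (pow_nonneg (Real.log_natCast_nonneg n) k) (Real.rpow_nonneg (Nat.cast_nonneg n) a)
    have hM0 : 0 ≤ M := Real.rpow_nonneg (mu_pos h).le _
    calc ∑ c ∈ range l, 3 / mm n (iOne n + c) *
            (20003 / 10000 * tm n (mu n (iOne n + c)) k a (-s))
        = 20003 / 10000 * A * ∑ c ∈ range l,
            3 / mm n (iOne n + c) * mu n (iOne n + c) ^ (-s) := by
          rw [mul_sum]; exact sum_congr rfl fun c _ => by simp only [tm, hA]; ring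
      _ ≤ 20003 / 10000 * A * (M / (2 * s)) := mul_le_mul_of_nonneg_left h1 (by positivity)
      _ = (20003 / 20000 / s) * (A * M) := by field_simp; ring
      _ ≤ 9993 / 10000 * (A * M) := mul_le_mul_of_nonneg_right
          (by rw [div_le_iff₀ (by linarith)]; linarith) (mul_nonneg hA0 hM0)
      _ = _ := by simp only [tm, hA, hM]
  simp only [Wv, mul_add, sum_add_distrib]
  exact add_le_add (key _ _ _ (by norm_num)) (key _ _ _ le_rfl)

end Vale.Agent.P046.Phase.Two
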