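import Vale.Agent.P046.Phase.Params

/-!
# Comparison of the monomials `(log n)^k n^a mu^b` in the second phase
-/

namespace Vale.Agent.P046.Phase.Two

open Filter Asymptotics

/-- A monomial of the second phase bounds. -/
noncomputable def tm (n : ℕ) (t : ℝ) (k : ℕ) (a b : ℝ) : ℝ :=
  Real.log n ^ k * (n : ℝ) ^ a * t ^ b

lemma tm_nonneg {n : ℕ} {t : ℝ} (ht : 0 ≤ t) (k : ℕ) (a b : ℝ) : 0 ≤ tm n t k a b :=
  mul_nonneg (mul_nonneg (pow_nonneg (Real.log_natCast_nonneg n) k)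
    (Real.rpow_nonneg (Nat.cast_nonneg n) a)) (Real.rpow_nonneg ht b)

lemma tm_mul {n : ℕ} {t : ℝ} (hn : 0 < n) (ht : 0 < t) (k k' : ℕ) (a a' b b' : ℝ) :
    tm n t k a b * tm n t k' a' b' = tm n t (k + k') (a + a') (b + b') := by
  simp only [tm, pow_add, Real.rpow_add (show (0 : ℝ) < n by exact_mod_cast hn),
    Real.rpow_add ht]
  ring

lemma ev_log : ∀ᶠ n : ℕ in atTop, 1 ≤ Real.log n :=
  (Real.tendsto_log_atTop.comp tendsto_natCast_atTop_atTop).eventually_ge_atTop 1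

lemma ev_log_pow (C : ℝ) (k : ℕ) {δ : ℝ} (hδ : 0 < δ) :
    ∀ᶠ n : ℕ in atTop, C * Real.log n ^ k ≤ (n : ℝ) ^ δ := by
  have h := ((isLittleO_log_rpow_rpow_atTop (k : ℝ) hδ).const_mul_left C).bound one_pos
  filter_upwards [tendsto_natCast_atTop_atTop.eventually h] with n hn
  rw [Real.rpow_natCast, Real.norm_eq_abs, Real.norm_eq_abs, one_mul,
    abs_of_nonneg (Real.rpow_nonneg (Nat.cast_nonneg n) δ)] at hn
  exact (le_abs_self _).trans hn

lemma tendsto_D0 : Tendsto (fun n : ℕ => D0 n) atTop atTop :=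
  Real.tendsto_exp_atTop.comp ((tendsto_rpow_atTop (by norm_num : (0 : ℝ) < 1 / 5)).comp
    (Real.tendsto_log_atTop.comp tendsto_natCast_atTop_atTop))

lemma ev_log_D0 (C : ℝ) (k : ℕ) {δ : ℝ} (hδ : 0 < δ) :
    ∀ᶠ n : ℕ in atTop, C * Real.log n ^ k ≤ (D0 n / 2) ^ δ := by
  have h := ((isLittleO_pow_exp_pos_mul_atTop (5 * k) hδ).const_mul_left
    (C * Real.exp (δ * Real.log 2))).bound one_pos
  have hu : Tendsto (fun n : ℕ => Real.log n ^ (1 / 5 : ℝ)) atTop atTop :=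
    (tendsto_rpow_atTop (by norm_num : (0 : ℝ) < 1 / 5)).comp
      (Real.tendsto_log_atTop.comp tendsto_natCast_atTop_atTop)
  filter_upwards [hu.eventually h] with n hn
  have hL := Real.log_natCast_nonneg n
  rw [Real.norm_eq_abs, Real.norm_eq_abs, one_mul, abs_of_pos (Real.exp_pos _),
    pow_mul, ← Real.rpow_natCast (Real.log n ^ (1 / 5 : ℝ)) 5, ← Real.rpow_mul hL] at hn
  norm_num at hn
  have e : (D0 n / 2) ^ δ =
      Real.exp (δ * Real.log n ^ (1 / 5 : ℝ)) * Real.exp (-(δ * Real.log 2)) := by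
    rw [D0, Real.rpow_def_of_pos (div_pos (Real.exp_pos _) two_pos), ← Real.exp_add,
      Real.log_div (Real.exp_ne_zero _) two_ne_zero, Real.log_exp]
    congr 1
    simp only [Real.rpow_eq_pow]
    ring
  have h2 := le_abs_self (C * Real.exp (δ * Real.log 2) * Real.log n ^ k)
  rw [e, Real.exp_neg, le_mul_inv_iff₀ (Real.exp_pos _)]
  simp only [abs_mul, abs_pow, Real.abs_exp, one_div] at *
  linarith

/-- Comparison through the powers of `n`, with `1 ≤ t ≤ n ^ h`. -/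
lemma domN (h : ℝ) (k k' : ℕ) (a a' b b' : ℝ) (h0 : a < a') (h1 : a + h * b < a' + h * b')
    (C : ℝ) : ∀ᶠ n : ℕ in atTop, ∀ t : ℝ, 1 ≤ t → t ≤ (n : ℝ) ^ h →
      C * tm n t k a b ≤ tm n t k' a' b' := by
  obtain ⟨δ, hδ, hd0, hd1⟩ : ∃ δ, 0 < δ ∧ δ ≤ a' - a ∧ δ ≤ a' + h * b' - (a + h * b) :=
    ⟨min (a' - a) (a' + h * b' - (a + h * b)), lt_min (by linarith) (by linarith),
      min_le_left _ _, min_le_right _ _⟩
  filter_upwards [ev_log, ev_log_pow C k hδ, eventually_gt_atTop 0] with n hL hC hn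
  intro t ht htn
  have hnR : (0 : ℝ) < n := by exact_mod_cast hn
  have ht0 : 0 < t := by linarith
  have key : (n : ℝ) ^ (a + δ) * t ^ b ≤ (n : ℝ) ^ a' * t ^ b' := by
    rw [Real.rpow_def_of_pos hnR, Real.rpow_def_of_pos hnR, Real.rpow_def_of_pos ht0,
      Real.rpow_def_of_pos ht0, ← Real.exp_add, ← Real.exp_add, Real.exp_le_exp]
    set X := Real.log n
    set Y := Real.log t with hY
    have hX : 0 < X := by linarith
    have hY0 : 0 ≤ Y := Real.log_nonneg ht
    have hYh : Y ≤ h * X := by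
      have := Real.log_le_log ht0 htn
      rwa [Real.log_rpow hnR] at this
    rcases le_total b b' with hb | hb
    · nlinarith [mul_nonneg (sub_nonneg.2 hb) hY0,
        mul_le_mul_of_nonneg_right hd0 hX.le]
    · nlinarith [mul_le_mul_of_nonneg_left hYh (sub_nonneg.2 hb),
        mul_le_mul_of_nonneg_right hd1 hX.le]
  calc C * tm n t k a b = C * Real.log n ^ k * ((n : ℝ) ^ a * t ^ b) := by simp only [tm]; ring
    _ ≤ (n : ℝ) ^ δ * ((n : ℝ) ^ a * t ^ b) := mul_le_mul_of_nonneg_right hC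
        (mul_nonneg (Real.rpow_nonneg hnR.le a) (Real.rpow_nonneg ht0.le b))
    _ = (n : ℝ) ^ (a + δ) * t ^ b := by rw [Real.rpow_add hnR]; ring
    _ ≤ (n : ℝ) ^ a' * t ^ b' := key
    _ ≤ tm n t k' a' b' := by
        simp only [tm, mul_assoc]
        exact le_mul_of_one_le_left (mul_nonneg (Real.rpow_nonneg hnR.le a')
          (Real.rpow_nonneg ht0.le b')) (one_le_pow₀ hL)

/-- Comparison through the powers of `t ≥ D0 / 2`. -/
lemma domT (k k' : ℕ) (b b' : ℝ) (hb : b < b') (C : ℝ) :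
    ∀ᶠ n : ℕ in atTop, ∀ t : ℝ, D0 n / 2 ≤ t → C * tm n t k 0 b ≤ tm n t k' 0 b' := by
  filter_upwards [ev_log, ev_log_D0 C k (sub_pos.2 hb)] with n hL hC
  intro t ht
  have hD : (0 : ℝ) < D0 n / 2 := div_pos (Real.exp_pos _) two_pos
  have ht0 : 0 < t := hD.trans_le ht
  have h1 : C * Real.log n ^ k ≤ t ^ (b' - b) :=
    hC.trans (Real.rpow_le_rpow hD.le ht (by linarith))
  calc C * tm n t k 0 b = C * Real.log n ^ k * t ^ b := by simp [tm, mul_assoc]
    _ ≤ t ^ (b' - b) * t ^ b := mul_le_mul_of_nonneg_right h1 (Real.rpow_nonneg ht0.le b)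
    _ = t ^ b' := by rw [← Real.rpow_add ht0]; ring_nf
    _ ≤ tm n t k' 0 b' := by
        simp only [tm, Real.rpow_zero, mul_one]
        exact le_mul_of_one_le_left (Real.rpow_nonneg ht0.le b') (one_le_pow₀ hL)

/-- Comparison through the powers of `log n`. -/
lemma domL (k k' : ℕ) (a b : ℝ) (hk : k < k') (C : ℝ) :
    ∀ᶠ n : ℕ in atTop, ∀ t : ℝ, 0 ≤ t → C * tm n t k a b ≤ tm n t k' a b := by
  filter_upwards [ev_log, (Real.tendsto_log_atTop.comp
    tendsto_natCast_atTop_atTop).eventually_ge_atTop C] with n hL hC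
  intro t ht
  simp only [Function.comp] at hC
  have h1 : C * Real.log n ^ k ≤ Real.log n ^ k' :=
    calc C * Real.log n ^ k ≤ Real.log n * Real.log n ^ k :=
          mul_le_mul_of_nonneg_right hC (pow_nonneg (by linarith) k)
      _ = Real.log n ^ (k + 1) := by ring
      _ ≤ Real.log n ^ k' := pow_le_pow_right₀ hL hk
  simp only [tm, ← mul_assoc]
  exact mul_le_mul_of_nonneg_right (mul_le_mul_of_nonneg_right h1
    (Real.rpow_nonneg (Nat.cast_nonneg n) a)) (Real.rpow_nonneg ht b)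

end Vale.Agent.P046.Phase.Two
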