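import Vale.Agent.P046.Phase.TwoDom

/-!
# The margins of the second phase envelopes, as statements about monomials
-/

namespace Vale.Agent.P046.Phase.Two

open Filter

/-- The range of the mean codegree in the second phase. -/
def Rng (n : ℕ) (t : ℝ) : Prop :=
  0 < n ∧ 1 ≤ Real.log n ∧ 1 ≤ t ∧ D0 n / 2 ≤ t ∧ t ≤ (n : ℝ) ^ (7 / 25 : ℝ)

noncomputable def Yv (n : ℕ) (t : ℝ) : ℝ := tm n t 2 0 (-(1 / 2)) + tm n t 0 (-(1 / 8)) 0
noncomputable def Zv (n : ℕ) (t : ℝ) : ℝ := tm n t 4 0 (-1) + tm n t 0 (-(4 / 25)) 0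
noncomputable def Wv (n : ℕ) (t : ℝ) : ℝ :=
  tm n t 10 0 (-(3 / 2)) + tm n t 0 (-(1 / 500)) (-(1001 / 1000))
noncomputable def Vv (n : ℕ) (t : ℝ) : ℝ :=
  tm n t 8 0 (-(3 / 2)) + tm n t 0 (-(1 / 300)) (-(1001 / 1000))
/-- Bound on a triple codegree over the square of the mean codegree. -/
noncomputable def Tv (n : ℕ) (t : ℝ) : ℝ :=
  200 * tm n t 0 0 (-2) + tm n t 0 (-(179 / 1000)) (-1) + tm n t 0 (-(589 / 1000)) 0
/-- Bound on a link walk count over the cube of the mean codegree. -/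
noncomputable def Kv (n : ℕ) (t : ℝ) : ℝ :=
  1000000 * tm n t 0 0 (-3) + tm n t 0 (-(179 / 1000)) (-2) + 2 * tm n t 0 (-(589 / 1000)) 0
noncomputable def Iv (n : ℕ) (t : ℝ) : ℝ := tm n t 0 (-1) 0
noncomputable def Ev (n : ℕ) (t : ℝ) : ℝ :=
  Yv n t * (Zv n t + Yv n t ^ 2 + Wv n t + 1 / t) + Zv n t ^ 2 + Tv n t + Kv n t
/-- The size of the error of the linearised drift. -/
noncomputable def Sv (n : ℕ) (t : ℝ) : ℝ :=
  tm n t 6 0 (-(3 / 2)) + tm n t 0 (-(1 / 250)) (-(1001 / 1000))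

lemma gN (k k' : ℕ) (a a' b b' : ℝ) (h0 : a < a') (h1 : a + 7 / 25 * b < a' + 7 / 25 * b')
    (C : ℝ) : ∀ᶠ n : ℕ in atTop, ∀ t, Rng n t → C * tm n t k a b ≤ tm n t k' a' b' :=
  (domN (7 / 25) k k' a a' b b' h0 h1 C).mono fun _ h t ht => h t ht.2.2.1 ht.2.2.2.2

lemma gT (k k' : ℕ) (b b' : ℝ) (hb : b < b') (C : ℝ) :
    ∀ᶠ n : ℕ in atTop, ∀ t, Rng n t → C * tm n t k 0 b ≤ tm n t k' 0 b' :=
  (domT k k' b b' hb C).mono fun _ h t ht => h t ht.2.2.2.1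

lemma gL (k k' : ℕ) (a b : ℝ) (hk : k < k') (C : ℝ) :
    ∀ᶠ n : ℕ in atTop, ∀ t, Rng n t → C * tm n t k a b ≤ tm n t k' a b :=
  (domL k k' a b hk C).mono fun _ h t ht => h t (by linarith [ht.2.2.1])

lemma log_mul_tm (n : ℕ) (t : ℝ) (j k : ℕ) (a b : ℝ) :
    Real.log n ^ j * tm n t k a b = tm n t (j + k) a b := by
  simp only [tm, pow_add]; ring

lemma tm_one (n : ℕ) (t : ℝ) : tm n t 0 0 0 = 1 := by simp [tm]

lemma tm_inv {n : ℕ} {t : ℝ} (ht : 0 < t) : 1 / t = tm n t 0 0 (-1) := by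
  simp [tm, Real.rpow_neg_one]

/-- All four envelopes are small. -/
lemma ev_small : ∀ᶠ n : ℕ in atTop, ∀ t, Rng n t →
    Yv n t ≤ 1 / 10000 ∧ Zv n t ≤ 1 / 100 ∧ Wv n t ≤ 1 / 100 ∧ Vv n t ≤ 1 := by
  filter_upwards [gT 2 0 (-(1 / 2)) 0 (by norm_num) 20000,
    gN 0 0 (-(1 / 8)) 0 0 0 (by norm_num) (by norm_num) 20000,
    gT 4 0 (-1) 0 (by norm_num) 200, gN 0 0 (-(4 / 25)) 0 0 0 (by norm_num) (by norm_num) 200,
    gT 10 0 (-(3 / 2)) 0 (by norm_num) 200,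
    gN 0 0 (-(1 / 500)) 0 (-(1001 / 1000)) 0 (by norm_num) (by norm_num) 200,
    gT 8 0 (-(3 / 2)) 0 (by norm_num) 2,
    gN 0 0 (-(1 / 300)) 0 (-(1001 / 1000)) 0 (by norm_num) (by norm_num) 2]
    with n h1 h2 h3 h4 h5 h6 h7 h8
  intro t ht
  have := h1 t ht; have := h2 t ht; have := h3 t ht; have := h4 t ht
  have := h5 t ht; have := h6 t ht; have := h7 t ht; have := h8 t ht
  simp only [Yv, Zv, Wv, Vv, tm_one] at *
  exact ⟨by linarith, by linarith, by linarith, by linarith⟩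

/-- The first phase envelope is far inside the second phase envelope. -/
lemma ev_init : ∀ᶠ n : ℕ in atTop, ∀ t, Rng n t →
    10000 * (n : ℝ) ^ (-(13 / 100) : ℝ) ≤ Yv n t ∧ 10000 * (n : ℝ) ^ (-(13 / 50) : ℝ) ≤ Zv n t ∧
      10000 * (n : ℝ) ^ (-(3 / 10) : ℝ) ≤ Wv n t ∧
      10000 * (n : ℝ) ^ (-(17 / 50) : ℝ) ≤ Vv n t := by
  filter_upwards [gN 0 0 (-(13 / 100)) (-(1 / 8)) 0 0 (by norm_num) (by norm_num) 10000,
    gN 0 0 (-(13 / 50)) (-(4 / 25)) 0 0 (by norm_num) (by norm_num) 10000,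
    gN 0 0 (-(3 / 10)) (-(1 / 500)) 0 (-(1001 / 1000)) (by norm_num) (by norm_num) 10000,
    gN 0 0 (-(17 / 50)) (-(1 / 300)) 0 (-(1001 / 1000)) (by norm_num) (by norm_num) 10000]
    with n h1 h2 h3 h4
  intro t ht
  have e : ∀ a : ℝ, tm n t 0 a 0 = (n : ℝ) ^ a := fun a => by simp [tm]
  have h1 := h1 t ht; have h2 := h2 t ht; have h3 := h3 t ht; have h4 := h4 t ht
  rw [e] at h1 h2 h3 h4
  have p := fun k a b => tm_nonneg (n := n) (by linarith [ht.2.2.1] : (0 : ℝ) ≤ t) k a b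
  simp only [Yv, Zv, Wv, Vv]
  exact ⟨by linarith [p 2 0 (-(1 / 2))], by linarith [p 4 0 (-1)],
    by linarith [p 10 0 (-(3 / 2))], by linarith [p 8 0 (-(3 / 2))]⟩

/-- The squares used below. -/
lemma sq_bounds {n : ℕ} {t : ℝ} (ht : Rng n t) :
    Yv n t ^ 2 ≤ 2 * tm n t 4 0 (-1) + 2 * tm n t 0 (-(1 / 4)) 0 ∧
    Zv n t ^ 2 ≤ 2 * tm n t 8 0 (-2) + 2 * tm n t 0 (-(8 / 25)) 0 ∧
    0 ≤ Yv n t ∧ 0 ≤ Zv n t ∧ 0 ≤ Wv n t ∧ 0 ≤ Vv n t ∧ 0 ≤ Tv n t ∧ 0 ≤ Kv n t := by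
  have ht0 : (0 : ℝ) < t := by linarith [ht.2.2.1]
  have p := fun k a b => tm_nonneg (n := n) ht0.le k a b
  refine ⟨?_, ?_, add_nonneg (p _ _ _) (p _ _ _), add_nonneg (p _ _ _) (p _ _ _),
    add_nonneg (p _ _ _) (p _ _ _), add_nonneg (p _ _ _) (p _ _ _),
    add_nonneg (add_nonneg (mul_nonneg (by norm_num) (p _ _ _)) (p _ _ _)) (p _ _ _),
    add_nonneg (add_nonneg (mul_nonneg (by norm_num) (p _ _ _)) (p _ _ _))
      (mul_nonneg (by norm_num) (p _ _ _))⟩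
  · refine (add_sq_le).trans (le_of_eq ?_)
    rw [sq, sq, tm_mul ht.1 ht0, tm_mul ht.1 ht0]
    norm_num
    ring
  · refine (add_sq_le).trans (le_of_eq ?_)
    rw [sq, sq, tm_mul ht.1 ht0, tm_mul ht.1 ht0]
    norm_num
    ring

/-- The error of the linearised drift. -/
lemma ev_err : ∀ᶠ n : ℕ in atTop, ∀ t, Rng n t → Ev n t ≤ 40 * Sv n t := by
  filter_upwards [gL 2 6 0 (-(3 / 2)) (by norm_num) 1, gT 12 6 (-2) (-(3 / 2)) (by norm_num) 1,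
    gN 10 6 (-(1 / 8)) 0 (-(3 / 2)) (-(3 / 2)) (by norm_num) (by norm_num) 1,
    gN 2 6 (-(1 / 500)) 0 (-(1501 / 1000)) (-(3 / 2)) (by norm_num) (by norm_num) 1,
    gN 0 0 (-(127 / 1000)) (-(1 / 250)) (-(1001 / 1000)) (-(1001 / 1000)) (by norm_num)
      (by norm_num) 1,
    gN 0 0 (-(1 / 8)) (-(1 / 250)) (-1) (-(1001 / 1000)) (by norm_num) (by norm_num) 1,
    gN 2 0 (-(4 / 25)) (-(1 / 250)) (-(1 / 2)) (-(1001 / 1000)) (by norm_num) (by norm_num) 1,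
    gN 4 0 (-(1 / 8)) (-(1 / 250)) (-1) (-(1001 / 1000)) (by norm_num) (by norm_num) 1,
    gN 0 0 (-(57 / 200)) (-(1 / 250)) 0 (-(1001 / 1000)) (by norm_num) (by norm_num) 1,
    gN 0 0 (-(3 / 8)) (-(1 / 250)) 0 (-(1001 / 1000)) (by norm_num) (by norm_num) 1,
    gT 8 6 (-2) (-(3 / 2)) (by norm_num) 1,
    gN 0 0 (-(8 / 25)) (-(1 / 250)) 0 (-(1001 / 1000)) (by norm_num) (by norm_num) 1,
    gT 0 6 (-2) (-(3 / 2)) (by norm_num) 200,
    gN 0 0 (-(179 / 1000)) (-(1 / 250)) (-1) (-(1001 / 1000)) (by norm_num) (by norm_num) 1,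
    gN 0 0 (-(589 / 1000)) (-(1 / 250)) 0 (-(1001 / 1000)) (by norm_num) (by norm_num) 1,
    gT 0 6 (-3) (-(3 / 2)) (by norm_num) 1000000,
    gN 0 0 (-(179 / 1000)) (-(1 / 250)) (-2) (-(1001 / 1000)) (by norm_num) (by norm_num) 1]
    with n h1 h2 h3 h4 h5 h6 h7 h8 h9 h10 h11 h12 h13 h14 h15 h16 h17
  intro t ht
  have ht0 : (0 : ℝ) < t := by linarith [ht.2.2.1]
  obtain ⟨hy2, hz2, hY, -⟩ := sq_bounds ht
  have p := fun k a b => tm_nonneg (n := n) ht0.le k a b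
  have m := fun k k' a a' b b' => tm_mul (n := n) ht.1 ht0 k k' a a' b b'
  have e1 : Yv n t * Zv n t = tm n t 6 0 (-(3 / 2)) + tm n t 2 (-(4 / 25)) (-(1 / 2)) +
      tm n t 4 (-(1 / 8)) (-1) + tm n t 0 (-(57 / 200)) 0 := by
    simp only [Yv, Zv, add_mul, mul_add, m]; norm_num; ring
  have e2 : Yv n t * Wv n t = tm n t 12 0 (-2) + tm n t 2 (-(1 / 500)) (-(1501 / 1000)) +
      tm n t 10 (-(1 / 8)) (-(3 / 2)) + tm n t 0 (-(127 / 1000)) (-(1001 / 1000)) := by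
    simp only [Yv, Wv, add_mul, mul_add, m]; norm_num; ring
  have e3 : Yv n t * (1 / t) = tm n t 2 0 (-(3 / 2)) + tm n t 0 (-(1 / 8)) (-1) := by
    rw [tm_inv (n := n) ht0]; simp only [Yv, add_mul, m]; norm_num
  have e4 : Yv n t * Yv n t ^ 2 ≤
      4 * tm n t 6 0 (-(3 / 2)) + 4 * tm n t 0 (-(3 / 8)) 0 := by
    have h3 : Yv n t * Yv n t ^ 2 = Yv n t ^ 3 := by ring
    rw [h3]
    refine (add_pow_le (p _ _ _) (p _ _ _) 3).trans (le_of_eq ?_)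
    simp only [pow_succ, pow_zero, one_mul, m]
    norm_num
    ring
  have := h1 t ht; have := h2 t ht; have := h3 t ht; have := h4 t ht; have := h5 t ht
  have := h6 t ht; have := h7 t ht; have := h8 t ht; have := h9 t ht; have := h10 t ht
  have := h11 t ht; have := h12 t ht; have := h13 t ht; have := h14 t ht; have := h15 t ht
  have := h16 t ht; have := h17 t ht
  have := p 6 0 (-(3 / 2)); have := p 0 (-(1 / 250)) (-(1001 / 1000))
  simp only [Ev, Sv, Tv, Kv, mul_add] at *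
  linarith

/-- The drift margins. -/
lemma ev_drift (C : ℝ) (hC : 0 ≤ C) : ∀ᶠ n : ℕ in atTop, ∀ t, Rng n t →
    C * (Zv n t + Yv n t ^ 2 + 1 / t) * Real.log n ≤ Yv n t ∧
    C * (Wv n t + Vv n t + Ev n t) * Real.log n ≤ Zv n t ∧
    C * (Vv n t + Ev n t) * Real.log n ≤ Wv n t ∧
    C * Ev n t * Real.log n ≤ Vv n t := by
  filter_upwards [ev_err, gT 5 2 (-1) (-(1 / 2)) (by norm_num) (10 * C),
    gN 1 0 (-(4 / 25)) (-(1 / 8)) 0 0 (by norm_num) (by norm_num) (10 * C),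
    gN 1 0 (-(1 / 4)) (-(1 / 8)) 0 0 (by norm_num) (by norm_num) (10 * C),
    gT 1 2 (-1) (-(1 / 2)) (by norm_num) (10 * C),
    gT 11 4 (-(3 / 2)) (-1) (by norm_num) (100 * C),
    gN 1 4 (-(1 / 500)) 0 (-(1001 / 1000)) (-1) (by norm_num) (by norm_num) (100 * C),
    gT 9 4 (-(3 / 2)) (-1) (by norm_num) (100 * C),
    gN 1 4 (-(1 / 300)) 0 (-(1001 / 1000)) (-1) (by norm_num) (by norm_num) (100 * C),
    gT 7 4 (-(3 / 2)) (-1) (by norm_num) (1000 * C),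
    gN 1 4 (-(1 / 250)) 0 (-(1001 / 1000)) (-1) (by norm_num) (by norm_num) (1000 * C),
    gL 9 10 0 (-(3 / 2)) (by norm_num) (200 * C),
    gN 1 0 (-(1 / 300)) (-(1 / 500)) (-(1001 / 1000)) (-(1001 / 1000)) (by norm_num)
      (by norm_num) (200 * C),
    gL 7 10 0 (-(3 / 2)) (by norm_num) (200 * C),
    gN 1 0 (-(1 / 250)) (-(1 / 500)) (-(1001 / 1000)) (-(1001 / 1000)) (by norm_num)
      (by norm_num) (200 * C),
    gL 7 8 0 (-(3 / 2)) (by norm_num) (100 * C),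
    gN 1 0 (-(1 / 250)) (-(1 / 300)) (-(1001 / 1000)) (-(1001 / 1000)) (by norm_num)
      (by norm_num) (100 * C)]
    with n he h1 h2 h3 h4 a1 a2 a3 a4 a5 a6 b1 b2 b3 b4 c1 c2
  intro t ht
  have ht0 : (0 : ℝ) < t := by linarith [ht.2.2.1]
  obtain ⟨hy2, -, -⟩ := sq_bounds ht
  have p := fun k a b => tm_nonneg (n := n) ht0.le k a b
  have he := he t ht
  have hL : 0 ≤ Real.log n := by linarith [ht.2.1]
  have hCL : 0 ≤ C * Real.log n := mul_nonneg hC hL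
  have := h1 t ht; have := h2 t ht; have := h3 t ht; have := h4 t ht
  have := a1 t ht; have := a2 t ht; have := a3 t ht; have := a4 t ht; have := a5 t ht
  have := a6 t ht; have := b1 t ht; have := b2 t ht; have := b3 t ht; have := b4 t ht
  have := c1 t ht; have := c2 t ht
  have l := fun k a b => log_mul_tm n t 1 k a b
  simp only [pow_one] at l
  have := mul_le_mul_of_nonneg_left hy2 hCL
  have := mul_le_mul_of_nonneg_left he hCL
  have := mul_le_mul_of_nonneg_left (le_of_eq (tm_inv (n := n) ht0)) hCL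
  have := p 2 0 (-(1 / 2)); have := p 0 (-(1 / 8)) 0
  have := p 4 0 (-1); have := p 0 (-(4 / 25)) 0
  have := p 10 0 (-(3 / 2)); have := p 0 (-(1 / 500)) (-(1001 / 1000))
  have := p 8 0 (-(3 / 2)); have := p 0 (-(1 / 300)) (-(1001 / 1000))
  simp only [Yv, Zv, Wv, Vv, Sv, mul_add, mul_assoc, mul_left_comm (Real.log (n : ℝ)),
    mul_comm _ (Real.log (n : ℝ)), l, Nat.reduceAdd] at *
  refine ⟨?_, ?_, ?_, ?_⟩ <;> linarith

/-- The margins for the quadratic variations and the jumps of `y` and `z`. -/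
lemma ev_noise_yz (C : ℝ) (hC : 0 ≤ C) : ∀ᶠ n : ℕ in atTop, ∀ t, Rng n t →
    C * (1 / t + Tv n t) * Real.log n ^ 3 ≤ Yv n t ^ 2 ∧
    C * (1 / t) * Real.log n ^ 2 ≤ Yv n t ∧
    C * (Tv n t + Yv n t ^ 2 * (1 / t)) * Real.log n ^ 3 ≤ Zv n t ^ 2 ∧
    C * (Tv n t + Yv n t * (1 / t)) * Real.log n ^ 2 ≤ Zv n t := by
  filter_upwards [gL 3 4 0 (-1) (by norm_num) (10 * C), gT 3 4 (-2) (-1) (by norm_num) (2000 * C),
    gN 3 4 (-(179 / 1000)) 0 (-1) (-1) (by norm_num) (by norm_num) (10 * C),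
    gN 3 0 (-(589 / 1000)) (-(1 / 4)) 0 0 (by norm_num) (by norm_num) (10 * C),
    gT 2 2 (-1) (-(1 / 2)) (by norm_num) C,
    gL 3 8 0 (-2) (by norm_num) (2000 * C),
    gN 3 4 (-(179 / 1000)) (-(4 / 25)) (-1) (-1) (by norm_num) (by norm_num) (10 * C),
    gN 3 0 (-(589 / 1000)) (-(8 / 25)) 0 0 (by norm_num) (by norm_num) (10 * C),
    gL 7 8 0 (-2) (by norm_num) (20 * C),
    gN 3 4 (-(1 / 4)) (-(4 / 25)) (-1) (-1) (by norm_num) (by norm_num) (20 * C),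
    gT 2 4 (-2) (-1) (by norm_num) (2000 * C),
    gN 2 4 (-(179 / 1000)) 0 (-1) (-1) (by norm_num) (by norm_num) (10 * C),
    gN 2 0 (-(589 / 1000)) (-(4 / 25)) 0 0 (by norm_num) (by norm_num) (10 * C),
    gT 4 4 (-(3 / 2)) (-1) (by norm_num) (10 * C),
    gN 2 4 (-(1 / 8)) 0 (-1) (-1) (by norm_num) (by norm_num) (10 * C)]
    with n a1 a2 a3 a4 b1 c1 c2 c3 c4 c5 d1 d2 d3 d4 d5
  intro t ht
  have ht0 : (0 : ℝ) < t := by linarith [ht.2.2.1]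
  obtain ⟨hy2, -, -⟩ := sq_bounds ht
  have p := fun k a b => tm_nonneg (n := n) ht0.le k a b
  have m := fun k k' a a' b b' => tm_mul (n := n) ht.1 ht0 k k' a a' b b'
  have hL : 0 ≤ Real.log n := by linarith [ht.2.1]
  have l := fun j k a b => log_mul_tm n t j k a b
  have := a1 t ht; have := a2 t ht; have := a3 t ht; have := a4 t ht; have := b1 t ht
  have := c1 t ht; have := c2 t ht; have := c3 t ht; have := c4 t ht; have := c5 t ht
  have := d1 t ht; have := d2 t ht; have := d3 t ht; have := d4 t ht; have := d5 t ht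
  have e1 : Yv n t ^ 2 = tm n t 4 0 (-1) + 2 * tm n t 2 (-(1 / 8)) (-(1 / 2)) +
      tm n t 0 (-(1 / 4)) 0 := by
    simp only [Yv, sq, add_mul, mul_add, m]; norm_num; ring
  have e2 : Zv n t ^ 2 = tm n t 8 0 (-2) + 2 * tm n t 4 (-(4 / 25)) (-1) +
      tm n t 0 (-(8 / 25)) 0 := by
    simp only [Zv, sq, add_mul, mul_add, m]; norm_num; ring
  have := p 4 0 (-1); have := p 2 (-(1 / 8)) (-(1 / 2)); have := p 0 (-(1 / 4)) 0
  have := p 8 0 (-2); have := p 4 (-(4 / 25)) (-1); have := p 0 (-(8 / 25)) 0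
  have := p 2 0 (-(1 / 2)); have := p 0 (-(1 / 8)) 0; have := p 0 (-(4 / 25)) 0
  have e3 : C * (Tv n t + Yv n t ^ 2 * (1 / t)) * Real.log n ^ 3 ≤
      C * (Tv n t + (2 * tm n t 4 0 (-2) + 2 * tm n t 0 (-(1 / 4)) (-1))) *
        Real.log n ^ 3 := by
    refine mul_le_mul_of_nonneg_right (mul_le_mul_of_nonneg_left (add_le_add le_rfl ?_) hC)
      (pow_nonneg hL 3)
    refine (mul_le_mul_of_nonneg_right hy2 (by positivity)).trans (le_of_eq ?_)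
    rw [tm_inv (n := n) ht0]; simp only [add_mul, mul_assoc, m]; norm_num
  have e4 : Yv n t * (1 / t) = tm n t 2 0 (-(3 / 2)) + tm n t 0 (-(1 / 8)) (-1) := by
    rw [tm_inv (n := n) ht0]; simp only [Yv, add_mul, m]; norm_num
  refine ⟨?_, ?_, e3.trans ?_, ?_⟩
  all_goals try simp only [e1, e2, e4]
  all_goals simp only [tm_inv (n := n) ht0, Yv, Zv, Tv, mul_add, add_mul, mul_assoc,
    mul_left_comm (Real.log (n : ℝ) ^ _), mul_comm _ (Real.log (n : ℝ) ^ _), l, Nat.reduceAdd] at *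
  all_goals linarith

end Vale.Agent.P046.Phase.Two
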