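import Vale.Agent.P046.ChainBridge
import Vale.Agent.P046.Phase.Two
import Vale.Agent.P046.Phase.One

/-!
# While safe, a small edge set is present with probability at most `(3 p) ^ #S`
-/

namespace Vale.Agent.P046.Phase.Upper

open Finset Filter Chain Flags

variable {n : ℕ}

/-- The bound on the codegree deviation supplied by safety at step `j`. -/
noncomputable def ySafe (n j : ℕ) : ℝ :=
  if j < iOne n then (envI n).y j else (envII n).y j

lemma safe_y {j : ℕ} {F : St n} (h : Spec.Safe n j F) :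
    Size j F ∧ ∀ e ∈ F, |yy j F e| ≤ ySafe n j := by
  unfold ySafe
  split_ifs with hj
  · exact ⟨(h.1 hj.le).good.size, (h.1 hj.le).good.y⟩
  · exact ⟨(h.2 (not_lt.1 hj)).size, (h.2 (not_lt.1 hj)).y⟩

/-- Codegrees and the number of triangles at a state within the bound `y`. -/
lemma deg_bounds {j : ℕ} {F : St n} (hj : 3 * j < n.choose 2) {y : ℝ} (hsize : Size j F)
    (hy : ∀ e ∈ F, |yy j F e| ≤ y) :
    ((triangles F).card : ℝ) ≤ mm n j * mu n j * (1 + y) / 3 ∧
      ∀ e ∈ F, mu n j * (1 - y) ≤ (((triangles F).filter fun t => e ∈ sides t).card : ℝ) := by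
  have hmu := Two.mu_pos hj
  have hb : ∀ e ∈ F, mu n j * (1 - y) ≤ (deg F e : ℝ) ∧ (deg F e : ℝ) ≤ mu n j * (1 + y) := by
    intro e he
    have h := hy e he
    rw [yy, div_sub_one hmu.ne', abs_div, abs_of_pos hmu, div_le_iff₀ hmu, abs_le] at h
    simp only [triAt] at h
    simp only [deg]
    constructor <;> nlinarith [h.1, h.2]
  refine ⟨?_, fun e he => (hb e he).1⟩
  have h := sum_le_sum fun e he => (hb e he).2
  rw [Codeg.sum_deg, sum_const, nsmul_eq_mul, card_eq_mm hsize] at h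
  linarith

/-- The three small quantities of the upper bound. -/
lemma ev_tiny : ∀ᶠ n : ℕ in atTop,
    64 * Real.log n ≤ (n : ℝ) ^ (1 / 8 : ℝ) ∧
    64 * Real.log n ^ 3 ≤ (D0 n / 2) ^ (1 / 2 : ℝ) ∧
    64 * Real.log n ^ 4 ≤ (D0 n / 2) ^ (1 : ℝ) := by
  filter_upwards [Two.ev_log_pow 64 1 (show (0 : ℝ) < 1 / 8 by norm_num),
    Two.ev_log_D0 64 3 (show (0 : ℝ) < 1 / 2 by norm_num),
    Two.ev_log_D0 64 4 (show (0 : ℝ) < 1 by norm_num)] with n h1 h2 h3
  exact ⟨by simpa using h1, h2, h3⟩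

/-- Fixed small edge sets are rarely present while safe. -/
theorem present : Spec.Present := by
  classical
  rw [Spec.Present, ← eventually_atTop]
  filter_upwards [Two.ev_ok, One.ev_iOne_le_iTwo, ev_tiny, eventually_ge_atTop 2]
    with n hok h12 htiny hn2
  intro i hi S hS
  obtain ⟨ht1, ht2, ht3⟩ := htiny
  have o := hok (iTwo n) h12 le_rfl
  obtain ⟨hn0', hL1, -, hD, -⟩ := o.rng
  have hn0 : (0 : ℝ) < n := by exact_mod_cast hn0'
  have hn1 : (1 : ℝ) ≤ n := by exact_mod_cast (show 1 ≤ n by omega)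
  set L := Real.log n with hL
  set d := D0 n / 2 with hd
  have hd0 : 0 < d := half_pos (Real.exp_pos _)
  have hroom : ∀ j, j ≤ iTwo n → 3 * j < n.choose 2 := fun j hj => by have := o.room; omega
  have hmud : ∀ j, j ≤ iTwo n → d ≤ mu n j := fun j hj =>
    hD.trans (Two.mu_anti hj (hroom _ le_rfl))
  have hp1 : 0 ≤ (n : ℝ) ^ (-(13 / 100) : ℝ) := Real.rpow_nonneg hn0.le _
  have hp2 : 0 ≤ (n : ℝ) ^ (-(1 / 8) : ℝ) := Real.rpow_nonneg hn0.le _
  have hsq : 0 < Real.sqrt d := Real.sqrt_pos.2 hd0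
  have hY : ∀ j, j ≤ iTwo n → 0 ≤ ySafe n j ∧ ySafe n j ≤ 1 / (32 * L) := by
    intro j hj
    have e1 : (n : ℝ) ^ (-(13 / 100) : ℝ) ≤ 1 / (64 * L) := by
      refine (Real.rpow_le_rpow_of_exponent_le hn1 (by norm_num : (-(13 / 100) : ℝ) ≤ -(1 / 8))).trans ?_
      rw [Real.rpow_neg hn0.le, ← one_div]
      exact one_div_le_one_div_of_le (by linarith) ht1
    have e2 : (n : ℝ) ^ (-(1 / 8) : ℝ) ≤ 1 / (64 * L) := by
      rw [Real.rpow_neg hn0.le, ← one_div]
      exact one_div_le_one_div_of_le (by linarith) ht1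
    have e3 : L ^ 2 / Real.sqrt (mu n j) ≤ 1 / (64 * L) := by
      refine (div_le_div_of_nonneg_left (sq_nonneg L) hsq (Real.sqrt_le_sqrt (hmud j hj))).trans ?_
      rw [div_le_div_iff₀ hsq (by linarith), one_mul, Real.sqrt_eq_rpow]
      refine le_trans (le_of_eq ?_) ht2
      ring
    have e4 : 1 / (32 * L) = 1 / (64 * L) + 1 / (64 * L) := by ring
    have e5 : (0 : ℝ) ≤ 1 / (64 * L) := le_trans hp2 e2
    have e6 : 0 ≤ L ^ 2 / Real.sqrt (mu n j) := div_nonneg (sq_nonneg _) (Real.sqrt_nonneg _)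
    simp only [ySafe, envI, envII, Real.rpow_eq_pow, ← hL]
    split_ifs
    · exact ⟨hp1, by linarith⟩
    · exact ⟨by linarith, by linarith⟩
  have hs : ∀ j, j ≤ iTwo n → (S.card : ℝ) / mu n j ≤ 1 / (64 * L) := by
    intro j hj
    refine (div_le_div₀ (by positivity) hS hd0 (hmud j hj)).trans ?_
    rw [div_le_div_iff₀ hd0 (by linarith), one_mul]
    rw [Real.rpow_one] at ht3
    refine le_trans (le_of_eq ?_) ht3
    ring
  set Good' : ℕ → St n → Prop := fun j F => j < i → Spec.Safe n j F with hG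
  set a : ℕ → ℝ := fun j => if j < i then mu n j * (1 - ySafe n j) else 0 with ha
  set q : ℕ → ℝ := fun j => if j < i then mm n j * mu n j * (1 + ySafe n j) / 3
    else (((univ : Finset (Fin n)).powersetCard 3).card : ℝ) with hq
  set ε : ℕ → ℝ := fun j => 2 * ySafe n j + (S.card : ℝ) / mu n j with he
  have hgood : ∀ j F, Good' j F → ((triangles F).card : ℝ) ≤ q j ∧
      ∀ e ∈ S, e ∈ F → a j ≤ (((triangles F).filter fun t => e ∈ sides t).card : ℝ) := by
    intro j F hF
    simp only [ha, hq]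
    split_ifs with hj
    · obtain ⟨h1, h2⟩ := safe_y (hF hj)
      obtain ⟨h3, h4⟩ := deg_bounds (hroom j (by omega)) h1 h2
      exact ⟨h3, fun e _ he => h4 e he⟩
    · exact ⟨by exact_mod_cast card_filter_le _ _, fun e _ _ => Nat.cast_nonneg _⟩
  have hm : 3 * i + 3 ≤ n.choose 2 := by have := o.room; omega
  have haq : ∀ j, j < i → 3 * (1 - ε j) / (((n.choose 2 : ℕ) : ℝ) - 3 * j) ≤
      (a j - S.card) / q j := by
    intro j hj
    have hmm : 0 < mm n j := Two.mm_pos (hroom j (by omega))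
    have hmu := Two.mu_pos (hroom j (by omega))
    have hy := (hY j (by omega)).1
    have hs0 : (0 : ℝ) ≤ S.card := Nat.cast_nonneg _
    simp only [ha, hq, he, if_pos hj, ← mm.eq_1]
    rw [div_le_div_iff₀ hmm (by positivity), ← sub_nonneg]
    have e : (mu n j * (1 - ySafe n j) - S.card) * mm n j -
        3 * (1 - (2 * ySafe n j + (S.card : ℝ) / mu n j)) * (mm n j * mu n j * (1 + ySafe n j) / 3) =
        mm n j * (2 * ySafe n j * mu n j + S.card) * ySafe n j := by
      field_simp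
      ring
    rw [e]
    positivity
  have hsum : ∑ j ∈ range i, 3 * ε j / (((n.choose 2 : ℕ) : ℝ) - 3 * j) ≤ 1 / 4 := by
    have h1 : ∀ j ∈ range i, 3 * ε j / (((n.choose 2 : ℕ) : ℝ) - 3 * j) ≤
        5 / (64 * L) * (3 / mm n (0 + j)) := by
      intro j hj
      have hj' : j ≤ iTwo n := by have := mem_range.1 hj; omega
      have hmm : 0 < mm n j := Two.mm_pos (hroom j hj')
      have he5 : ε j ≤ 5 / (64 * L) := by
        have := (hY j hj').2
        have := hs j hj'
        have e : 5 / (64 * L) = 2 * (1 / (32 * L)) + 1 / (64 * L) := by ring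
        simp only [he]
        linarith
      rw [zero_add, ← mm.eq_1, show 3 * ε j / mm n j = ε j * (3 / mm n j) by ring]
      exact mul_le_mul_of_nonneg_right he5 (by positivity)
    refine (sum_le_sum h1).trans ?_
    rw [← mul_sum]
    refine (mul_le_mul_of_nonneg_left (Two.sum_time (hroom _ (by omega)))
      (by positivity)).trans ?_
    rw [← hL]
    have e : 5 / (64 * L) * (2 * L) = 10 / 64 := by field_simp; ring
    rw [e]; norm_num
  have hmi : 3 / (((n.choose 2 : ℕ) : ℝ) - 3 * i) ≤ 1 / 2 := by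
    have : ((3 * i + 6 : ℕ) : ℝ) ≤ (n.choose 2 : ℕ) := by
      exact_mod_cast (show 3 * i + 6 ≤ n.choose 2 by have := o.room; omega)
    push_cast at this
    rw [div_le_iff₀ (by linarith)]
    linarith
  have hbase : Real.exp (3 / (((n.choose 2 : ℕ) : ℝ) - 3 * i) +
      ∑ j ∈ range i, 3 * ε j / (((n.choose 2 : ℕ) : ℝ) - 3 * j)) ≤ 3 :=
    (Real.exp_le_exp.2 (by linarith)).trans (le_of_lt (Real.exp_one_lt_d9.trans (by norm_num)))
  have hstep := EX_present_pow_le (Good := Good') S (complete n) hgood hm haq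
  rw [EX_eq_killed] at hstep
  calc killed (Spec.Safe n) i (fun _ F => if S ⊆ F then (1 : ℝ) else 0) 0 (complete n)
      ≤ killed Good' i (fun _ F => if S ⊆ F then (1 : ℝ) else 0) 0 (complete n) :=
        killed_mono_good (Good := Spec.Safe n) (Good' := Good')
          (f := fun _ F => if S ⊆ F then (1 : ℝ) else 0) (fun _ _ h _ => h)
          (fun _ _ => by split_ifs <;> norm_num) i 0 _
    _ ≤ killed Good' i (fun k F => @ite ℝ (Good' k F) (Classical.propDecidable _)
          (if S ⊆ F then (1 : ℝ) else 0) 0) 0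
          (complete n) :=
        killed_mono i 0 _ fun F _ => by
          rw [if_pos (show Good' (0 + i) F from fun h => absurd h (by omega))]
    _ ≤ (Real.exp (3 / (((n.choose 2 : ℕ) : ℝ) - 3 * i) +
          ∑ j ∈ range i, 3 * ε j / (((n.choose 2 : ℕ) : ℝ) - 3 * j)) *
        ((((n.choose 2 : ℕ) : ℝ) - 3 * i) / (n.choose 2 : ℕ))) ^ S.card := hstep
    _ ≤ (3 * pp n i) ^ S.card := by
        rw [← mm.eq_1, show mm n i / ((n.choose 2 : ℕ) : ℝ) = pp n i from rfl]
        have hp : 0 ≤ pp n i := (Two.pp_pos (hroom i hi)).le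
        exact pow_le_pow_left₀ (mul_nonneg (Real.exp_pos _).le hp)
          (mul_le_mul_of_nonneg_right hbase hp) _

end Vale.Agent.P046.Phase.Upper
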